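import Mathlib
import Vale.Agent.P165.Basic
import Vale.Agent.P151.BK

/-!
Events decided by possibly infinite sets of edges, forcing of finitely many edges, and the
van den Berg–Kesten inequality for connections.
-/

namespace Vale.Agent.P165.Large

open MeasureTheory ProbabilityTheory Set
open P151 (openOcc disjOcc bern)
open scoped ENNReal

variable {W : Type} {p : unitInterval}

/-- The events decided by the coordinates in `S`. -/
@[reducible] def msp (S : Set (Sym2 W)) : MeasurableSpace (Sym2 W → Bool) :=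
  ⨆ e ∈ S, MeasurableSpace.comap (fun ω : Sym2 W → Bool => ω e) inferInstance

lemma msp_le (S : Set (Sym2 W)) : msp S ≤ (inferInstance : MeasurableSpace (Sym2 W → Bool)) :=
  iSup₂_le fun e _ => (measurable_pi_apply e).comap_le

lemma msp_mono {S T : Set (Sym2 W)} (h : S ⊆ T) : msp S ≤ msp T :=
  biSup_mono fun _ he => h he

/-- The event is measurable for the coordinates in `S`. -/
def Meas (S : Set (Sym2 W)) (A : Set (Sym2 W → Bool)) : Prop := MeasurableSet[msp S] A

lemma Meas.measurableSet {S : Set (Sym2 W)} {A : Set (Sym2 W → Bool)} (h : Meas S A) :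
    MeasurableSet A :=
  msp_le S A h

lemma Meas.mono {S T : Set (Sym2 W)} {A : Set (Sym2 W → Bool)} (h : Meas S A) (hST : S ⊆ T) :
    Meas T A :=
  msp_mono hST A h

/-- Events of disjoint sets of coordinates are independent. -/
lemma Meas.inter_eq {S T : Set (Sym2 W)} {A B : Set (Sym2 W → Bool)} (hA : Meas S A)
    (hB : Meas T B) (h : Disjoint S T) : perc W p (A ∩ B) = perc W p A * perc W p B := by
  have hi : iIndep (fun e : Sym2 W =>
      MeasurableSpace.comap (fun ω : Sym2 W → Bool => ω e) inferInstance) (perc W p) :=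
    (iIndepFun_iff_iIndep _ _ _).1
      (iIndepFun_infinitePi (X := fun _ b => b) fun _ => measurable_id)
  exact (ProbabilityTheory.Indep_iff _ _ _).1
    (indep_iSup_of_disjoint (fun e => (measurable_pi_apply e).comap_le) hi h) A B hA hB

/-- Being open at `e` is an event of any set containing `e`. -/
lemma meas_eval {S : Set (Sym2 W)} {e : Sym2 W} (he : e ∈ S) (t : Set Bool) :
    Meas S ((fun ω : Sym2 W → Bool => ω e) ⁻¹' t) :=
  le_biSup (f := fun e : Sym2 W =>
    MeasurableSpace.comap (fun ω : Sym2 W → Bool => ω e) inferInstance) he _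
    ⟨t, t.toFinite.measurableSet, rfl⟩

/-- Events given by witness families are decided by the coordinates of the witnesses. -/
lemma meas_openOcc [Countable W] {F : Set (Finset (Sym2 W))} {S : Set (Sym2 W)}
    (h : ∀ s ∈ F, ↑s ⊆ S) : Meas S (openOcc F) := by
  have : openOcc F = ⋃ s ∈ F, ⋂ e ∈ s, (fun ω : Sym2 W → Bool => ω e) ⁻¹' {true} := by
    ext ω; simp [openOcc]
  rw [Meas, this]
  exact MeasurableSet.biUnion F.to_countable fun s hs =>
    Finset.measurableSet_biInter s fun e he => meas_eval (h s hs he) _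

lemma meas_allOpen (E : Finset (Sym2 W)) : Meas (↑E) (allOpen E) := by
  have : allOpen E = ⋂ e ∈ E, (fun ω : Sym2 W → Bool => ω e) ⁻¹' {true} := by
    ext ω; simp [allOpen]
  rw [Meas, this]
  exact Finset.measurableSet_biInter E fun e he => meas_eval he _

lemma perc_allOpen (E : Finset (Sym2 W)) :
    perc W p (allOpen E) = ENNReal.ofReal ((p : ℝ) ^ E.card) := by
  rw [← real_allOpen (p := p) E, measureReal_def, ENNReal.ofReal_toReal (measure_ne_top _ _)]

/-- Open the coordinates in `E`. -/
def forceOn [DecidableEq W] (E : Finset (Sym2 W)) (ω : Sym2 W → Bool) : Sym2 W → Bool :=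
  fun e => if e ∈ E then true else ω e

/-- An event which is kept when coordinates are opened. -/
def Up (A : Set (Sym2 W → Bool)) : Prop :=
  ∀ ω η, (∀ e, ω e = true → η e = true) → ω ∈ A → η ∈ A

lemma up_openOcc (F : Set (Finset (Sym2 W))) : Up (openOcc F) :=
  fun _ _ h ⟨s, hs, ho⟩ => ⟨s, hs, fun a ha => h a (ho a ha)⟩

lemma meas_force [DecidableEq W] (E : Finset (Sym2 W)) {S : Set (Sym2 W)}
    {A : Set (Sym2 W → Bool)} (hA : Meas S A) : Meas (S \ ↑E) (forceOn E ⁻¹' A) := by
  suffices h : msp S ≤ MeasurableSpace.map (forceOn E) (msp (S \ ↑E)) from h A hA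
  refine iSup₂_le fun e he => ?_
  rintro _ ⟨t, -, rfl⟩
  change Meas _ _
  by_cases hE : e ∈ E
  · have : forceOn E ⁻¹' ((fun ω : Sym2 W → Bool => ω e) ⁻¹' t) = {_ω | true ∈ t} := by
      ext ω; simp [forceOn, hE]
    rw [Meas, this]
    exact MeasurableSet.const _
  · have : forceOn E ⁻¹' ((fun ω : Sym2 W → Bool => ω e) ⁻¹' t)
        = (fun ω : Sym2 W → Bool => ω e) ⁻¹' t := by
      ext ω; simp [forceOn, hE]
    rw [this]
    exact meas_eval (S := S \ ↑E) ⟨he, hE⟩ t

/-- An increasing event and the opening of `E` happen together with probability at least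
`p ^ |E|` times that of the event. -/
lemma force_le [DecidableEq W] {A : Set (Sym2 W → Bool)} (hU : Up A) (hA : MeasurableSet A)
    (E : Finset (Sym2 W)) :
    ENNReal.ofReal ((p : ℝ) ^ E.card) * perc W p A ≤ perc W p (A ∩ allOpen E) := by
  have hA' : Meas univ A := by
    have : (inferInstance : MeasurableSpace (Sym2 W → Bool)) ≤ msp univ :=
      iSup_le fun e => le_biSup (f := fun e : Sym2 W =>
        MeasurableSpace.comap (fun ω : Sym2 W → Bool => ω e) inferInstance) (mem_univ e)
    exact this A hA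
  have h1 : A ⊆ forceOn E ⁻¹' A := fun ω h => hU ω _ (fun e he => by simp [forceOn, he]) h
  have h2 : forceOn E ⁻¹' A ∩ allOpen E = A ∩ allOpen E := by
    ext ω
    refine and_congr_left fun ho => ?_
    have : forceOn E ω = ω := by
      funext e; by_cases he : e ∈ E <;> simp [forceOn, he]; exact ho e he
    simp [this]
  rw [← h2, (meas_force E hA').inter_eq (meas_allOpen E) (by simp [Set.disjoint_left]),
    perc_allOpen, mul_comm]
  exact mul_le_mul_left (measure_mono h1) _

/-- The edge sets of the walks from `x` to a vertex of `T` in `K`. -/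
def wit (K : SimpleGraph W) (x : W) (T : Set W) : Set (Finset (Sym2 W)) :=
  {E | ∃ y ∈ T, ∃ q : K.Walk x y, ∀ e, e ∈ E ↔ e ∈ q.edges}

/-- `x` is joined to `T` in `K`. -/
def joins (K : SimpleGraph W) (x : W) (T : Set W) : Set (Sym2 W → Bool) := openOcc (wit K x T)

lemma mem_joins {K : SimpleGraph W} {x : W} {T : Set W} {ω : Sym2 W → Bool} :
    ω ∈ joins K x T ↔ ∃ y ∈ T, ω ∈ conn K x y := by
  classical
  constructor
  · rintro ⟨E, ⟨y, hy, q, hq⟩, ho⟩
    exact ⟨y, hy, reachable_openGraph_of_walk q fun e he => ho e ((hq e).2 he)⟩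
  · rintro ⟨y, hy, h⟩
    obtain ⟨q, -, hq⟩ := exists_path_of_mem_conn h
    exact ⟨q.edges.toFinset, ⟨y, hy, q, fun e => List.mem_toFinset⟩, hq⟩

lemma joins_singleton (K : SimpleGraph W) (x y : W) : joins K x {y} = conn K x y := by
  ext ω; simp [mem_joins]

lemma joins_eq_iUnion (K : SimpleGraph W) (x : W) (T : Set W) :
    joins K x T = ⋃ y ∈ T, conn K x y := by
  ext ω; simp [mem_joins]

lemma meas_joins [Countable W] (K : SimpleGraph W) (x : W) (T : Set W) :
    Meas K.edgeSet (joins K x T) := by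
  refine meas_openOcc fun E ⟨y, _, q, hq⟩ e he => ?_
  exact q.edges_subset_edgeSet ((hq e).1 he)

lemma measurableSet_joins [Countable W] (K : SimpleGraph W) (x : W) (T : Set W) :
    MeasurableSet (joins K x T) :=
  (meas_joins K x T).measurableSet

lemma meas_conn [Countable W] (K : SimpleGraph W) (x y : W) : Meas K.edgeSet (conn K x y) :=
  joins_singleton K x y ▸ meas_joins K x {y}

/-- The van den Berg–Kesten inequality for two witness families. -/
theorem bk_two [Countable W] (F G : Set (Finset (Sym2 W))) :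
    perc W p {ω | ∃ s ∈ F, ∃ t ∈ G, Disjoint s t ∧ (∀ e ∈ s, ω e = true) ∧ ∀ e ∈ t, ω e = true}
      ≤ perc W p (openOcc F) * perc W p (openOcc G) := by
  have h := P151.bk (p := p) ![F, G]
  rw [Fin.prod_univ_two] at h
  refine le_trans (measure_mono ?_) h
  rintro ω ⟨s, hs, t, ht, hd, h1, h2⟩
  exact ⟨![s, t], Fin.forall_fin_two.2 ⟨hs, ht⟩, Fin.forall_fin_two.2 ⟨h1, h2⟩,
    Fin.forall_fin_two.2 ⟨Fin.forall_fin_two.2 ⟨fun h => absurd rfl h, fun _ => hd⟩,
      Fin.forall_fin_two.2 ⟨fun _ => hd.symm, fun h => absurd rfl h⟩⟩⟩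

/-- A path visiting `y` splits into two connections on disjoint sets of edges. -/
theorem bk_split [Countable W] {A : Set (Sym2 W → Bool)} {K₁ K₂ : SimpleGraph W} {x : W}
    {S T : Set W}
    (h : ∀ ω ∈ A, ∃ y ∈ S, ∃ z ∈ T, ∃ q : K₁.Walk x y, ∃ r : K₂.Walk y z,
      (∀ e ∈ q.edges, ω e = true) ∧ (∀ e ∈ r.edges, ω e = true) ∧ ∀ e ∈ q.edges, e ∉ r.edges) :
    perc W p A ≤ ∑' y : S, perc W p (conn K₁ x y) * perc W p (joins K₂ (y : W) T) := by
  classical
  refine le_trans (measure_mono (t := ⋃ y : S, {ω | ∃ s ∈ wit K₁ x {(y : W)},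
    ∃ t ∈ wit K₂ (y : W) T, Disjoint s t ∧ (∀ e ∈ s, ω e = true) ∧ ∀ e ∈ t, ω e = true})
    fun ω hω => ?_) ?_
  · obtain ⟨y, hy, z, hz, q, r, hq, hr, hqr⟩ := h ω hω
    exact mem_iUnion.2 ⟨⟨y, hy⟩, q.edges.toFinset, ⟨y, rfl, q, fun e => List.mem_toFinset⟩,
      r.edges.toFinset, ⟨z, hz, r, fun e => List.mem_toFinset⟩,
      Finset.disjoint_left.2 fun e he he' =>
        hqr e (List.mem_toFinset.1 he) (List.mem_toFinset.1 he'),
      fun e he => hq e (List.mem_toFinset.1 he), fun e he => hr e (List.mem_toFinset.1 he)⟩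
  · refine (measure_iUnion_le _).trans (ENNReal.tsum_le_tsum fun y => ?_)
    have := bk_two (p := p) (wit K₁ x {(y : W)}) (wit K₂ (y : W) T)
    rwa [← joins_singleton]

lemma joins_mono {K K' : SimpleGraph W} (h : K ≤ K') (x : W) {T T' : Set W} (hT : T ⊆ T') :
    joins K x T ⊆ joins K' x T' := by
  intro ω hω
  obtain ⟨y, hy, hc⟩ := mem_joins.1 hω
  exact mem_joins.2 ⟨y, hT hy, SimpleGraph.Reachable.mono
    (show openGraph K ω ≤ openGraph K' ω from fun _ _ ha => ⟨h ha.1, ha.2⟩) hc⟩

/-- A walk of length at most `M` moves the start of a connection at cost `p ^ M`. -/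
theorem walk_joins [Countable W] [DecidableEq W] {K : SimpleGraph W} {a b : W} (r : K.Walk a b)
    {M : ℕ} (hM : r.length ≤ M) (T : Set W) :
    ENNReal.ofReal ((p : ℝ) ^ M) * perc W p (joins K b T) ≤ perc W p (joins K a T) := by
  refine le_trans ?_ (le_trans (force_le (up_openOcc _) (measurableSet_joins K b T) r.edges.toFinset)
    (measure_mono fun ω hω => ?_))
  · refine mul_le_mul_left (ENNReal.ofReal_le_ofReal (pow_le_pow_of_le_one p.2.1 p.2.2 ?_)) _
    exact (List.toFinset_card_le _).trans (by simpa using hM)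
  · obtain ⟨y, hy, hc⟩ := mem_joins.1 hω.1
    exact mem_joins.2 ⟨y, hy, (reachable_openGraph_of_walk r fun e he =>
      hω.2 e (List.mem_toFinset.2 he)).trans hc⟩

/-- A first random target followed by an independent continuation from it. -/
theorem indep_union {κ : Type} [Countable κ] {S T : Set (Sym2 W)} (hST : Disjoint S T)
    {A B : κ → Set (Sym2 W → Bool)} (hA : ∀ k, Meas S (A k)) (hB : ∀ k, Meas T (B k)) {b : ℝ≥0∞}
    (hb : ∀ k, b ≤ perc W p (B k)) :
    perc W p (⋃ k, A k) * b ≤ perc W p (⋃ k, A k ∩ B k) := by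
  rcases isEmpty_or_nonempty κ with h | h
  · simp [Set.iUnion_of_empty]
  obtain ⟨φ, hφ⟩ := exists_surjective_nat κ
  rw [← hφ.iUnion_comp, ← hφ.iUnion_comp fun k => A k ∩ B k, ← iUnion_disjointed]
  have hd : ∀ n, Meas S (disjointed (fun n => A (φ n)) n) := fun n => by
    rw [Meas]
    exact MeasurableSet.disjointed (fun n => hA (φ n)) n
  rw [measure_iUnion (disjoint_disjointed _) fun n => (hd n).measurableSet,
    ← ENNReal.tsum_mul_right]
  refine le_trans (ENNReal.tsum_le_tsum fun n => ?_) (le_trans (measure_iUnion ?_ fun n =>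
    (hd n).measurableSet.inter (hB (φ n)).measurableSet).ge (measure_mono ?_))
  · exact le_trans (mul_le_mul_right (hb (φ n)) _) ((hd n).inter_eq (hB (φ n)) hST).ge
  · exact fun i j hij => (disjoint_disjointed _ hij).mono inter_subset_left inter_subset_left
  · exact iUnion_mono fun n => inter_subset_inter_left _ (disjointed_subset _ n)

end Vale.Agent.P165.Large
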