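import Mathlib
import Vale.Agent.P165.Basic

/-!
Percolation on a graph which lies equivariantly over the Cayley tree of the free group on two
letters: half-trees, the part of the graph over a half-tree, and the quantities used in the proof
that the critical point lies below the uniqueness point.
-/

namespace Vale.Agent.P165.Large

open MeasureTheory
open scoped ENNReal

/-- The free group on two letters. -/
abbrev F2 := FreeGroup (Fin 2)

/-- A letter or the inverse of a letter. -/
abbrev Letter := Fin 2 × Bool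

/-- The element of the free group given by a letter. -/
def letter (l : Letter) : F2 := FreeGroup.mk [l]

/-- Word length in the free group. -/
def len (g : F2) : ℕ := g.toWord.length

/-- The common prefix of two lists. -/
def lcp : List Letter → List Letter → ℕ
  | a :: u, b :: v => if a = b then lcp u v + 1 else 0
  | _, _ => 0

/-- An oriented edge of the tree, from `base` to `base * letter dir`. -/
@[ext] structure Half where
  base : F2
  dir : Letter
deriving DecidableEq

/-- The half-tree at the head of the oriented edge. -/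
def Half.side (h : Half) : Set F2 := {g | (h.base⁻¹ * g).toWord.head? = some h.dir}

/-- The same edge with the opposite orientation. -/
def Half.op (h : Half) : Half := ⟨h.base * letter h.dir, (h.dir.1, !h.dir.2)⟩

/-- Translation of an oriented edge. -/
def Half.shift (g : F2) (h : Half) : Half := ⟨g * h.base, h.dir⟩

/-- The height of `g` towards `P`, up to a constant. -/
def ht (P g : F2) : ℤ := (len P : ℤ) - len (g⁻¹ * P)

/-- A graph on `Γ × ι`, invariant under `Γ`, with a homomorphism of `Γ` to the free group, bounded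
edges and bounded lifts of the letters. -/
structure Frame (Γ ι : Type) [Group Γ] where
  π : Γ →* F2
  H : SimpleGraph (Γ × ι)
  locFin : H.LocallyFinite
  connected : H.Connected
  inv : ∀ (g : Γ) (u v : Γ × ι), H.Adj u v → H.Adj (g * u.1, u.2) (g * v.1, v.2)
  L : ℕ
  hL : ∀ u v, H.Adj u v → len ((π u.1)⁻¹ * π v.1) ≤ L
  γ : Letter → Γ
  hγ : ∀ l, π (γ l) = letter l
  rad : ℕ
  lift : ∀ (v : Γ × ι) (l : Letter), ∃ q : H.Walk v (v.1 * γ l, v.2), q.length ≤ rad
  swap : ∀ (v : Γ × ι) (j : ι), ∃ q : H.Walk v (v.1, j), q.length ≤ rad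

variable {Γ ι : Type} [Group Γ] (f : Frame Γ ι)

instance Frame.instLocallyFinite : f.H.LocallyFinite := f.locFin

/-- The projection to the tree. -/
def Frame.pr (v : Γ × ι) : F2 := f.π v.1

/-- Left translation of vertices. -/
def Frame.act (g : Γ) (v : Γ × ι) : Γ × ι := (g * v.1, v.2)

/-- The margin beyond which a point of a half-tree counts as deep. -/
def Frame.depth : ℕ := (f.rad + 2) * (f.L + 1)

/-- The vertices over a half-tree which are joined over it to deep vertices. -/
def Frame.Vs (h : Half) : Set (Γ × ι) :=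
  {v | f.pr v ∈ h.side ∧ ∃ w, ∃ q : f.H.Walk v w,
    (∀ u ∈ q.support, f.pr u ∈ h.side) ∧ f.depth < len (h.base⁻¹ * f.pr w)}

/-- The boundary vertices of `Vs`. -/
def Frame.port (h : Half) : Set (Γ × ι) := {v | v ∈ f.Vs h ∧ ∃ u, f.H.Adj v u ∧ u ∉ f.Vs h}

/-- The graph without the edges inside `Vs h`. -/
def Frame.avoid (h : Half) : SimpleGraph (Γ × ι) where
  Adj u v := f.H.Adj u v ∧ ¬(u ∈ f.Vs h ∧ v ∈ f.Vs h)
  symm := ⟨fun _ _ ⟨a, b⟩ => ⟨a.symm, fun c => b c.symm⟩⟩
  loopless := ⟨fun _ ⟨a, _⟩ => a.ne rfl⟩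

/-- The graph without the edges that meet the preimage of the half-tree. -/
def Frame.avoidSide (h : Half) : SimpleGraph (Γ × ι) where
  Adj u v := f.H.Adj u v ∧ f.pr u ∉ h.side ∧ f.pr v ∉ h.side
  symm := ⟨fun _ _ ⟨a, b, c⟩ => ⟨a.symm, c, b⟩⟩
  loopless := ⟨fun _ ⟨a, _⟩ => a.ne rfl⟩

/-- The two point function of a graph on the vertices. -/
noncomputable def Frame.tau (_f : Frame Γ ι) (q : unitInterval) (K : SimpleGraph (Γ × ι))
    (x y : Γ × ι) : ℝ≥0∞ :=
  perc (Γ × ι) q (conn K x y)

/-- `x` is joined in `K` to the port of `h`. -/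
def Frame.hit (K : SimpleGraph (Γ × ι)) (x : Γ × ι) (h : Half) :
    Set (Sym2 (Γ × ι) → Bool) :=
  ⋃ z ∈ f.port h, conn K x z

/-- The expected number of port vertices of `h` reached from `x` without using `Vs h`. -/
noncomputable def Frame.Y (q : unitInterval) (x : Γ × ι) (h : Half) : ℝ≥0∞ :=
  ∑' z : f.port h, f.tau q (f.avoid h) x z

/-- The susceptibility is at most `X`. -/
def Frame.SuscLe (q : unitInterval) (X : ℝ) : Prop :=
  ∀ (x : Γ × ι) (T : Finset (Γ × ι)), ∑ y ∈ T, (perc (Γ × ι) q).real (conn f.H x y) ≤ X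

/-- The susceptibility tilted by the height towards every point is at most `M`. -/
def Frame.TiltLe (q : unitInterval) (t M : ℝ) : Prop :=
  ∀ (P : F2) (x : Γ × ι) (T : Finset (Γ × ι)),
    ∑ y ∈ T, (perc (Γ × ι) q).real (conn f.H x y) * t ^ (ht P (f.pr y) - ht P (f.pr x)) ≤ M

/-- The main estimate: below the critical point the tilted susceptibility is at most a small
power of the susceptibility. -/
def Frame.TiltBound : Prop :=
  ∃ C : ℝ, 0 ≤ C ∧ ∀ q : unitInterval, pc f.H / 2 ≤ q → (q : ℝ) < pc f.H →
    ∃ t : ℝ, 1 < t ∧ t ≤ 2 ∧ ∀ X : ℝ, 1 ≤ X → f.SuscLe q X →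
      f.TiltLe q t (C * X ^ (1 / 4 : ℝ))

end Vale.Agent.P165.Large
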