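import Mathlib
import Vale.Agent.P165.Large.Frame

/-!
Combinatorics of the Cayley tree of the free group on two letters: word length, common prefixes,
half-trees, geodesics, outward extensions, spheres and heights.
-/

namespace Vale.Agent.P165.Large

open FreeGroup

/-- The inverse letter. -/
def linv (l : Letter) : Letter := (l.1, !l.2)

theorem linv_linv (l : Letter) : linv (linv l) = l := by simp [linv]

theorem linv_ne (l : Letter) : linv l ≠ l := by revert l; decide

theorem letterOk_iff : ∀ a b : Letter, (a.1 = b.1 → a.2 = b.2) ↔ a ≠ linv b := by decide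

theorem exists_letter_ne : ∀ a b : Letter, ∃ l : Letter, l ≠ a ∧ l ≠ b := by decide

theorem isReduced_concat {w : List Letter} {l : Letter} :
    IsReduced (w ++ [l]) ↔ IsReduced w ∧ w.getLast? ≠ some (linv l) := by
  rw [FreeGroup.IsReduced, List.isChain_append]
  simp only [List.isChain_singleton, List.head?_cons, Option.mem_def, Option.some.injEq,
    forall_eq', true_and, letterOk_iff, FreeGroup.IsReduced]
  constructor
  · rintro ⟨h1, h2⟩
    exact ⟨h1, fun e => h2 _ e rfl⟩
  · rintro ⟨h1, h2⟩
    exact ⟨h1, fun x hx e => h2 (e ▸ hx)⟩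

theorem isReduced_append {u v : List Letter} :
    IsReduced (u ++ v) ↔
      IsReduced u ∧ IsReduced v ∧ ∀ a ∈ u.getLast?, ∀ b ∈ v.head?, a ≠ linv b := by
  simp only [FreeGroup.IsReduced, List.isChain_append, letterOk_iff]

theorem isReduced_take {w : List Letter} (h : IsReduced w) (n : ℕ) : IsReduced (w.take n) :=
  (isReduced_append.1 ((List.take_append_drop n w).symm ▸ h)).1

theorem isReduced_drop {w : List Letter} (h : IsReduced w) (n : ℕ) : IsReduced (w.drop n) :=
  (isReduced_append.1 ((List.take_append_drop n w).symm ▸ h)).2.1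

theorem toWord_mk_of_reduced {w : List Letter} (h : IsReduced w) : (mk w).toWord = w := by
  rw [toWord_mk, h.reduce_eq]

theorem letter_toWord (l : Letter) : (letter l).toWord = [l] :=
  toWord_mk_of_reduced IsReduced.singleton

theorem letter_inv (l : Letter) : (letter l)⁻¹ = letter (linv l) := by
  simp [letter, inv_mk, invRev, linv]

theorem letter_mul_letter_linv (l : Letter) : letter l * letter (linv l) = 1 := by
  rw [← letter_inv, mul_inv_cancel]

theorem invRev_length_eq (w : List Letter) : (invRev w).length = w.length := invRev_length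

theorem invRev_getLast? (w : List Letter) : (invRev w).getLast? = w.head?.map linv := by
  cases w <;> simp [invRev, linv]

theorem invRev_head? (w : List Letter) : (invRev w).head? = w.getLast?.map linv := by
  rcases w.eq_nil_or_concat' with rfl | ⟨u, a, rfl⟩ <;> simp [invRev, linv]

theorem isReduced_invRev {w : List Letter} (h : IsReduced w) : IsReduced (invRev w) := by
  rw [← toWord_mk_of_reduced h, ← toWord_inv]
  exact isReduced_toWord

/-! ### Common prefixes -/

theorem lcp_le_left : ∀ u v : List Letter, lcp u v ≤ u.length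
  | [], _ => by simp [lcp]
  | _ :: _, [] => by simp [lcp]
  | a :: u, b :: v => by
      by_cases h : a = b
      · simp [lcp, h, lcp_le_left u v]
      · simp [lcp, h]

theorem lcp_comm : ∀ u v : List Letter, lcp u v = lcp v u
  | [], [] => rfl
  | [], _ :: _ => rfl
  | _ :: _, [] => rfl
  | a :: u, b :: v => by
      by_cases h : a = b
      · simp [lcp, h, lcp_comm u v]
      · simp [lcp, h, Ne.symm h]

theorem lcp_le_right (u v : List Letter) : lcp u v ≤ v.length := lcp_comm u v ▸ lcp_le_left v u

theorem take_lcp : ∀ u v : List Letter, u.take (lcp u v) = v.take (lcp u v)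
  | [], _ => by simp [lcp]
  | _ :: _, [] => by simp [lcp]
  | a :: u, b :: v => by
      by_cases h : a = b
      · simp [lcp, h, take_lcp u v]
      · simp [lcp, h]

theorem drop_lcp_head? : ∀ (u v : List Letter) (a : Letter),
    (u.drop (lcp u v)).head? = some a → (v.drop (lcp u v)).head? ≠ some a
  | [], _, _ => by simp [lcp]
  | _ :: _, [], _ => by simp [lcp]
  | a :: u, b :: v, c => by
      by_cases h : a = b
      · simp only [lcp, h, ↓reduceIte, List.drop_succ_cons]
        exact drop_lcp_head? u v c
      · simp only [lcp, h, ↓reduceIte, List.drop_zero, List.head?_cons, Option.some.injEq, ne_eq]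
        rintro rfl rfl
        exact h rfl

theorem lcp_eq_zero_of_head? : ∀ {u v : List Letter}, (∀ a, u.head? = some a → v.head? ≠ some a) →
    lcp u v = 0
  | [], _, _ => by simp [lcp]
  | _ :: _, [], _ => by simp [lcp]
  | a :: u, b :: v, h => by
      have hab : a ≠ b := fun e => h a rfl (by rw [e]; rfl)
      simp [lcp, hab]

theorem le_lcp_iff : ∀ {n : ℕ} {u v : List Letter},
    n ≤ lcp u v ↔ n ≤ u.length ∧ n ≤ v.length ∧ u.take n = v.take n
  | 0, _, _ => by simp
  | n + 1, [], _ => by simp [lcp]
  | n + 1, _ :: _, [] => by simp [lcp]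
  | n + 1, a :: u, b :: v => by
      by_cases h : a = b
      · simp [lcp, h, le_lcp_iff (n := n) (u := u) (v := v)]
      · simp [lcp, h]

theorem lcp_of_prefix {u v : List Letter} (h : u <+: v) : lcp u v = u.length := by
  refine le_antisymm (lcp_le_left u v) (le_lcp_iff.2 ⟨le_rfl, h.length_le, ?_⟩)
  rw [List.take_length]
  exact List.prefix_iff_eq_take.1 h

theorem lcp_self (u : List Letter) : lcp u u = u.length := lcp_of_prefix (List.prefix_refl u)

theorem prefix_iff_le_lcp {u v : List Letter} : u <+: v ↔ u.length ≤ lcp u v := by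
  refine ⟨fun h => (lcp_of_prefix h).ge, fun h => ?_⟩
  obtain ⟨-, -, h3⟩ := le_lcp_iff.1 h
  rw [List.take_length] at h3
  rw [h3]
  exact List.take_prefix _ _

theorem take_prefix_iff {n : ℕ} {w u : List Letter} (hn : n ≤ w.length) :
    w.take n <+: u ↔ n ≤ lcp u w := by
  rw [List.prefix_iff_eq_take, List.length_take, min_eq_left hn, le_lcp_iff]
  refine ⟨fun h => ⟨?_, hn, h.symm⟩, fun h => h.2.2.symm⟩
  have := congrArg List.length h
  simp only [List.length_take, min_eq_left hn] at this
  omega

/-! ### Word length -/

/-- The reduced word of a quotient: cancel the common prefix. -/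
theorem toWord_inv_mul (x y : F2) :
    (x⁻¹ * y).toWord =
      invRev (x.toWord.drop (lcp x.toWord y.toWord)) ++
        y.toWord.drop (lcp x.toWord y.toWord) := by
  set c := lcp x.toWord y.toWord with hc
  have hx : x = mk (x.toWord.take c) * mk (x.toWord.drop c) := by
    rw [mul_mk, List.take_append_drop, mk_toWord]
  have hy : y = mk (x.toWord.take c) * mk (y.toWord.drop c) := by
    rw [hc, take_lcp, mul_mk, List.take_append_drop, mk_toWord]
  have he : x⁻¹ * y = mk (invRev (x.toWord.drop c) ++ y.toWord.drop c) := by
    conv_lhs => rw [hx, hy]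
    rw [mul_inv_rev, mul_assoc, inv_mul_cancel_left, inv_mk, mul_mk]
  rw [he]
  refine toWord_mk_of_reduced (isReduced_append.2 ⟨isReduced_invRev ?_, ?_, ?_⟩)
  · exact isReduced_drop isReduced_toWord _
  · exact isReduced_drop isReduced_toWord _
  · intro a ha b hb e
    rw [Option.mem_def, invRev_getLast?, Option.map_eq_some_iff] at ha
    obtain ⟨a', ha', rfl⟩ := ha
    rw [Option.mem_def] at hb
    have : a' = b := by simpa [linv_linv] using congrArg linv e
    subst this
    exact drop_lcp_head? _ _ _ ha' hb

/-- When no cancellation occurs the word of a product is the concatenation. -/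
theorem toWord_mul_of_head? {x y : F2}
    (h : ∀ a, x⁻¹.toWord.head? = some a → y.toWord.head? ≠ some a) :
    (x * y).toWord = x.toWord ++ y.toWord := by
  have h0 : lcp x⁻¹.toWord y.toWord = 0 := lcp_eq_zero_of_head? h
  have := toWord_inv_mul x⁻¹ y
  rw [inv_inv, h0, List.drop_zero, List.drop_zero, toWord_inv, invRev_invRev] at this
  exact this

theorem len_one : len (1 : F2) = 0 := by simp [len]

theorem len_eq_zero {g : F2} : len g = 0 ↔ g = 1 := by
  simp [len, toWord_eq_nil_iff]

theorem len_inv (g : F2) : len g⁻¹ = len g := by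
  simp [len, toWord_inv]

theorem len_mul_le (g u : F2) : len (g * u) ≤ len g + len u := norm_mul_le g u

theorem len_letter (l : Letter) : len (letter l) = 1 := by simp [len, letter_toWord]

theorem len_mk {w : List Letter} (h : IsReduced w) : len (mk w) = w.length := by
  rw [len, toWord_mk_of_reduced h]

theorem len_inv_mul (g u : F2) :
    (len (g⁻¹ * u) : ℤ) = len g + len u - 2 * lcp g.toWord u.toWord := by
  have h1 := lcp_le_left g.toWord u.toWord
  have h2 := lcp_le_right g.toWord u.toWord
  simp only [len, toWord_inv_mul, List.length_append, invRev_length_eq, List.length_drop]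
  omega

theorem dist_comm' (a b : F2) : len (a⁻¹ * b) = len (b⁻¹ * a) := by
  rw [← len_inv, mul_inv_rev, inv_inv]

theorem dist_triangle' (a b c : F2) :
    len (a⁻¹ * c) ≤ len (a⁻¹ * b) + len (b⁻¹ * c) := by
  have h : a⁻¹ * c = (a⁻¹ * b) * (b⁻¹ * c) := by group
  rw [h]
  exact len_mul_le _ _

theorem dist_mul_left (g a b : F2) : len ((g * a)⁻¹ * (g * b)) = len (a⁻¹ * b) := by
  rw [mul_inv_rev, mul_assoc, inv_mul_cancel_left]

/-! ### Half-trees -/

theorem mem_side {h : Half} {u : F2} :
    u ∈ h.side ↔ (h.base⁻¹ * u).toWord.head? = some h.dir := Iff.rfl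

theorem one_le_of_mem_side {h : Half} {u : F2} (hu : u ∈ h.side) : 1 ≤ len (h.base⁻¹ * u) := by
  rw [len]
  rw [mem_side] at hu
  cases hw : (h.base⁻¹ * u).toWord with
  | nil => simp [hw] at hu
  | cons a l => simp

theorem base_not_mem_side (h : Half) : h.base ∉ h.side := by
  simp [mem_side]

theorem head_mem_side (h : Half) : h.base * letter h.dir ∈ h.side := by
  simp [mem_side, letter_toWord]

theorem side_shift (g : F2) (h : Half) (u : F2) : g * u ∈ (h.shift g).side ↔ u ∈ h.side := by
  simp [mem_side, Half.shift, mul_inv_rev, mul_assoc]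

theorem side_op (h : Half) (u : F2) : u ∈ h.op.side ↔ u ∉ h.side := by
  have he : h.op.base⁻¹ * u = (letter h.dir)⁻¹ * (h.base⁻¹ * u) := by
    simp [Half.op, mul_inv_rev, mul_assoc]
  rw [mem_side, mem_side, he, toWord_inv_mul, letter_toWord]
  have hred : IsReduced (h.base⁻¹ * u).toWord := isReduced_toWord
  generalize (h.base⁻¹ * u).toWord = x at hred ⊢
  cases x with
  | nil => simp [lcp, Half.op, invRev]
  | cons a x =>
    by_cases hd : h.dir = a
    · subst hd
      simp only [lcp, ↓reduceIte, List.head?_cons, not_true_eq_false, iff_false]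
      cases x with
      | nil => simp [invRev]
      | cons b x =>
        have := (letterOk_iff _ _).1 (isReduced_cons_cons.1 hred).1
        simp only [Half.op, invRev, List.drop_succ_cons, List.drop_zero, List.map_nil,
          List.reverse_nil, List.nil_append, List.head?_cons, Option.some.injEq]
        intro hb
        refine this ?_
        rw [hb]
        simp [linv]
    · simp [lcp, hd, Ne.symm hd, Half.op, invRev]

theorem op_side_eq_compl (h : Half) : h.op.side = h.sideᶜ := Set.ext fun u => side_op h u

theorem op_op (h : Half) : h.op.op = h := by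
  ext1
  · simp only [Half.op]
    rw [mul_assoc]
    exact (congrArg (h.base * ·) (letter_mul_letter_linv h.dir)).trans (mul_one _)
  · simp [Half.op]

/-- Points on the two sides of an edge: the path between them passes through the base. -/
theorem cross_eq {h : Half} {u u' : F2} (hu : u ∈ h.side) (hu' : u' ∉ h.side) :
    len (u⁻¹ * u') = len (h.base⁻¹ * u) + len (h.base⁻¹ * u') := by
  have h0 : lcp (h.base⁻¹ * u).toWord (h.base⁻¹ * u').toWord = 0 := by
    refine lcp_eq_zero_of_head? fun a ha hb => hu' ?_
    rw [mem_side] at hu ⊢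
    rw [hb, ← hu, ha]
  have := len_inv_mul (h.base⁻¹ * u) (h.base⁻¹ * u')
  rw [dist_mul_left] at this
  omega

theorem cross {h : Half} {u u' : F2} (hu : u ∈ h.side) (hu' : u' ∉ h.side) :
    len (h.base⁻¹ * u) ≤ len (u⁻¹ * u') ∧ len (h.base⁻¹ * u') ≤ len (u⁻¹ * u') := by
  have := cross_eq hu hu'
  omega

/-- A point deeper than `R` in a half-tree has its `R`-neighbourhood in the half-tree. -/
theorem mem_side_of_near {h : Half} {u u' : F2} {R : ℕ} (hu : u ∈ h.side)
    (hd : R < len (h.base⁻¹ * u)) (hn : len (u⁻¹ * u') ≤ R) : u' ∈ h.side := by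
  by_contra hu'
  have := (cross hu hu').1
  omega

theorem toWord_nested {h k : Half} (hk : h.base ∉ k.side) {u : F2} (hu : u ∈ k.side) :
    (h.base⁻¹ * u).toWord = (h.base⁻¹ * k.base).toWord ++ (k.base⁻¹ * u).toWord := by
  have he : h.base⁻¹ * u = (h.base⁻¹ * k.base) * (k.base⁻¹ * u) := by group
  rw [he]
  refine toWord_mul_of_head? fun a ha hb => hk ?_
  rw [mem_side] at hu ⊢
  rw [mul_inv_rev, inv_inv] at ha
  rw [ha, ← hu, hb]

theorem len_nested {h k : Half} (hk : h.base ∉ k.side) {u : F2} (hu : u ∈ k.side) :
    len (h.base⁻¹ * u) = len (h.base⁻¹ * k.base) + len (k.base⁻¹ * u) := by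
  simp [len, toWord_nested hk hu]

theorem nested {h k : Half} (h1 : k.base ∈ h.side) (h2 : h.base ∉ k.side) :
    k.side ⊆ h.side ∧ ∀ u ∈ k.side, len (h.base⁻¹ * k.base) < len (h.base⁻¹ * u) := by
  refine ⟨fun u hu => ?_, fun u hu => ?_⟩
  · rw [mem_side] at h1 ⊢
    rw [toWord_nested h2 hu, List.head?_append, h1]
    rfl
  · have := len_nested h2 hu
    have := one_le_of_mem_side hu
    omega

theorem trichotomy {g h : Half} (h1 : h.base ∉ g.side)
    (h2 : h.base * letter h.dir ∉ g.side) : g.side ⊆ h.side ∨ Disjoint g.side h.side := by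
  by_cases hb : g.base ∈ h.side
  · exact Or.inl (nested hb h1).1
  · right
    have := (nested (h := h.op) (k := g) ((side_op h g.base).2 hb) h2).1
    rw [op_side_eq_compl] at this
    exact Set.subset_compl_iff_disjoint_right.1 this

/-! ### The edges of a word -/

/-- The edge from the point after `t` letters of `w` to the following one. -/
def node (w : List Letter) (t : ℕ) : Half := ⟨mk (w.take t), w.getD t default⟩

theorem node_dir {w : List Letter} {t : ℕ} (ht : t < w.length) : (node w t).dir = w[t] := by
  simp [node, List.getD_eq_getElem?_getD, List.getElem?_eq_getElem ht]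

theorem node_base_toWord {w : List Letter} (hw : IsReduced w) (t : ℕ) :
    (node w t).base.toWord = w.take t :=
  toWord_mk_of_reduced (isReduced_take hw _)

theorem node_side_iff {w : List Letter} (hw : IsReduced w) {t : ℕ} (ht : t < w.length)
    (u : F2) : u ∈ (node w t).side ↔ w.take (t + 1) <+: u.toWord := by
  have hbase := node_base_toWord hw t
  rw [mem_side, node_dir ht]
  constructor
  · intro hv
    have he : u = (node w t).base * ((node w t).base⁻¹ * u) := by group
    have hcat : ((node w t).base * ((node w t).base⁻¹ * u)).toWord =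
        (node w t).base.toWord ++ ((node w t).base⁻¹ * u).toWord := by
      refine toWord_mul_of_head? fun a ha hb => ?_
      rw [hv, Option.some.injEq] at hb
      rw [toWord_inv, hbase, invRev_head?, Option.map_eq_some_iff] at ha
      obtain ⟨a', ha', rfl⟩ := ha
      have hr : IsReduced (w.take t ++ [w[t]]) := by
        rw [← List.take_succ_eq_append_getElem ht]
        exact isReduced_take hw _
      exact (isReduced_concat.1 hr).2 (by rw [ha', hb, linv_linv])
    rw [← he, hbase] at hcat
    rw [hcat, List.take_succ_eq_append_getElem ht, List.prefix_append_right_inj]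
    cases hx : ((node w t).base⁻¹ * u).toWord with
    | nil => simp [hx] at hv
    | cons a x =>
      simp only [hx, List.head?_cons, Option.some.injEq] at hv
      simp [hv]
  · intro hp
    obtain ⟨r, hr⟩ := hp
    have hl : lcp (node w t).base.toWord u.toWord = t := by
      rw [hbase, lcp_of_prefix, List.length_take, min_eq_left ht.le]
      rw [← hr, List.take_succ_eq_append_getElem ht, List.append_assoc]
      exact List.prefix_append _ _
    rw [toWord_inv_mul, hl, hbase, List.drop_take, Nat.sub_self, List.take_zero, ← hr]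
    have htl : (w.take t).length = t := by rw [List.length_take, min_eq_left ht.le]
    rw [List.take_succ_eq_append_getElem ht, List.append_assoc]
    conv_lhs => arg 1; arg 2; rw [List.drop_left' htl]
    simp [invRev]

theorem node_side_iff_lcp {w : List Letter} (hw : IsReduced w) {t : ℕ} (ht : t < w.length)
    (u : F2) : u ∈ (node w t).side ↔ t + 1 ≤ lcp u.toWord w := by
  rw [node_side_iff hw ht, take_prefix_iff ht]

theorem node_len {w : List Letter} (hw : IsReduced w) {t : ℕ} (ht : t < w.length) {u : F2}
    (hu : u ∈ (node w t).side) :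
    len ((node w t).base⁻¹ * u) = u.toWord.length - t := by
  have h := (node_side_iff hw ht u).1 hu
  have hp : w.take t <+: u.toWord :=
    (List.take_prefix_take_left (Nat.le_succ t)).trans h
  have hl : lcp (node w t).base.toWord u.toWord = t := by
    rw [node_base_toWord hw, lcp_of_prefix hp, List.length_take, min_eq_left ht.le]
  have hb : len (node w t).base = t := by
    rw [len, node_base_toWord hw, List.length_take, min_eq_left ht.le]
  have := len_inv_mul (node w t).base u
  rw [hl, hb] at this
  have h3 := hp.length_le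
  rw [List.length_take, min_eq_left ht.le] at h3
  unfold len at this ⊢
  omega

theorem node_nested {w : List Letter} (hw : IsReduced w) {t t' : ℕ} (htt : t < t')
    (ht' : t' < w.length) :
    (node w t').base ∈ (node w t).side ∧ (node w t).base ∉ (node w t').side ∧
      (node w t').side ⊆ (node w t).side := by
  have ht : t < w.length := htt.trans ht'
  have h1 : (node w t').base ∈ (node w t).side := by
    rw [node_side_iff hw ht, node_base_toWord hw]
    exact List.take_prefix_take_left htt
  have h2 : (node w t).base ∉ (node w t').side := by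
    rw [node_side_iff hw ht', node_base_toWord hw]
    intro h
    have := h.length_le
    simp only [List.length_take] at this
    omega
  exact ⟨h1, h2, (nested h1 h2).1⟩

/-! ### Geodesics and outward extensions -/

/-- The point at distance `j` from `g` on the geodesic towards `g'`. -/
def geo (g g' : F2) (j : ℕ) : F2 := g * mk ((g⁻¹ * g').toWord.take j)

theorem geo_zero (g g' : F2) : geo g g' 0 = g := by
  simp [geo, ← FreeGroup.one_eq_mk]

theorem geo_of_le {g g' : F2} {j : ℕ} (hj : len (g⁻¹ * g') ≤ j) : geo g g' j = g' := by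
  rw [geo, List.take_of_length_le hj, mk_toWord, mul_inv_cancel_left]

theorem geo_len (g g' : F2) (j : ℕ) :
    len (g⁻¹ * geo g g' j) = min j (len (g⁻¹ * g')) := by
  rw [geo, inv_mul_cancel_left, len_mk (isReduced_take isReduced_toWord _)]
  simp [len]

theorem geo_succ {g g' : F2} {j : ℕ} (hj : j < len (g⁻¹ * g')) :
    ∃ l : Letter, geo g g' (j + 1) = geo g g' j * letter l := by
  refine ⟨(g⁻¹ * g').toWord[j]'hj, ?_⟩
  simp only [geo, letter, mul_assoc, mul_mk]
  rw [List.take_succ_eq_append_getElem hj]

/-- Seen from `b`, the point `g'` is `g` extended outwards. -/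
def Out (b g g' : F2) : Prop := (b⁻¹ * g).toWord <+: (b⁻¹ * g').toWord

theorem Out.refl (b g : F2) : Out b g g := List.prefix_refl _

theorem Out.trans {b g g' g'' : F2} (h : Out b g g') (h' : Out b g' g'') : Out b g g'' :=
  List.IsPrefix.trans h h'

theorem Out.len_le {b g g' : F2} (h : Out b g g') : len (b⁻¹ * g) ≤ len (b⁻¹ * g') :=
  List.IsPrefix.length_le h

theorem Out.mem_side {h : Half} {g g' : F2} (ho : Out h.base g g') (hg : g ∈ h.side) :
    g' ∈ h.side := by
  obtain ⟨r, hr⟩ := ho
  rw [Large.mem_side] at hg ⊢
  rw [← hr, List.head?_append, hg]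
  rfl

theorem Out.toWord_inv_mul {b g g' : F2} (h : Out b g g') :
    (g⁻¹ * g').toWord = (b⁻¹ * g').toWord.drop (len (b⁻¹ * g)) := by
  have he : g⁻¹ * g' = (b⁻¹ * g)⁻¹ * (b⁻¹ * g') := by group
  rw [he, Large.toWord_inv_mul, lcp_of_prefix h, List.drop_length]
  simp [len, invRev]

theorem Out.len_eq {b g g' : F2} (h : Out b g g') :
    len (b⁻¹ * g') = len (b⁻¹ * g) + len (g⁻¹ * g') := by
  have h1 := h.len_le
  have h2 := congrArg List.length h.toWord_inv_mul
  rw [List.length_drop] at h2
  unfold len at h1 h2 ⊢
  omega

/-- Along the geodesic to an outward extension the distance from `b` increases by one each step. -/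
theorem Out.geo_toWord {b g g' : F2} (h : Out b g g') (j : ℕ) :
    (b⁻¹ * geo g g' j).toWord = (b⁻¹ * g').toWord.take (len (b⁻¹ * g) + j) := by
  obtain ⟨r, hr⟩ := id h
  have hr' : (g⁻¹ * g').toWord = r := by
    rw [h.toWord_inv_mul, ← hr, len, List.drop_left]
  have he : b⁻¹ * geo g g' j = mk ((b⁻¹ * g').toWord.take (len (b⁻¹ * g) + j)) := by
    rw [geo, hr', ← hr, len, List.take_length_add_append, ← mul_mk, mk_toWord, mul_assoc]
  rw [he, toWord_mk_of_reduced (isReduced_take isReduced_toWord _)]

theorem Out.geo_out {b g g' : F2} (h : Out b g g') (j : ℕ) : Out b g (geo g g' j) := by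
  obtain ⟨r, hr⟩ := id h
  unfold Out
  rw [h.geo_toWord, ← hr, len, List.take_length_add_append]
  exact List.prefix_append _ _

theorem Out.geo_mem {h : Half} {g g' : F2} (ho : Out h.base g g') (hg : g ∈ h.side) (j : ℕ) :
    geo g g' j ∈ h.side ∧ len (h.base⁻¹ * g) ≤ len (h.base⁻¹ * geo g g' j) :=
  ⟨(ho.geo_out j).mem_side hg, (ho.geo_out j).len_le⟩

/-- An outward extension with a given length, avoiding a given branch. -/
theorem extend_avoid {h : Half} {g : F2} (hg : g ∈ h.side) {m : ℕ}
    (hm : len (h.base⁻¹ * g) + 1 ≤ m) (u : List Letter) :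
    ∃ g', g' ∈ h.side ∧ Out h.base g g' ∧ len (h.base⁻¹ * g') = m ∧
      ¬ (h.base⁻¹ * g').toWord <+: u := by
  set x := (h.base⁻¹ * g).toWord with hx
  have hn : x.length = len (h.base⁻¹ * g) := rfl
  have hne : x ≠ [] := by
    intro e
    rw [mem_side, ← hx, e] at hg
    simp at hg
  obtain ⟨l, hl1, hl2⟩ := exists_letter_ne (linv (x.getLast hne)) (u.getD x.length default)
  obtain ⟨k, hk⟩ : ∃ k, m = x.length + (k + 1) := ⟨m - x.length - 1, by omega⟩
  have hred : IsReduced (x ++ List.replicate (k + 1) l) := by
    refine isReduced_append.2 ⟨isReduced_toWord, ?_, ?_⟩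
    · exact List.isChain_replicate_of_rel _ (fun _ => rfl)
    · intro a ha b hb
      rw [Option.mem_def, List.getLast?_eq_some_getLast hne, Option.some.injEq] at ha
      rw [Option.mem_def, List.replicate_succ, List.head?_cons, Option.some.injEq] at hb
      subst ha hb
      exact fun e => hl1 (by rw [e, linv_linv])
  refine ⟨h.base * mk (x ++ List.replicate (k + 1) l), ?_⟩
  have hw : (h.base⁻¹ * (h.base * mk (x ++ List.replicate (k + 1) l))).toWord =
      x ++ List.replicate (k + 1) l := by
    rw [inv_mul_cancel_left, toWord_mk_of_reduced hred]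
  have ho : Out h.base g (h.base * mk (x ++ List.replicate (k + 1) l)) := by
    unfold Out
    rw [hw]
    exact List.prefix_append _ _
  refine ⟨ho.mem_side hg, ho, ?_, ?_⟩
  · rw [len, hw]
    simp [hk]
  · rw [hw]
    rintro ⟨r, rfl⟩
    refine hl2 ?_
    simp [List.getD_eq_getElem?_getD, List.append_assoc, List.replicate_succ]

theorem extend {h : Half} {g : F2} (hg : g ∈ h.side) {m : ℕ} (hm : len (h.base⁻¹ * g) ≤ m) :
    ∃ g', g' ∈ h.side ∧ Out h.base g g' ∧ len (h.base⁻¹ * g') = m := by
  rcases hm.eq_or_lt with e | hlt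
  · exact ⟨g, hg, Out.refl _ _, e⟩
  · obtain ⟨g', h1, h2, h3, -⟩ := extend_avoid hg hlt []
    exact ⟨g', h1, h2, h3⟩

/-- From any point of a half-tree an edge with any prescribed letter points outwards, after at most
one further step. -/
theorem exists_outward {h : Half} {g : F2} (hg : g ∈ h.side) (l : Letter) :
    ∃ k : Half, k.dir = l ∧ Out h.base g k.base ∧
      len (h.base⁻¹ * k.base) ≤ len (h.base⁻¹ * g) + 1 ∧ k.base ∈ h.side ∧
      h.base ∉ k.side ∧ k.side ⊆ h.side := by
  set x := (h.base⁻¹ * g).toWord with hx
  have hne : x ≠ [] := by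
    intro e
    rw [mem_side, ← hx, e] at hg
    simp at hg
  have hlast : x.getLast? = some (x.getLast hne) := List.getLast?_eq_some_getLast hne
  obtain ⟨z, hz, hred⟩ : ∃ z : List Letter, z.length ≤ 1 ∧ IsReduced (x ++ z ++ [l]) := by
    by_cases hc : x.getLast hne = linv l
    · obtain ⟨c, hc1, hc2⟩ := exists_letter_ne l (linv l)
      refine ⟨[c], le_rfl, isReduced_concat.2 ⟨isReduced_concat.2 ⟨isReduced_toWord, ?_⟩, ?_⟩⟩
      · rw [hlast, hc]
        intro e
        exact hc1 (by simpa [linv_linv] using congrArg linv (Option.some.inj e).symm)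
      · simpa using hc2
    · refine ⟨[], Nat.zero_le _, ?_⟩
      rw [List.append_nil]
      exact isReduced_concat.2 ⟨isReduced_toWord, by rw [hlast]; simpa using hc⟩
  have hxz : IsReduced (x ++ z) := (isReduced_append.1 hred).1
  have hw : (h.base⁻¹ * (h.base * mk (x ++ z))).toWord = x ++ z := by
    rw [inv_mul_cancel_left, toWord_mk_of_reduced hxz]
  refine ⟨⟨h.base * mk (x ++ z), l⟩, rfl, ?_⟩
  have ho : Out h.base g (h.base * mk (x ++ z)) := by
    unfold Out
    rw [hw]
    exact List.prefix_append _ _
  have hns : h.base ∉ (⟨h.base * mk (x ++ z), l⟩ : Half).side := by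
    rw [mem_side]
    have he : (h.base * mk (x ++ z))⁻¹ * h.base = (mk (x ++ z))⁻¹ := by group
    simp only [he, toWord_inv, toWord_mk_of_reduced hxz, invRev_head?, Option.map_eq_some_iff,
      not_exists, not_and]
    intro a ha e
    subst e
    exact (isReduced_concat.1 hred).2 (by rw [ha, linv_linv])
  refine ⟨ho, ?_, ho.mem_side hg, hns, (nested (k := ⟨_, l⟩) (ho.mem_side hg) hns).1⟩
  show len (h.base⁻¹ * (h.base * mk (x ++ z))) ≤ x.length + 1
  rw [len, hw, List.length_append]
  omega

/-! ### Balls and spheres -/

/-- The letters which may follow a word. -/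
def nextLetters (w : List Letter) : Finset Letter :=
  Finset.univ.filter fun l => w.getLast? ≠ some (linv l)

/-- The reduced words of length `n`. -/
def sphere : ℕ → Finset (List Letter)
  | 0 => {[]}
  | n + 1 => (sphere n).biUnion fun w => (nextLetters w).image fun l => w ++ [l]

theorem mem_sphere : ∀ {n : ℕ} {w : List Letter}, w ∈ sphere n ↔ IsReduced w ∧ w.length = n
  | 0, w => by
      simp only [sphere, Finset.mem_singleton, List.length_eq_zero_iff]
      exact ⟨fun e => ⟨e ▸ IsReduced.nil, e⟩, fun e => e.2⟩
  | n + 1, w => by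
      simp only [sphere, Finset.mem_biUnion, Finset.mem_image, nextLetters, Finset.mem_filter,
        Finset.mem_univ, true_and, mem_sphere (n := n)]
      constructor
      · rintro ⟨v, ⟨hv, hl⟩, l, hvl, rfl⟩
        exact ⟨isReduced_concat.2 ⟨hv, hvl⟩, by simp [hl]⟩
      · rintro ⟨hw, hl⟩
        rcases w.eq_nil_or_concat' with rfl | ⟨v, l, rfl⟩
        · simp at hl
        · obtain ⟨h1, h2⟩ := isReduced_concat.1 hw
          exact ⟨v, ⟨h1, by simpa using hl⟩, l, h2, rfl⟩

theorem card_nextLetters {w : List Letter} (hw : w ≠ []) : (nextLetters w).card = 3 := by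
  have : ∀ a : Letter,
      (Finset.univ.filter fun l : Letter => some a ≠ some (linv l)).card = 3 := by decide
  rw [nextLetters, List.getLast?_eq_some_getLast hw]
  exact this _

theorem card_sphere_one : (sphere 1).card = 4 := by decide

/-- The number of reduced extensions of a nonempty reduced word to a given length. -/
theorem card_extensions {v : List Letter} (hv : IsReduced v) (h0 : 1 ≤ v.length) {T : ℕ}
    (hT : v.length ≤ T) :
    ((sphere T).filter fun w => v <+: w).card = 3 ^ (T - v.length) := by
  induction T, hT using Nat.le_induction with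
  | base =>
    rw [Nat.sub_self, pow_zero, Finset.card_eq_one]
    refine ⟨v, Finset.ext fun w => ?_⟩
    simp only [Finset.mem_filter, mem_sphere, Finset.mem_singleton]
    exact ⟨fun e => (e.2.eq_of_length e.1.2.symm).symm,
      fun e => by subst e; exact ⟨⟨hv, rfl⟩, List.prefix_refl _⟩⟩
  | succ T hT ih =>
    have hset : ((sphere (T + 1)).filter fun w => v <+: w) =
        ((sphere T).filter fun w => v <+: w).biUnion
          fun w => (nextLetters w).image fun l => w ++ [l] := by
      ext w
      simp only [sphere, Finset.mem_filter, Finset.mem_biUnion, Finset.mem_image]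
      constructor
      · rintro ⟨⟨u, hu, l, hl, rfl⟩, hp⟩
        refine ⟨u, ⟨hu, ?_⟩, l, hl, rfl⟩
        exact List.prefix_of_prefix_length_le hp (List.prefix_append _ _)
          (by rw [(mem_sphere.1 hu).2]; exact hT)
      · rintro ⟨u, ⟨hu, hp⟩, l, hl, rfl⟩
        exact ⟨⟨u, hu, l, hl, rfl⟩, hp.trans (List.prefix_append _ _)⟩
    have hdisj : ∀ a ∈ (sphere T).filter (fun w => v <+: w),
        ∀ b ∈ (sphere T).filter (fun w => v <+: w), a ≠ b →
        Disjoint ((nextLetters a).image fun l => a ++ [l])
          ((nextLetters b).image fun l => b ++ [l]) := by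
      intro a _ b _ hab
      rw [Finset.disjoint_left]
      simp only [Finset.mem_image]
      rintro _ ⟨l, -, rfl⟩ ⟨l', -, e⟩
      exact hab (List.append_inj_left' e rfl).symm
    rw [hset, Finset.card_biUnion hdisj, Finset.sum_congr rfl (g := fun _ => 3), Finset.sum_const,
      ih, smul_eq_mul, Nat.succ_sub hT, pow_succ]
    intro w hw
    rw [Finset.card_image_of_injective _ fun l l' e => by simpa using e, card_nextLetters]
    rintro rfl
    have := ((Finset.mem_filter.1 hw).2).length_le
    simp only [List.length_nil] at this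
    omega

theorem card_sphere : ∀ {n : ℕ}, 1 ≤ n → (sphere n).card = 4 * 3 ^ (n - 1)
  | 0, h => absurd h (by simp)
  | 1, _ => card_sphere_one
  | n + 2, _ => by
      have hdisj : ∀ a ∈ sphere (n + 1), ∀ b ∈ sphere (n + 1), a ≠ b →
          Disjoint ((nextLetters a).image fun l => a ++ [l])
            ((nextLetters b).image fun l => b ++ [l]) := by
        intro a _ b _ hab
        rw [Finset.disjoint_left]
        simp only [Finset.mem_image]
        rintro _ ⟨l, -, rfl⟩ ⟨l', -, e⟩
        exact hab (List.append_inj_left' e rfl).symm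
      rw [sphere, Finset.card_biUnion hdisj, Finset.sum_congr rfl (g := fun _ => 3),
        Finset.sum_const, card_sphere (n := n + 1) (by omega), smul_eq_mul,
        show n + 2 - 1 = (n + 1 - 1) + 1 from by omega, pow_succ]
      · ring
      · intro w hw
        rw [Finset.card_image_of_injective _ fun l l' e => by simpa using e, card_nextLetters]
        rintro rfl
        exact absurd (mem_sphere.1 hw).2 (by simp)

/-- The elements of length at most `R`. -/
def ball (R : ℕ) : Finset F2 :=
  (Finset.range (R + 1)).biUnion fun n => (sphere n).image mk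

theorem mem_ball {R : ℕ} {g : F2} : g ∈ ball R ↔ len g ≤ R := by
  simp only [ball, Finset.mem_biUnion, Finset.mem_range, Finset.mem_image, mem_sphere]
  constructor
  · rintro ⟨n, hn, w, ⟨hw, rfl⟩, rfl⟩
    rw [len_mk hw]
    omega
  · intro h
    exact ⟨len g, by omega, g.toWord, ⟨isReduced_toWord, rfl⟩, mk_toWord⟩

/-! ### Heights -/

theorem ht_mul (P g x : F2) : ht P (g * x) - ht P g = ht (g⁻¹ * P) x := by
  simp only [ht, mul_inv_rev, mul_assoc]
  ring

theorem ht_one (P : F2) : ht P 1 = 0 := by simp [ht]

theorem ht_le (P x : F2) : ht P x ≤ len x := by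
  have h : len P ≤ len x + len (x⁻¹ * P) := by
    calc len P = len (x * (x⁻¹ * P)) := by rw [mul_inv_cancel_left]
      _ ≤ _ := len_mul_le _ _
  simp only [ht]
  omega

theorem neg_len_le_ht (P x : F2) : -(len x : ℤ) ≤ ht P x := by
  have h := len_mul_le x⁻¹ P
  rw [len_inv] at h
  simp only [ht]
  omega

theorem ht_mk {w : List Letter} (hw : IsReduced w) (x : F2) :
    ht (mk w) x = 2 * lcp x.toWord w - len x := by
  simp only [ht, len_inv_mul, len_mk hw, toWord_mk_of_reduced hw]
  ring

end Vale.Agent.P165.Large
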