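import Mathlib
import Vale.Agent.P165.Large.Tree

/-!
Further forms of the facts on the tree used for frames.
-/

namespace Vale.Agent.P165.Large

lemma Half.base_notMem (h : Half) : h.base ∉ h.side := base_not_mem_side h

lemma Half.head_mem (h : Half) : h.base * letter h.dir ∈ h.side := head_mem_side h

lemma Half.op_op (h : Half) : h.op.op = h := Large.op_op h

lemma mem_op_side {h : Half} {u : F2} : u ∈ h.op.side ↔ u ∉ h.side := side_op h u

lemma nested_len {h k : Half} (_h1 : k.base ∈ h.side) (h2 : h.base ∉ k.side) :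
    ∀ u ∈ k.side, len (k.base⁻¹ * u) ≤ len (h.base⁻¹ * u) := fun u hu => by
  rw [len_nested h2 hu]
  omega

lemma extend_geo {h : Half} {g : F2} (hg : g ∈ h.side) {m : ℕ}
    (hm : len (h.base⁻¹ * g) ≤ m) :
    ∃ g', g' ∈ h.side ∧ len (h.base⁻¹ * g') = m ∧ len (g⁻¹ * g') = m - len (h.base⁻¹ * g) ∧
      ∀ i, len (h.base⁻¹ * g) ≤
        len (h.base⁻¹ * (g * FreeGroup.mk ((g⁻¹ * g').toWord.take i))) := by
  obtain ⟨g', h1, h2, h3⟩ := extend hg hm
  refine ⟨g', h1, h3, ?_, fun i => (h2.geo_mem hg i).2⟩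
  have := h2.len_eq
  omega

lemma extend_half {h : Half} {g : F2} (hg : g ∈ h.side) {m : ℕ}
    (hm : len (h.base⁻¹ * g) < m) (ℓ : Letter) (u : F2) :
    ∃ k : Half, k.dir = ℓ ∧ k.base ∈ h.side ∧ h.base ∉ k.side ∧
      m ≤ len (h.base⁻¹ * k.base) ∧ len (h.base⁻¹ * k.base) ≤ m + 2 ∧
      ¬(h.base⁻¹ * k.base).toWord <+: u.toWord ∧
      ∀ i, len (h.base⁻¹ * g) ≤
        len (h.base⁻¹ * (g * FreeGroup.mk ((g⁻¹ * k.base).toWord.take i))) ∧
        g * FreeGroup.mk ((g⁻¹ * k.base).toWord.take i) ∈ h.side := by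
  obtain ⟨g', h1, h2, h3, h4⟩ := extend_avoid hg hm u.toWord
  obtain ⟨k, k1, k2, k3, k4, k5, -⟩ := exists_outward h1 ℓ
  refine ⟨k, k1, k4, k5, ?_, by omega, fun hp => h4 (List.IsPrefix.trans k2 hp),
    fun i => ((h2.trans k2).geo_mem hg i).symm⟩
  have := k2.len_le
  omega

lemma lcp_le_of_nested {g k : Half} (_hk : k.base ∈ g.side) (hk' : g.base ∉ k.side) {u : F2}
    (hu : u ∈ k.side) {w : F2} (hw : ¬(g.base⁻¹ * k.base).toWord <+: w.toWord) :
    lcp (g.base⁻¹ * u).toWord w.toWord ≤ len (g.base⁻¹ * k.base) := by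
  by_contra hlt
  push Not at hlt
  obtain ⟨-, -, htake⟩ := le_lcp_iff.1 hlt.le
  refine hw ?_
  have hp : (g.base⁻¹ * k.base).toWord = w.toWord.take (len (g.base⁻¹ * k.base)) := by
    rw [← htake, toWord_nested hk' hu]
    simp [len]
  rw [hp]
  exact List.take_prefix _ _

lemma prefix_of_nested {h k : Half} (_h1 : k.base ∈ h.side) (h2 : h.base ∉ k.side) {u : F2}
    (hu : u ∈ k.side) :
    (h.base⁻¹ * (k.base * letter k.dir)).toWord <+: (h.base⁻¹ * u).toWord ∧
      len (h.base⁻¹ * (k.base * letter k.dir)) = len (h.base⁻¹ * k.base) + 1 := by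
  have e : (k.base⁻¹ * (k.base * letter k.dir)).toWord = [k.dir] := by
    rw [inv_mul_cancel_left, letter_toWord]
  refine ⟨?_, ?_⟩
  · rw [toWord_nested h2 k.head_mem, toWord_nested h2 hu, e, List.prefix_append_right_inj]
    obtain ⟨rest, hr⟩ : ∃ rest, (k.base⁻¹ * u).toWord = k.dir :: rest := by
      cases hw : (k.base⁻¹ * u).toWord with
      | nil => simp [mem_side, hw] at hu
      | cons a rest => simp [mem_side, hw] at hu; exact ⟨rest, by rw [hu]⟩
    rw [hr]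
    exact ⟨rest, rfl⟩
  · rw [len_nested h2 k.head_mem, inv_mul_cancel_left, len_letter]

lemma mem_ballFin (R : ℕ) : ∃ B : Finset F2, ∀ g, g ∈ B ↔ len g ≤ R := ⟨ball R, fun _ => mem_ball⟩

end Vale.Agent.P165.Large
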