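import Mathlib
import Vale.Agent.P165.Large.Frame
import Vale.Agent.P165.Large.Ev
import Vale.Agent.P165.Large.TreeFacts

/-!
The translations of a frame, the invariance of its quantities and walks following lifted letters.
-/

namespace Vale.Agent.P165.Large

open MeasureTheory
open scoped ENNReal

variable {Γ ι : Type} [Group Γ] (f : Frame Γ ι) {q : unitInterval}

lemma Frame.act_one (v : Γ × ι) : Frame.act 1 v = v := by simp [Frame.act]

lemma Frame.act_mul (g g' : Γ) (v : Γ × ι) :
    Frame.act (g * g') v = Frame.act g (Frame.act g' v) := by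
  simp [Frame.act, mul_assoc]

lemma Frame.act_inv_cancel (g : Γ) (v : Γ × ι) : Frame.act g⁻¹ (Frame.act g v) = v := by
  simp [Frame.act]

lemma Frame.act_cancel_inv (g : Γ) (v : Γ × ι) : Frame.act g (Frame.act g⁻¹ v) = v := by
  simp [Frame.act]

/-- Left translation as a permutation of the vertices. -/
def Frame.actEquiv (g : Γ) : Γ × ι ≃ Γ × ι where
  toFun := Frame.act g
  invFun := Frame.act g⁻¹
  left_inv := Frame.act_inv_cancel g
  right_inv := Frame.act_cancel_inv g

/-- Left translations as a homomorphism to the permutations of the vertices. -/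
def Frame.actHom : Γ →* Equiv.Perm (Γ × ι) where
  toFun := Frame.actEquiv
  map_one' := Equiv.ext Frame.act_one
  map_mul' g g' := Equiv.ext (Frame.act_mul g g')

lemma Frame.adj_act (g : Γ) {u v : Γ × ι} :
    f.H.Adj (Frame.act g u) (Frame.act g v) ↔ f.H.Adj u v := by
  refine ⟨fun h => ?_, f.inv g u v⟩
  have := f.inv g⁻¹ _ _ h
  simpa [Frame.act] using this

/-- Left translation as an automorphism of the graph. -/
def Frame.actIso (g : Γ) : f.H ≃g f.H where
  toEquiv := Frame.actEquiv g
  map_rel_iff' := f.adj_act g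

lemma Frame.pr_act (g : Γ) (v : Γ × ι) : f.pr (Frame.act g v) = f.π g * f.pr v := by
  simp [Frame.pr, Frame.act]

include f in
lemma Frame.countable : Countable (Γ × ι) := countable_of_connected f.connected

lemma shift_mem_side {g : F2} {h : Half} {u : F2} : g * u ∈ (h.shift g).side ↔ u ∈ h.side := by
  simp [mem_side, Half.shift, mul_assoc]

lemma shift_base_inv_mul (g u : F2) (h : Half) :
    (h.shift g).base⁻¹ * (g * u) = h.base⁻¹ * u := by
  simp [Half.shift, mul_assoc]

lemma Half.shift_shift (g g' : F2) (h : Half) : (h.shift g').shift g = h.shift (g * g') := by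
  simp [Half.shift, mul_assoc]

lemma Half.shift_one (h : Half) : h.shift 1 = h := by simp [Half.shift]

lemma Frame.mem_side_act (g : Γ) (h : Half) (v : Γ × ι) :
    f.pr (Frame.act g v) ∈ (h.shift (f.π g)).side ↔ f.pr v ∈ h.side := by
  rw [f.pr_act, shift_mem_side]

lemma Frame.act_mem_Vs {g : Γ} {h : Half} {v : Γ × ι} (hv : v ∈ f.Vs h) :
    Frame.act g v ∈ f.Vs (h.shift (f.π g)) := by
  obtain ⟨h1, w, p, hp, hd⟩ := hv
  refine ⟨(f.mem_side_act g h v).2 h1, Frame.act g w, p.map (f.actIso g).toHom, fun u hu => ?_, ?_⟩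
  · obtain ⟨u', hu', rfl⟩ := List.mem_map.1
      (Eq.mp (congrArg (u ∈ ·) (SimpleGraph.Walk.support_map (f.actIso g).toHom p)) hu)
    exact (f.mem_side_act g h u').2 (hp u' hu')
  · rw [f.pr_act, shift_base_inv_mul]
    exact hd

lemma Frame.Vs_act (g : Γ) (h : Half) (v : Γ × ι) :
    Frame.act g v ∈ f.Vs (h.shift (f.π g)) ↔ v ∈ f.Vs h := by
  refine ⟨fun hv => ?_, f.act_mem_Vs⟩
  have := f.act_mem_Vs (g := g⁻¹) hv
  simpa [Frame.act_inv_cancel, Half.shift_shift, Half.shift_one] using this

lemma Frame.avoid_act (g : Γ) (h : Half) (u v : Γ × ι) :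
    (f.avoid (h.shift (f.π g))).Adj (Frame.act g u) (Frame.act g v) ↔ (f.avoid h).Adj u v := by
  simp [Frame.avoid, f.adj_act, f.Vs_act]

lemma Frame.port_act (g : Γ) (h : Half) (v : Γ × ι) :
    Frame.act g v ∈ f.port (h.shift (f.π g)) ↔ v ∈ f.port h := by
  constructor
  · rintro ⟨h1, u, h2, h3⟩
    refine ⟨(f.Vs_act g h v).1 h1, Frame.act g⁻¹ u, ?_, fun hu => h3 ?_⟩
    · rw [← f.adj_act g, Frame.act_cancel_inv]; exact h2
    · simpa [Frame.act_cancel_inv] using f.act_mem_Vs (g := g) hu
  · rintro ⟨h1, u, h2, h3⟩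
    exact ⟨(f.Vs_act g h v).2 h1, Frame.act g u, (f.adj_act g).2 h2,
      fun hu => h3 ((f.Vs_act g h u).1 hu)⟩

/-- Translating both ends and the graph keeps the probability of a connection. -/
lemma Frame.tau_map {K K' : SimpleGraph (Γ × ι)} (g : Γ)
    (hK : ∀ u v, K'.Adj (Frame.act g u) (Frame.act g v) ↔ K.Adj u v) (x y : Γ × ι) :
    f.tau q K' (Frame.act g x) (Frame.act g y) = f.tau q K x y := by
  have := f.countable
  unfold Frame.tau
  conv_rhs => rw [← perc_map (p := q) (Frame.actEquiv g)]
  rw [Measure.map_apply (measurable_pi_lambda _ fun e => measurable_pi_apply _)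
    (meas_conn K x y).measurableSet]
  congr 1
  ext ω
  let ψ : openGraph K (fun e => ω (Sym2.map (Frame.actEquiv g) e)) ≃g openGraph K' ω :=
    { toEquiv := Frame.actEquiv g
      map_rel_iff' := by
        intro a b
        exact and_congr (hK a b) Iff.rfl }
  exact SimpleGraph.Iso.reachable_iff (φ := ψ)

include f in
/-- Translating a start, a target set and the graph keeps the probability of joining them. -/
lemma Frame.joins_map {K K' : SimpleGraph (Γ × ι)} (g : Γ)
    (hK : ∀ u v, K'.Adj (Frame.act g u) (Frame.act g v) ↔ K.Adj u v) (x : Γ × ι)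
    (T : Set (Γ × ι)) :
    perc (Γ × ι) q (joins K' (Frame.act g x) (Frame.act g '' T))
      = perc (Γ × ι) q (joins K x T) := by
  have := f.countable
  conv_rhs => rw [← perc_map (p := q) (Frame.actEquiv g)]
  rw [Measure.map_apply (measurable_pi_lambda _ fun e => measurable_pi_apply _)
    (measurableSet_joins K x T)]
  congr 1
  ext ω
  let ψ : openGraph K (fun e => ω (Sym2.map (Frame.actEquiv g) e)) ≃g openGraph K' ω :=
    { toEquiv := Frame.actEquiv g
      map_rel_iff' := by
        intro a b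
        exact and_congr (hK a b) Iff.rfl }
  simp only [mem_joins, Set.mem_preimage, Set.exists_mem_image]
  exact exists_congr fun y => and_congr_right fun _ =>
    SimpleGraph.Iso.reachable_iff (φ := ψ)

lemma Frame.tau_comm (K : SimpleGraph (Γ × ι)) (x y : Γ × ι) :
    f.tau q K x y = f.tau q K y x := by
  unfold Frame.tau
  congr 1
  ext ω
  exact SimpleGraph.reachable_comm

lemma Frame.tau_mono {K K' : SimpleGraph (Γ × ι)} (h : K ≤ K') (x y : Γ × ι) :
    f.tau q K x y ≤ f.tau q K' x y :=
  measure_mono fun ω hω => SimpleGraph.Reachable.mono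
    (show openGraph K ω ≤ openGraph K' ω from fun _ _ ha => ⟨h ha.1, ha.2⟩) hω

lemma Frame.Y_act (g : Γ) (x : Γ × ι) (h : Half) :
    f.Y q (Frame.act g x) (h.shift (f.π g)) = f.Y q x h := by
  let e : f.port h ≃ f.port (h.shift (f.π g)) :=
    (Frame.actEquiv g).subtypeEquiv fun v => (f.port_act g h v).symm
  unfold Frame.Y
  rw [← e.tsum_eq]
  exact tsum_congr fun z => f.tau_map g (f.avoid_act g h) x z

lemma Frame.avoid_le (h : Half) : f.avoid h ≤ f.H := fun _ _ a => a.1

lemma Frame.avoidSide_le (h : Half) : f.avoidSide h ≤ f.H := fun _ _ a => a.1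

lemma Frame.avoidSide_le_avoid (h : Half) : f.avoidSide h ≤ f.avoid h :=
  fun _ _ a => ⟨a.1, fun c => a.2.1 c.1.1⟩

end Vale.Agent.P165.Large
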