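import Mathlib
import Vale.Agent.P165.Basic

/-!
Second moment amplifier: many translated starting points, each passing through finitely many
independent stages that move it inside a group, are all killed with small probability only.
-/

namespace Vale.Agent.P165.Large

open MeasureTheory ProbabilityTheory Finset

variable {W N : Type} [Group N]

/-- One stage: from the edges in `R` it either fails or proposes a displacement. -/
structure Stage (W N : Type) where
  R : Finset (Sym2 W)
  next : (Sym2 W → Bool) → Option N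
  dep : ∀ o, Dep {ω | next ω = o} R

variable (σ : N →* Equiv.Perm W) {p : unitInterval}

/-- The configuration seen from the translate by `ν`. -/
def translate (ν : N) (ω : Sym2 W → Bool) : Sym2 W → Bool := fun e => ω (Sym2.map (σ ν) e)

/-- The start `ν` passes through all the stages. -/
def survive : List (Stage W N) → N → Set (Sym2 W → Bool)
  | [], _ => Set.univ
  | S :: l, ν => {ω | ∃ κ, S.next (translate σ ν ω) = some κ ∧ ω ∈ survive l (ν * κ)}

namespace Stage

variable (S : Stage W N)

omit [Group N] in
theorem finite_range : (Set.range S.next).Finite := by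
  classical
  have h : Set.range S.next ⊆ Set.range fun η : S.R → Bool =>
      S.next fun e => if he : e ∈ S.R then η ⟨e, he⟩ else false := by
    rintro _ ⟨ω, rfl⟩
    exact ⟨S.R.restrict ω, S.dep (S.next ω) ω _ (fun e he => by simp [he]) rfl⟩
  exact (Set.finite_range _).subset h

/-- The possible displacements. -/
noncomputable def moves : Finset N :=
  (S.finite_range.preimage (Option.some_injective N).injOn).toFinset

omit [Group N] in
theorem mem_moves {ω : Sym2 W → Bool} {κ : N} (h : S.next ω = some κ) : κ ∈ S.moves := by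
  simp [moves, ← h]

/-- The probability of success. -/
noncomputable def mass (p : unitInterval) : ℝ := (perc W p).real {ω | S.next ω ≠ none}

omit [Group N] in
theorem sum_moves : ∑ κ ∈ S.moves, (perc W p).real {ω | S.next ω = some κ} = S.mass p := by
  have h : {ω | S.next ω ≠ none} = ⋃ κ ∈ S.moves, {ω | S.next ω = some κ} := by
    ext ω
    simp only [Set.mem_ofPred_eq, Set.mem_iUnion, exists_prop]
    refine ⟨fun h => ?_, fun ⟨κ, _, hκ⟩ => by simp [hκ]⟩
    obtain ⟨κ, hκ⟩ := Option.ne_none_iff_exists'.1 h
    exact ⟨κ, S.mem_moves hκ, hκ⟩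
  rw [mass, h, measureReal_biUnion_finset (fun κ _ κ' _ hne => ?_) fun κ _ => (S.dep _).measurableSet]
  exact Set.disjoint_left.2 fun ω h1 h2 => hne (Option.some_inj.1 (h1.symm.trans h2))

omit [Group N] in
theorem mass_nonneg : 0 ≤ S.mass p := measureReal_nonneg

omit [Group N] in
theorem mass_le_one : S.mass p ≤ 1 := measureReal_le_one

variable {σ}

/-- The edges of the translate of the stage. -/
noncomputable def edges (σ : N →* Equiv.Perm W) (ν : N) : Finset (Sym2 W) := by
  classical exact S.R.image (Sym2.map (σ ν))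

theorem dep_translate (ν : N) (o : Option N) :
    Dep {ω | S.next (translate σ ν ω) = o} (S.edges σ ν) := by
  classical
  intro ω ω' he h
  exact S.dep o _ _ (fun e hs => he _ (Finset.mem_image_of_mem _ hs)) h

theorem real_translate (ν : N) (o : Option N) :
    (perc W p).real {ω | S.next (translate σ ν ω) = o}
      = (perc W p).real {ω | S.next ω = o} := by
  conv_rhs => rw [← perc_map (σ ν)]
  rw [map_measureReal_apply (measurable_pi_lambda _ fun e => measurable_pi_apply _)
    (S.dep o).measurableSet]
  rfl

end Stage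

/-- The edges that decide survival. -/
noncomputable def supp : List (Stage W N) → N → Finset (Sym2 W)
  | [], _ => ∅
  | S :: l, ν => by classical exact S.edges σ ν ∪ S.moves.biUnion fun κ => supp l (ν * κ)

theorem survive_cons (S : Stage W N) (l : List (Stage W N)) (ν : N) :
    survive σ (S :: l) ν
      = ⋃ κ ∈ S.moves, {ω | S.next (translate σ ν ω) = some κ} ∩ survive σ l (ν * κ) := by
  ext ω
  simp only [survive, Set.mem_ofPred_eq, Set.mem_iUnion, Set.mem_inter_iff, exists_prop]
  exact ⟨fun ⟨κ, h1, h2⟩ => ⟨κ, S.mem_moves h1, h1, h2⟩, fun ⟨κ, _, h1, h2⟩ => ⟨κ, h1, h2⟩⟩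

theorem dep_survive : ∀ (l : List (Stage W N)) (ν : N), Dep (survive σ l ν) (supp σ l ν)
  | [], _ => fun _ _ _ _ => trivial
  | S :: l, ν => by
    classical
    rw [survive_cons]
    intro ω ω' he h
    simp only [Set.mem_iUnion, Set.mem_inter_iff, exists_prop] at h ⊢
    obtain ⟨κ, hκ, h1, h2⟩ := h
    exact ⟨κ, hκ, S.dep_translate ν _ ω ω' (fun e hs => he e (by simp [supp, hs])) h1,
      dep_survive l _ ω ω' (fun e hs => he e (by
        simp only [supp, Finset.mem_union, Finset.mem_biUnion]; exact Or.inr ⟨κ, hκ, hs⟩)) h2⟩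

theorem measurableSet_survive (l : List (Stage W N)) (ν : N) :
    MeasurableSet (survive σ l ν) :=
  (dep_survive σ l ν).measurableSet

theorem disjoint_supp {S : Stage W N} : ∀ {l : List (Stage W N)},
    (∀ T ∈ l, ∀ ν ν', Disjoint (S.edges σ ν) (T.edges σ ν')) →
      ∀ ν ν', Disjoint (S.edges σ ν) (supp σ l ν')
  | [], _, _, _ => by simp [supp]
  | T :: l, h, ν, ν' => by
    classical
    simp only [supp, Finset.disjoint_union_right, Finset.disjoint_biUnion_right]
    exact ⟨h T List.mem_cons_self ν ν', fun κ _ =>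
      disjoint_supp (fun U hU => h U (List.mem_cons_of_mem _ hU)) ν (ν' * κ)⟩

/-- The product of the probabilities of success. -/
noncomputable def prodMass (p : unitInterval) : List (Stage W N) → ℝ
  | [] => 1
  | S :: l => S.mass p * prodMass p l

omit [Group N] in
theorem prodMass_nonneg : ∀ l : List (Stage W N), 0 ≤ prodMass p l
  | [] => zero_le_one
  | S :: l => mul_nonneg S.mass_nonneg (prodMass_nonneg l)

omit [Group N] in
theorem pow_le_prodMass {q : ℝ} (hq : 0 ≤ q) :
    ∀ l : List (Stage W N), (∀ S ∈ l, q ≤ S.mass p) → q ^ l.length ≤ prodMass p l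
  | [], _ => le_of_eq (pow_zero q)
  | S :: l, h => by
    rw [List.length_cons, pow_succ']
    exact mul_le_mul (h S List.mem_cons_self)
      (pow_le_prodMass hq l fun T hT => h T (List.mem_cons_of_mem _ hT)) (pow_nonneg hq _)
      S.mass_nonneg

/-- The translates of different stages do not share edges. -/
def Separated (l : List (Stage W N)) : Prop :=
  l.Pairwise fun S T => ∀ ν ν', Disjoint (S.edges σ ν) (T.edges σ ν')

theorem real_survive : ∀ {l : List (Stage W N)}, Separated σ l →
    ∀ ν, (perc W p).real (survive σ l ν) = prodMass p l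
  | [], _, _ => by simp [survive, prodMass]
  | S :: l, h, ν => by
    obtain ⟨h1, h2⟩ := List.pairwise_cons.1 h
    rw [survive_cons, prodMass, ← S.sum_moves, Finset.sum_mul, measureReal_biUnion_finset
      (fun κ _ κ' _ hne => Set.disjoint_left.2 fun ω a b =>
        hne (Option.some_inj.1 (a.1.symm.trans b.1)))
      fun κ _ => (S.dep_translate ν _).measurableSet.inter (measurableSet_survive σ l _)]
    refine Finset.sum_congr rfl fun κ _ => ?_
    rw [real_inter_of_disjoint (S.dep_translate ν _) (dep_survive σ l _)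
      (disjoint_supp σ h1 ν _), S.real_translate, real_survive h2]

/-- Two starts whose first stages use disjoint edges survive nearly independently. -/
theorem real_pair_le {S : Stage W N} {l : List (Stage W N)} (h : Separated σ (S :: l)) {ν ν' : N}
    (hd : Disjoint (S.edges σ ν) (S.edges σ ν')) :
    (perc W p).real (survive σ (S :: l) ν ∩ survive σ (S :: l) ν') ≤
      ∑ κ ∈ S.moves, ∑ κ' ∈ S.moves, (perc W p).real {ω | S.next ω = some κ} *
        (perc W p).real {ω | S.next ω = some κ'} *
          (perc W p).real (survive σ l (ν * κ) ∩ survive σ l (ν' * κ')) := by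
  classical
  obtain ⟨h1, -⟩ := List.pairwise_cons.1 h
  set E := fun (μ : N) (κ : N) => {ω | S.next (translate σ μ ω) = some κ}
  have hsub : survive σ (S :: l) ν ∩ survive σ (S :: l) ν' ⊆ ⋃ κ ∈ S.moves, ⋃ κ' ∈ S.moves,
      (E ν κ ∩ E ν' κ') ∩ (survive σ l (ν * κ) ∩ survive σ l (ν' * κ')) := by
    rintro ω ⟨⟨κ, a, b⟩, κ', a', b'⟩
    simp only [Set.mem_iUnion, exists_prop]
    exact ⟨κ, S.mem_moves a, κ', S.mem_moves a', ⟨a, a'⟩, b, b'⟩
  refine (measureReal_mono hsub (measure_ne_top _ _)).trans ((measureReal_biUnion_finset_le _ _).trans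
    (Finset.sum_le_sum fun κ _ => (measureReal_biUnion_finset_le _ _).trans
      (Finset.sum_le_sum fun κ' _ => le_of_eq ?_)))
  have hA : Dep (E ν κ ∩ E ν' κ') (S.edges σ ν ∪ S.edges σ ν') :=
    ((S.dep_translate ν _).mono Finset.subset_union_left).inter
      ((S.dep_translate ν' _).mono Finset.subset_union_right)
  have hB : Dep (survive σ l (ν * κ) ∩ survive σ l (ν' * κ'))
      (supp σ l (ν * κ) ∪ supp σ l (ν' * κ')) :=
    ((dep_survive σ l _).mono Finset.subset_union_left).inter
      ((dep_survive σ l _).mono Finset.subset_union_right)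
  rw [real_inter_of_disjoint hA hB (by
      simp only [Finset.disjoint_union_left, Finset.disjoint_union_right]
      exact ⟨⟨disjoint_supp σ h1 _ _, disjoint_supp σ h1 _ _⟩,
        disjoint_supp σ h1 _ _, disjoint_supp σ h1 _ _⟩),
    real_inter_of_disjoint (S.dep_translate ν _) (S.dep_translate ν' _) hd,
    S.real_translate, S.real_translate]

/-- The second moment of the number of survivors, with weights. -/
theorem pair_sum_le {Om : ℕ} : ∀ {l : List (Stage W N)}, Separated σ l →
    (∀ S ∈ l, ∃ Ω : Finset N, Ω.card ≤ Om ∧ ∀ κ ∉ Ω, Disjoint S.R (S.edges σ κ)) →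
    ∀ {I J : Type} [Fintype I] [Fintype J] [DecidableEq N] (x : I → N) (y : J → N)
      {a : I → ℝ} {b : J → ℝ} {B : ℝ}, (∀ i, 0 ≤ a i) → (∀ j, 0 ≤ b j) → 0 ≤ B →
      (∀ ν, ∑ j with y j = ν, b j ≤ B) →
      ∑ i, ∑ j, a i * b j * (perc W p).real (survive σ l (x i) ∩ survive σ l (y j)) ≤
        prodMass p l ^ 2 * (∑ i, a i) * (∑ j, b j) +
          l.length * Om * prodMass p l * (∑ i, a i) * B
  | [], _, _, I, J, _, _, _, x, y, a, b, B, _, _, _, _ => by
    simp [survive, prodMass, Finset.sum_mul_sum]
  | S :: l, h, hΩ, I, J, _, _, _, x, y, a, b, B, ha, hb, hB, hy => by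
    classical
    obtain ⟨Ω, hcard, hfar⟩ := hΩ S List.mem_cons_self
    obtain ⟨h1, h2⟩ := List.pairwise_cons.1 h
    set w := fun κ => (perc W p).real {ω | S.next ω = some κ}
    set m := S.mass p
    set P := prodMass p l
    have hm : 0 ≤ m := S.mass_nonneg
    have hm1 : m ≤ 1 := S.mass_le_one
    have hP : 0 ≤ P := prodMass_nonneg l
    have hw : ∀ κ, 0 ≤ w κ := fun κ => measureReal_nonneg
    have hsum : ∑ κ : S.moves, w κ = m := (Finset.sum_coe_sort S.moves w).trans S.sum_moves
    set T := fun i j => ∑ κ ∈ S.moves, ∑ κ' ∈ S.moves,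
      w κ * w κ' * (perc W p).real (survive σ l (x i * κ) ∩ survive σ l (y j * κ'))
    have hpair : ∀ i j, (perc W p).real (survive σ (S :: l) (x i) ∩ survive σ (S :: l) (y j))
        ≤ (if (x i)⁻¹ * y j ∈ Ω then m * P else 0) + T i j := fun i j => by
      have hT : 0 ≤ T i j := Finset.sum_nonneg fun κ _ => Finset.sum_nonneg fun κ' _ =>
        mul_nonneg (mul_nonneg (hw _) (hw _)) measureReal_nonneg
      split_ifs with hmem
      · refine le_add_of_le_of_nonneg ((measureReal_mono Set.inter_subset_left).trans_eq ?_) hT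
        rw [real_survive σ h]
        rfl
      · rw [zero_add]
        refine real_pair_le σ h ?_
        have e : S.edges σ (y j) = (S.edges σ ((x i)⁻¹ * y j)).image (Sym2.map (σ (x i))) := by
          simp only [Stage.edges, Finset.image_image]
          refine Finset.image_congr fun e _ => ?_
          simp [Sym2.map_map, Function.comp_def, ← Equiv.Perm.mul_apply, ← map_mul]
        rw [e]
        simp only [Stage.edges] at hfar ⊢
        exact (Finset.disjoint_image (Sym2.map.injective (σ (x i)).injective)).2 (hfar _ hmem)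
    have hnear : ∀ i, ∑ j, b j * (if (x i)⁻¹ * y j ∈ Ω then m * P else 0) ≤ m * P * (Om * B) :=
      fun i => by
      calc ∑ j, b j * (if (x i)⁻¹ * y j ∈ Ω then m * P else 0)
          = m * P * ∑ j with (x i)⁻¹ * y j ∈ Ω, b j := by
            rw [Finset.mul_sum, Finset.sum_filter]
            exact Finset.sum_congr rfl fun j _ => by split_ifs <;> ring
        _ ≤ m * P * ∑ κ ∈ Ω, B := by
            refine mul_le_mul_of_nonneg_left ?_ (mul_nonneg hm hP)
            rw [← Finset.sum_fiberwise_of_maps_to (t := Ω) (g := fun j => (x i)⁻¹ * y j)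
              (fun j hj => (Finset.mem_filter.1 hj).2)]
            refine Finset.sum_le_sum fun κ hκ => le_trans (le_of_eq ?_) (hy (x i * κ))
            refine Finset.sum_congr ?_ fun _ _ => rfl
            ext j
            simp only [Finset.mem_filter, Finset.mem_univ, true_and]
            exact ⟨fun hj => by rw [← hj.2, mul_inv_cancel_left],
              fun hj => by simp [hj, hκ]⟩
        _ ≤ m * P * (Om * B) := by
            rw [Finset.sum_const, nsmul_eq_mul]
            gcongr
    have hy' : ∀ ν, ∑ jκ : J × S.moves with y jκ.1 * jκ.2 = ν, b jκ.1 * w jκ.2 ≤ m * B := fun ν => by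
      rw [Finset.sum_filter, Fintype.sum_prod_type, Finset.sum_comm, ← hsum, Finset.sum_mul]
      refine Finset.sum_le_sum fun κ _ => ?_
      calc ∑ j, (if y j * κ = ν then b j * w κ else 0)
          = w κ * ∑ j with y j = ν * (κ : N)⁻¹, b j := by
            rw [Finset.mul_sum, Finset.sum_filter]
            refine Finset.sum_congr rfl fun j _ => ?_
            by_cases hj : y j * κ = ν
            · rw [if_pos hj, if_pos (eq_mul_inv_of_mul_eq hj)]; ring
            · rw [if_neg hj, if_neg fun h' => hj (by rw [h', inv_mul_cancel_right])]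
        _ ≤ w κ * B := mul_le_mul_of_nonneg_left (hy _) (hw _)
    have hrec := pair_sum_le h2 (fun U hU => hΩ U (List.mem_cons_of_mem _ hU))
      (fun iκ : I × S.moves => x iκ.1 * iκ.2) (fun jκ : J × S.moves => y jκ.1 * jκ.2)
      (a := fun iκ => a iκ.1 * w iκ.2) (b := fun jκ => b jκ.1 * w jκ.2) (B := m * B)
      (fun _ => mul_nonneg (ha _) (hw _)) (fun _ => mul_nonneg (hb _) (hw _))
      (mul_nonneg hm hB) hy'
    simp only [Fintype.sum_prod_type, ← Finset.mul_sum, hsum, ← Finset.sum_mul] at hrec
    have hA : 0 ≤ ∑ i, a i := Finset.sum_nonneg fun i _ => ha i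
    have hT : ∑ i, ∑ j, a i * b j * T i j ≤ P ^ 2 * ((∑ i, a i) * m) * ((∑ j, b j) * m) +
        l.length * Om * P * ((∑ i, a i) * m) * (m * B) := by
      refine le_of_eq_of_le ?_ hrec
      refine Finset.sum_congr rfl fun i _ => ?_
      rw [Finset.sum_comm]
      refine Finset.sum_congr rfl fun j _ => ?_
      simp only [T, Finset.mul_sum]
      rw [← Finset.sum_coe_sort S.moves]
      refine Finset.sum_congr rfl fun κ _ => ?_
      rw [← Finset.sum_coe_sort S.moves]
      exact Finset.sum_congr rfl fun κ' _ => by ring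
    calc ∑ i, ∑ j, a i * b j *
          (perc W p).real (survive σ (S :: l) (x i) ∩ survive σ (S :: l) (y j))
        ≤ ∑ i, ∑ j, (a i * (b j * (if (x i)⁻¹ * y j ∈ Ω then m * P else 0))
            + a i * b j * T i j) := by
          refine Finset.sum_le_sum fun i _ => Finset.sum_le_sum fun j _ => ?_
          exact (mul_le_mul_of_nonneg_left (hpair i j) (mul_nonneg (ha i) (hb j))).trans_eq (by ring)
      _ ≤ (∑ i, a i) * (m * P * (Om * B)) + (P ^ 2 * ((∑ i, a i) * m) * ((∑ j, b j) * m) +
            l.length * Om * P * ((∑ i, a i) * m) * (m * B)) := by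
          simp only [Finset.sum_add_distrib, ← Finset.mul_sum]
          refine add_le_add ?_ (by simpa only [← Finset.mul_sum] using hT)
          rw [Finset.sum_mul]
          exact Finset.sum_le_sum fun i _ => mul_le_mul_of_nonneg_left (hnear i) (ha i)
      _ ≤ _ := by
          have : (l.length : ℝ) * Om * P * (∑ i, a i) * B * (m * m) ≤
              (l.length : ℝ) * Om * P * (∑ i, a i) * B * m :=
            mul_le_mul_of_nonneg_left (mul_le_of_le_one_left hm hm1) (by positivity)
          simp only [prodMass, List.length_cons, Nat.cast_succ]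
          linarith

/-- **Amplifier**: the probability that no start survives all stages is at most the number of
stages times the size of the near set, divided by the expected number of survivors. -/
theorem amplify_bound (l : List (Stage W N)) (hsep : Separated σ l) {Om : ℕ}
    (hΩ : ∀ S ∈ l, ∃ Ω : Finset N, Ω.card ≤ Om ∧ ∀ κ ∉ Ω, Disjoint S.R (S.edges σ κ))
    {J : Finset N} (hJ : J.Nonempty) (hP0 : 0 < prodMass p l) :
    (perc W p).real {ω | ∀ ν ∈ J, ω ∉ survive σ l ν}
      ≤ l.length * Om / (J.card * prodMass p l) := by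
  classical
  set μ := perc W p
  set P := prodMass p l
  set n := (J.card : ℝ)
  have hn : 0 < n := Nat.cast_pos.2 hJ.card_pos
  set c := n * P
  have hc : 0 < c := mul_pos hn hP0
  set f := fun (ν : N) (ω : Sym2 W → Bool) =>
    (survive σ l ν).indicator (fun _ => (1 : ℝ)) ω
  have hms := fun ν => measurableSet_survive σ l ν
  have hint : ∀ ν, Integrable (f ν) μ := fun ν => (integrable_const _).indicator (hms ν)
  have hmul : ∀ ν ν', (fun ω => f ν ω * f ν' ω)
      = (survive σ l ν ∩ survive σ l ν').indicator fun _ => (1 : ℝ) := fun ν ν' => by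
    funext ω
    simp [f, Set.indicator_apply, ← ite_and, and_comm]
  have hint2 : ∀ ν ν', Integrable (fun ω => f ν ω * f ν' ω) μ := fun ν ν' => by
    rw [hmul]; exact (integrable_const _).indicator ((hms ν).inter (hms ν'))
  have hint3 : Integrable (fun ω => ∑ ν ∈ J, ∑ ν' ∈ J, f ν ω * f ν' ω) μ :=
    integrable_finsetSum _ fun ν _ => integrable_finsetSum _ fun ν' _ => hint2 ν ν'
  have hint4 : Integrable (fun ω => 2 * c * ∑ ν ∈ J, f ν ω) μ :=
    (integrable_finsetSum _ fun ν _ => hint ν).const_mul _
  set none' := {ω | ∀ ν ∈ J, ω ∉ survive σ l ν}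
  have hnone : MeasurableSet none' := by
    have e : none' = ⋂ ν ∈ J, (survive σ l ν)ᶜ := by ext ω; simp [none']
    rw [e]
    exact Finset.measurableSet_biInter J fun ν _ => (hms ν).compl
  have hpt : ∀ ω, none'.indicator (fun _ => c ^ 2) ω ≤
      (∑ ν ∈ J, ∑ ν' ∈ J, f ν ω * f ν' ω) - 2 * c * (∑ ν ∈ J, f ν ω) + c ^ 2 := fun ω => by
    rw [← Finset.sum_mul_sum]
    by_cases hω : ω ∈ none'
    · have h0 : ∑ ν ∈ J, f ν ω = 0 :=
        Finset.sum_eq_zero fun ν hν => Set.indicator_of_notMem (hω ν hν) _
      rw [Set.indicator_of_mem hω, h0]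
      linarith
    · rw [Set.indicator_of_notMem hω]
      nlinarith [sq_nonneg ((∑ ν ∈ J, f ν ω) - c)]
  have h := integral_mono ((integrable_const (c ^ 2)).indicator hnone)
    ((hint3.sub hint4).add (integrable_const (c ^ 2))) hpt
  simp only [Pi.add_apply, Pi.sub_apply] at h
  rw [integral_indicator_const _ hnone, integral_add ((hint3.sub' hint4)) (integrable_const _),
    integral_sub hint3 hint4, integral_const_mul, integral_finsetSum _ fun ν _ => hint ν,
    integral_finsetSum _ fun ν _ => integrable_finsetSum _ fun ν' _ => hint2 ν ν'] at h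
  simp only [integral_finsetSum _ fun ν' _ => hint2 _ ν', hmul, f,
    integral_indicator_const _ ((hms _).inter (hms _)), integral_indicator_const _ (hms _),
    smul_eq_mul, mul_one, integral_const, probReal_univ, one_mul, μ,
    real_survive σ hsep, Finset.sum_const, nsmul_eq_mul] at h
  have hpair := pair_sum_le (p := p) σ hsep hΩ (fun ν : J => (ν : N)) (fun ν : J => (ν : N))
    (a := fun _ => 1) (b := fun _ => 1) (B := 1) (fun _ => zero_le_one) (fun _ => zero_le_one)
    zero_le_one fun ν => by
      rw [Finset.sum_const, nsmul_eq_mul, mul_one, Nat.cast_le_one, Finset.card_le_one]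
      intro u hu v hv
      simp only [Finset.mem_filter, Finset.mem_univ, true_and] at hu hv
      exact Subtype.ext (hu.trans hv.symm)
  simp only [one_mul, Finset.sum_const, Finset.card_univ, Fintype.card_coe, nsmul_eq_mul,
    mul_one] at hpair
  have h2 : μ.real none' * c ^ 2 ≤ (l.length * Om : ℝ) * c := by
    rw [← Finset.sum_coe_sort J] at h
    simp only [← Finset.sum_coe_sort J (f := fun ν' => (perc W p).real (survive σ l _ ∩ survive σ l ν'))] at h
    simp only [c, n, P] at h hpair ⊢
    nlinarith
  have h3 : μ.real none' * c ≤ l.length * Om := by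
    by_contra hlt
    nlinarith
  rw [le_div_iff₀ hc]
  exact h3

/-- The amplifier with one lower bound for all the stages. -/
theorem amplifier (l : List (Stage W N)) {q : ℝ} (hq : 0 < q)
    (hmass : ∀ S ∈ l, q ≤ S.mass p) (hsep : Separated σ l) {Om : ℕ}
    (hΩ : ∀ S ∈ l, ∃ Ω : Finset N, Ω.card ≤ Om ∧ ∀ κ ∉ Ω, Disjoint S.R (S.edges σ κ))
    {J : Finset N} (hJ : J.Nonempty) :
    (perc W p).real {ω | ∀ ν ∈ J, ω ∉ survive σ l ν}
      ≤ l.length * Om / (J.card * q ^ l.length) :=
  have hP : q ^ l.length ≤ prodMass p l := pow_le_prodMass hq.le l hmass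
  (amplify_bound σ l hsep hΩ hJ ((pow_pos hq _).trans_le hP)).trans
    (div_le_div_of_nonneg_left (mul_nonneg (Nat.cast_nonneg _) (Nat.cast_nonneg _))
      (mul_pos (Nat.cast_pos.2 hJ.card_pos) (pow_pos hq _))
      (mul_le_mul_of_nonneg_left hP (Nat.cast_nonneg _)))

end Vale.Agent.P165.Large
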