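import Mathlib
import Vale.Agent.P165.Large.Act
import Vale.Agent.P165.Sus.Events

/-!
Walks in a frame: lifts of tree geodesics, entering the part of the graph over a half-tree, and
continuing from its port to any deeper half-tree of a prescribed direction.
-/

namespace Vale.Agent.P165.Large

open SimpleGraph (Walk)

variable {Γ ι : Type} [Group Γ] (f : Frame Γ ι)

/-- One half-tree lies deeper than the other. -/
def Deeper (k h : Half) : Prop :=
  k.side ⊆ h.side ∧ ∀ u ∈ k.side, len (k.base⁻¹ * u) ≤ len (h.base⁻¹ * u)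

lemma deeper_of_base {k h : Half} (h1 : k.base ∈ h.side) (h2 : h.base ∉ k.side) : Deeper k h :=
  ⟨(nested h1 h2).1, nested_len h1 h2⟩

lemma len_dist_le (a b c : F2) : len (a⁻¹ * c) ≤ len (a⁻¹ * b) + len (b⁻¹ * c) := by
  have := len_mul_le (a⁻¹ * b) (b⁻¹ * c)
  simpa [mul_assoc] using this

lemma len_dist_comm (a b : F2) : len (a⁻¹ * b) = len (b⁻¹ * a) := by
  rw [← len_inv, mul_inv_rev, inv_inv]

lemma near_side {h : Half} {a b : F2} (ha : a ∈ h.side)
    (hd : len (a⁻¹ * b) < len (h.base⁻¹ * a)) : b ∈ h.side := by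
  by_contra hb
  exact absurd (cross ha hb).1 (not_le.2 hd)

lemma Frame.Vs_side {h : Half} {v : Γ × ι} (hv : v ∈ f.Vs h) : f.pr v ∈ h.side := hv.1

lemma Frame.deep_mem_Vs {h : Half} {v : Γ × ι} (hs : f.pr v ∈ h.side)
    (hd : f.depth < len (h.base⁻¹ * f.pr v)) : v ∈ f.Vs h :=
  ⟨hs, v, .nil, by simpa using hs, hd⟩

lemma Frame.Vs_of_adj {h : Half} {u v : Γ × ι} (hv : v ∈ f.Vs h) (ha : f.H.Adj u v)
    (hu : f.pr u ∈ h.side) : u ∈ f.Vs h := by
  obtain ⟨-, w, p, hp, hd⟩ := hv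
  exact ⟨hu, w, .cons ha p, by simpa [hu] using hp, hd⟩

lemma Frame.Vs_mono {k h : Half} (hk : Deeper k h) : f.Vs k ⊆ f.Vs h := by
  rintro v ⟨hv, w, p, hp, hd⟩
  exact ⟨hk.1 hv, w, p, fun u hu => hk.1 (hp u hu),
    hd.trans_le (hk.2 _ (hp w p.end_mem_support))⟩

lemma Frame.avoid_anti {k h : Half} (hk : Deeper k h) : f.avoid h ≤ f.avoid k :=
  fun _ _ a => ⟨a.1, fun c => a.2 ⟨f.Vs_mono hk c.1, f.Vs_mono hk c.2⟩⟩

lemma Frame.Vs_disjoint {k h : Half} (hk : Disjoint k.side h.side) {v : Γ × ι}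
    (hv : v ∈ f.Vs k) : v ∉ f.Vs h :=
  fun hv' => Set.disjoint_left.1 hk hv.1 hv'.1

lemma Frame.port_sub {h : Half} {v : Γ × ι} (hv : v ∈ f.port h) : v ∈ f.Vs h := hv.1

lemma Frame.port_len {h : Half} {v : Γ × ι} (hv : v ∈ f.port h) :
    len (h.base⁻¹ * f.pr v) ≤ f.L := by
  obtain ⟨hv, u, ha, hu⟩ := hv
  have hu' : f.pr u ∉ h.side := fun hs => hu (f.Vs_of_adj hv ha.symm hs)
  exact (cross hv.1 hu').1.trans (f.hL v u ha)

/-- The projection moves by at most `L` per step of a walk. -/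
lemma Frame.walk_len {v w : Γ × ι} (p : f.H.Walk v w) :
    ∀ u ∈ p.support, len ((f.pr v)⁻¹ * f.pr u) ≤ f.L * p.length := by
  induction p with
  | nil => simp [len_one]
  | @cons a b c h p ih =>
    intro u hu
    rcases List.mem_cons.1 (by simpa using hu) with rfl | hu
    · simp [len_one]
    · calc _ ≤ len ((f.pr a)⁻¹ * f.pr b) + len ((f.pr b)⁻¹ * f.pr u) := len_dist_le _ _ _
        _ ≤ f.L + f.L * p.length := add_le_add (f.hL a b h) (ih u hu)
        _ = _ := by simp [Walk.length_cons]; ring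

/-- A walk following the letters of a list. -/
lemma Frame.goto_list : ∀ (w : List Letter) (v : Γ × ι), ∃ δ, f.π δ = f.pr v * FreeGroup.mk w ∧
    ∃ p : f.H.Walk v (δ, v.2), p.length ≤ f.rad * w.length ∧ ∀ u ∈ p.support,
      ∃ i, i ≤ w.length ∧ len ((f.pr v * FreeGroup.mk (w.take i))⁻¹ * f.pr u) ≤ f.rad * f.L := by
  intro w
  induction w with
  | nil =>
    intro v
    refine ⟨v.1, ?_, (Walk.nil : f.H.Walk v v), by simp, fun u hu => ⟨0, le_rfl, ?_⟩⟩
    · rw [← FreeGroup.one_eq_mk, mul_one]; rfl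
    · simp only [Walk.support_nil, List.mem_singleton] at hu
      simp [hu, ← FreeGroup.one_eq_mk, len_one]
  | cons l w ih =>
    intro v
    obtain ⟨p₁, hp₁⟩ := f.lift v l
    obtain ⟨δ, hδ, p₂, hp₂, hs⟩ := ih (v.1 * f.γ l, v.2)
    have hpr : f.pr (v.1 * f.γ l, v.2) = f.pr v * letter l := by simp [Frame.pr, f.hγ]
    have hmk : ∀ x : List Letter, FreeGroup.mk (l :: x) = letter l * FreeGroup.mk x := fun x => by
      simp [letter, FreeGroup.mul_mk]
    refine ⟨δ, ?_, p₁.append p₂, ?_, fun u hu => ?_⟩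
    · rw [hδ, hpr, hmk, mul_assoc]
    · rw [Walk.length_append, List.length_cons, Nat.mul_add, Nat.mul_one]
      omega
    · rcases (Walk.mem_support_append_iff _ _).1 hu with hu | hu
      · refine ⟨0, Nat.zero_le _, ?_⟩
        have := f.walk_len p₁ u hu
        have h2 : f.L * p₁.length ≤ f.L * f.rad := Nat.mul_le_mul_left _ hp₁
        simp only [List.take_zero, ← FreeGroup.one_eq_mk, mul_one]
        rw [Nat.mul_comm f.rad]
        omega
      · obtain ⟨i, hi, hl⟩ := hs u hu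
        refine ⟨i + 1, by simp [hi], ?_⟩
        rw [List.take_succ_cons, hmk, ← mul_assoc, ← hpr]
        exact hl

/-- A walk to a vertex over a given point of the tree with a given label. -/
lemma Frame.goto (v : Γ × ι) (g : F2) (j : ι) : ∃ δ, f.π δ = g ∧
    ∃ p : f.H.Walk v (δ, j), p.length ≤ f.rad * (len ((f.pr v)⁻¹ * g) + 1) ∧ ∀ u ∈ p.support,
      ∃ i, len ((f.pr v * FreeGroup.mk (((f.pr v)⁻¹ * g).toWord.take i))⁻¹ * f.pr u)
        ≤ f.rad * f.L := by
  obtain ⟨δ, hδ, p, hp, hs⟩ := f.goto_list ((f.pr v)⁻¹ * g).toWord v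
  rw [FreeGroup.mk_toWord, mul_inv_cancel_left] at hδ
  obtain ⟨p', hp'⟩ := f.swap (δ, v.2) j
  refine ⟨δ, hδ, p.append p', ?_, fun u hu => ?_⟩
  · rw [Walk.length_append, Nat.mul_add, Nat.mul_one]
    exact add_le_add hp hp'
  · rcases (Walk.mem_support_append_iff _ _).1 hu with hu | hu
    · obtain ⟨i, -, hl⟩ := hs u hu
      exact ⟨i, hl⟩
    · refine ⟨((f.pr v)⁻¹ * g).toWord.length, ?_⟩
      rw [List.take_length, FreeGroup.mk_toWord, mul_inv_cancel_left]
      have h1 := f.walk_len p' u hu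
      have h2 : f.L * p'.length ≤ f.L * f.rad := Nat.mul_le_mul_left _ hp'
      have h3 : f.pr (δ, v.2) = g := hδ
      rw [h3] at h1
      rw [Nat.mul_comm f.rad]
      omega

/-- From outside `Vs h` a short walk reaches the port without using an edge inside `Vs h`. -/
lemma Frame.out_port (h : Half) (v : Γ × ι) (hv : v ∉ f.Vs h) :
    ∃ y ∈ f.port h, ∃ p : (f.avoid h).Walk v y,
      p.length ≤ f.rad * (len (h.base⁻¹ * f.pr v) + f.depth + 2) := by
  classical
  obtain ⟨g, hgs, hgl, -, -⟩ := extend_geo h.head_mem (m := f.depth + 1)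
    (by simp [len_letter])
  obtain ⟨δ, hδ, p, hp, -⟩ := f.goto v g v.2
  have hw : (δ, v.2) ∈ f.Vs h :=
    f.deep_mem_Vs (by rw [Frame.pr, hδ]; exact hgs) (by rw [Frame.pr, hδ, hgl]; omega)
  obtain ⟨a, c, r, hc, hac, hac', hr, hre⟩ := Sus.exists_first_hit (f.Vs h) p.bypass hw hv
  have ha : a ∉ f.Vs h := hr a r.end_mem_support
  let e : (f.avoid h).Walk a c := .cons ⟨hac, fun c => ha c.1⟩ .nil
  have hr' : ∀ e ∈ r.edges, e ∈ (f.avoid h).edgeSet := fun e he => by
    induction e using Sym2.ind with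
    | _ x y => exact ⟨r.adj_of_mem_edges he, fun c => hr x (r.fst_mem_support_of_mem_edges he) c.1⟩
  refine ⟨c, ⟨hc, a, hac.symm, ha⟩, ((r.transfer _ hr').append e).bypass, ?_⟩
  have hlen : ((r.transfer _ hr').append e).bypass.length ≤ p.bypass.length := by
    have hsub : ((r.transfer _ hr').append e).bypass.edges ⊆ p.bypass.edges := fun x hx => by
      have := (Walk.edges_bypass_subset_edges _) hx
      rw [Walk.edges_append, Walk.edges_transfer, List.mem_append,
        show e.edges = [s(a, c)] from rfl, List.mem_singleton] at this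
      exact this.elim (hre x) fun h => h ▸ hac'
    have := ((Walk.bypass_isPath _).isTrail.edges_nodup).subperm hsub
    simpa using this.length_le
  refine hlen.trans ((p.length_bypass_le_length).trans (hp.trans (Nat.mul_le_mul_left _ ?_)))
  have := len_dist_le (f.pr v) h.base g
  rw [hgl, len_dist_comm (f.pr v) h.base] at this
  omega

/-- The inner edges of `Vs h`. -/
def Frame.inner (h : Half) : SimpleGraph (Γ × ι) where
  Adj u v := f.H.Adj u v ∧ u ∈ f.Vs h ∧ v ∈ f.Vs h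
  symm := ⟨fun _ _ ⟨a, b, c⟩ => ⟨a.symm, c, b⟩⟩
  loopless := ⟨fun _ ⟨a, _⟩ => a.ne rfl⟩

lemma Frame.inner_le (h : Half) : f.inner h ≤ f.H := fun _ _ a => a.1

lemma Frame.disjoint_inner_avoid (h : Half) :
    Disjoint (f.inner h).edgeSet (f.avoid h).edgeSet := by
  refine Set.disjoint_left.2 fun e => ?_
  induction e using Sym2.ind with
  | _ x y => exact fun a b => b.2 ⟨a.2.1, a.2.2⟩

/-- A lifted word of the free group. -/
def Frame.sec (g : F2) : Γ := (g.toWord.map f.γ).prod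

lemma Frame.π_sec (g : F2) : f.π (f.sec g) = g := by
  have key : ∀ w : List Letter, f.π (w.map f.γ).prod = FreeGroup.mk w := by
    intro w
    induction w with
    | nil => simp [← FreeGroup.one_eq_mk]
    | cons l w ih => simp [ih, f.hγ, letter, FreeGroup.mul_mk]
  rw [Frame.sec, key, FreeGroup.mk_toWord]

lemma Frame.π_surjective : Function.Surjective f.π := fun g => ⟨_, f.π_sec g⟩

/-- A bound on the distance from a port to the deep part inside the half-tree. -/
lemma Frame.port_deep [Finite ι] : ∃ M₀ : ℕ, ∀ (h : Half), ∀ y ∈ f.port h,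
    ∃ w, ∃ p : f.H.Walk y w, p.length ≤ M₀ ∧ (∀ u ∈ p.support, f.pr u ∈ h.side) ∧
      f.depth < len (h.base⁻¹ * f.pr w) := by
  classical
  have := Fintype.ofFinite ι
  obtain ⟨B, hB⟩ := mem_ballFin f.L
  have hM : ∀ s : Letter × F2 × ι, ∃ n : ℕ, (f.sec s.2.1, s.2.2) ∈ f.port ⟨1, s.1⟩ →
      ∃ w, ∃ p : f.H.Walk (f.sec s.2.1, s.2.2) w, p.length ≤ n ∧
        (∀ u ∈ p.support, f.pr u ∈ Half.side ⟨1, s.1⟩) ∧
        f.depth < len ((1 : F2)⁻¹ * f.pr w) := by
    intro s
    by_cases hs : (f.sec s.2.1, s.2.2) ∈ f.port ⟨1, s.1⟩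
    · obtain ⟨-, w, p, hp, hd⟩ := hs.1
      exact ⟨p.length, fun _ => ⟨w, p, le_rfl, hp, hd⟩⟩
    · exact ⟨0, fun h => absurd h hs⟩
  choose M hM using hM
  let S := (Finset.univ : Finset Letter) ×ˢ B ×ˢ (Finset.univ : Finset ι)
  refine ⟨S.sup M, fun h y hy => ?_⟩
  let u : F2 := h.base⁻¹ * f.pr y
  let g : Γ := y.1 * (f.sec u)⁻¹
  have hg : f.π g = h.base := by simp [g, u, f.π_sec, Frame.pr]
  have hsh : (⟨1, h.dir⟩ : Half).shift (f.π g) = h := by simp [Half.shift, hg]
  have hyg : Frame.act g (f.sec u, y.2) = y := by simp [Frame.act, g]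
  have hs : (f.sec u, y.2) ∈ f.port ⟨1, h.dir⟩ := by
    rw [← f.port_act g, hsh, hyg]; exact hy
  obtain ⟨w, p, hp, hside, hd⟩ := hM (h.dir, u, y.2) hs
  let p' : f.H.Walk (Frame.act g (f.sec u, y.2)) (Frame.act g w) := p.map (f.actIso g).toHom
  have hlen : p'.length = p.length := SimpleGraph.Walk.length_map _ _
  have hsupp : p'.support = p.support.map (Frame.act g) :=
    SimpleGraph.Walk.support_map (f.actIso g).toHom p
  refine ⟨Frame.act g w, p'.copy hyg rfl, ?_, fun v hv => ?_, ?_⟩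
  · rw [Walk.length_copy, hlen]
    exact hp.trans (Finset.le_sup (f := M) (by simp [S, (hB u).2 (f.port_len hy)]))
  · rw [Walk.support_copy, hsupp] at hv
    obtain ⟨v', hv', rfl⟩ := List.mem_map.1 hv
    have := (f.mem_side_act g ⟨1, h.dir⟩ v').2 (hside v' hv')
    rwa [hsh] at this
  · have : h.base⁻¹ * f.pr (Frame.act g w) = (1 : F2)⁻¹ * f.pr w := by
      rw [f.pr_act, hg]; group
    rw [this]
    exact hd

/-- From a port, walks inside `Vs h` reach the neighbourhood of a deep half-tree of any direction,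
leaving any given geodesic. -/
lemma Frame.connect [Finite ι] (m : ℕ) : ∃ R M : ℕ, ∀ (h : Half), ∀ y ∈ f.port h,
    ∀ (ℓ : Letter) (u : F2), ∃ k : Half, k.dir = ℓ ∧ Deeper k h ∧ k.base ∈ h.side ∧
      h.base ∉ k.side ∧ m ≤ len (h.base⁻¹ * k.base) ∧ len (h.base⁻¹ * k.base) ≤ R ∧
      ¬(h.base⁻¹ * k.base).toWord <+: u.toWord ∧
      ∀ g, len (k.base⁻¹ * g) ≤ f.L + 1 → ∀ j, ∃ δ, f.π δ = g ∧
        ∃ p : (f.inner h).Walk y (δ, j), p.length ≤ M := by
  classical
  obtain ⟨M₀, hM₀⟩ := f.port_deep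
  let R₁ := max m (f.L * (M₀ + 1) + f.L * (f.rad * (f.L + 2)) + f.depth + f.L + 2)
  refine ⟨R₁ + 2, M₀ + f.rad * (R₁ + 2 + f.L * (M₀ + 1) + 1) + f.rad * (f.L + 2),
    fun h y hy ℓ u => ?_⟩
  obtain ⟨w, p₁, hl₁, hs₁, hw⟩ := hM₀ h y hy
  have hy' := f.port_len hy
  have hwlen : len (h.base⁻¹ * f.pr w) ≤ f.L * (M₀ + 1) := by
    have h1 := len_dist_le h.base (f.pr y) (f.pr w)
    have h2 := f.walk_len p₁ w p₁.end_mem_support
    have h3 : f.L * p₁.length ≤ f.L * M₀ := Nat.mul_le_mul_left _ hl₁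
    rw [Nat.mul_add, Nat.mul_one]
    omega
  obtain ⟨k, hk1, hk2, hk3, hk4, hk5, hk6, hk7⟩ :=
    extend_half (hs₁ w p₁.end_mem_support) (m := R₁) (by omega) ℓ u
  refine ⟨k, hk1, deeper_of_base hk2 hk3, hk2, hk3, le_trans (le_max_left _ _) hk4, hk5, hk6,
    fun g hg j => ?_⟩
  obtain ⟨δ₂, hδ₂, p₂, hl₂, hs₂⟩ := f.goto w k.base w.2
  obtain ⟨δ, hδ, p₃, hl₃, -⟩ := f.goto (δ₂, w.2) g j
  have hk' : f.pr (δ₂, w.2) = k.base := hδ₂
  rw [hk'] at hl₃
  have hin : ∀ v ∈ ((p₁.append p₂).append p₃).support, f.pr v ∈ h.side := by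
    intro v hv
    rcases (Walk.mem_support_append_iff _ _).1 hv with hv | hv
    · rcases (Walk.mem_support_append_iff _ _).1 hv with hv | hv
      · exact hs₁ v hv
      · obtain ⟨i, hi⟩ := hs₂ v hv
        obtain ⟨hge, hside⟩ := hk7 i
        refine near_side hside (lt_of_le_of_lt hi (lt_of_lt_of_le ?_ hge))
        refine lt_of_le_of_lt (le_trans ?_ (le_refl f.depth)) hw
        exact Nat.mul_le_mul (Nat.le_add_right _ _) (Nat.le_add_right _ _)
    · refine near_side hk2 ?_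
      have h1 := f.walk_len p₃ v hv
      rw [hk'] at h1
      have h2 : f.L * p₃.length ≤ f.L * (f.rad * (f.L + 2)) :=
        Nat.mul_le_mul_left _ (hl₃.trans (Nat.mul_le_mul_left _ (by omega)))
      omega
  have hVs : ∀ v ∈ ((p₁.append p₂).append p₃).support, v ∈ f.Vs h := by
    intro v hv
    refine ⟨hin v hv, (δ, j), (((p₁.append p₂).append p₃).dropUntil v hv), fun z hz =>
      hin z ((Walk.support_dropUntil_subset_support _ hv) hz), ?_⟩
    have h1 : f.pr (δ, j) = g := hδ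
    rw [h1]
    have h2 := len_dist_le h.base g k.base
    rw [len_dist_comm g k.base] at h2
    omega
  refine ⟨δ, hδ, ((p₁.append p₂).append p₃).transfer _ fun e he => ?_, ?_⟩
  · induction e using Sym2.ind with
    | _ a b => exact ⟨Walk.adj_of_mem_edges _ he,
        hVs a (Walk.fst_mem_support_of_mem_edges _ he),
        hVs b (Walk.snd_mem_support_of_mem_edges _ he)⟩
  · simp only [Walk.length_transfer, Walk.length_append]
    refine Nat.add_le_add (Nat.add_le_add hl₁ (hl₂.trans (Nat.mul_le_mul_left _ ?_)))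
      (hl₃.trans (Nat.mul_le_mul_left _ (by omega)))
    have h1 := len_dist_le (f.pr w) h.base k.base
    rw [len_dist_comm (f.pr w) h.base] at h1
    omega

end Vale.Agent.P165.Large
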