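import Mathlib
import Vale.Agent.P165.Large.Geo

/-!
Re-rooting: from a port of a half-tree a short walk inside it reaches the port of a translate of
any other root, whose avoiding graph lies inside the first half-tree.
-/

namespace Vale.Agent.P165.Large

open SimpleGraph (Walk)

variable {Γ ι : Type} [Group Γ] (f : Frame Γ ι)

/-- The half-tree keeps away from the ball of radius `R` about `c`. -/
def Far (g : Half) (c : F2) (R : ℕ) : Prop := ∀ u ∈ g.side, R < len (c⁻¹ * u)

lemma Far.mono {g : Half} {c : F2} {R R' : ℕ} (h : Far g c R') (hR : R ≤ R') : Far g c R :=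
  fun u hu => hR.trans_lt (h u hu)

lemma far_shift {g : Half} {c : F2} {R : ℕ} (a : F2) (h : Far g c R) :
    Far (g.shift a) (a * c) R := by
  intro u hu
  have h' : a⁻¹ * u ∈ g.side := by
    rw [← shift_mem_side (g := a)]
    simpa using hu
  simpa [mul_assoc] using h _ h'

/-- At most as many members of a code as points of a set can meet it. -/
lemma card_not_far {A : Finset Half} (hA : (A : Set Half).PairwiseDisjoint Half.side) {c : F2}
    {R : ℕ} {B : Finset F2} (hB : ∀ u, len u ≤ R → u ∈ B) [DecidablePred fun g => ¬Far g c R] :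
    (A.filter fun g => ¬Far g c R).card ≤ B.card := by
  classical
  have h : ∀ g ∈ A.filter (fun g => ¬Far g c R), ∃ u, u ∈ g.side ∧ c⁻¹ * u ∈ B := by
    intro g hg
    simp only [Finset.mem_filter, Far, not_forall, not_lt] at hg
    obtain ⟨-, u, hu, hl⟩ := hg
    exact ⟨u, hu, hB _ hl⟩
  choose! φ hφ1 hφ2 using h
  refine Finset.card_le_card_of_injOn (fun g => c⁻¹ * φ g) (fun g hg => hφ2 g hg) ?_
  intro a ha b hb he
  by_contra hne
  have hab : φ a = φ b := mul_left_cancel he
  exact Set.disjoint_left.1 (hA (Finset.mem_filter.1 ha).1 (Finset.mem_filter.1 hb).1 hne)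
    (hφ1 a ha) (hab ▸ hφ1 b hb)

lemma Half.shift_op (a : F2) (h : Half) : (h.shift a).op = h.op.shift a := by
  simp [Half.shift, Half.op, mul_assoc]

/-- A walk away from a half-tree uses only edges outside its part of the graph. -/
lemma Frame.edges_avoid {g : Half} {c : F2} {R : ℕ} {K : SimpleGraph (Γ × ι)} (hK : K ≤ f.H)
    {v w : Γ × ι} (p : K.Walk v w) (hg : Far g c R)
    (hp : ∀ u ∈ p.support, len (c⁻¹ * f.pr u) ≤ R) :
    ∀ e ∈ p.edges, e ∈ (f.avoid g).edgeSet := by
  intro e he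
  induction e using Sym2.ind with
  | _ a b =>
    exact ⟨hK (p.adj_of_mem_edges he), fun h => absurd (hg _ h.1.1)
      (not_lt.2 (hp a (p.fst_mem_support_of_mem_edges he)))⟩

/-- The avoiding graph of a root whose opposite half-tree is deep in `g` lies inside `g`. -/
lemma Frame.avoid_le_inner {g k : Half} (hk : k.base ∈ g.side) (hk' : g.base ∉ k.side)
    (hd : 2 * f.depth + 2 * f.L + 3 ≤ len (g.base⁻¹ * k.base)) :
    f.avoid k.op ≤ f.inner g := by
  have key : ∀ a b, f.H.Adj a b → a ∉ f.Vs k.op → a ∈ f.Vs g ∧ b ∈ f.Vs g := by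
    intro a b hab ha
    suffices h : f.pr a ∈ g.side ∧ f.depth + f.L < len (g.base⁻¹ * f.pr a) by
      refine ⟨f.deep_mem_Vs h.1 (by omega), f.deep_mem_Vs ?_ ?_⟩
      · exact near_side h.1 (lt_of_le_of_lt (f.hL a b hab) (by omega))
      · have h1 := len_dist_le g.base (f.pr b) (f.pr a)
        have h2 : len ((f.pr b)⁻¹ * f.pr a) ≤ f.L := f.hL b a hab.symm
        omega
    by_cases hs : f.pr a ∈ k.side
    · exact ⟨(nested hk hk').1 hs, lt_of_le_of_lt (by omega) ((nested hk hk').2 _ hs)⟩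
    · have h0 : f.pr a ∈ k.op.side := mem_op_side.2 hs
      have h1 : len (k.op.base⁻¹ * f.pr a) ≤ f.depth :=
        not_lt.1 fun h => ha (f.deep_mem_Vs h0 h)
      have h2 : len (k.base⁻¹ * f.pr a) ≤ f.depth + 1 := by
        have := len_dist_le k.base k.op.base (f.pr a)
        have h3 : len (k.base⁻¹ * k.op.base) = 1 := by simp [Half.op, len_letter]
        omega
      refine ⟨near_side hk (by omega), ?_⟩
      have h3 := len_dist_le g.base (f.pr a) k.base
      rw [len_dist_comm (f.pr a) k.base] at h3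
      omega
  intro a b h
  by_cases ha : a ∈ f.Vs k.op
  · obtain ⟨h1, h2⟩ := key b a h.1.symm fun hb => h.2 ⟨ha, hb⟩
    exact ⟨h.1, h2, h1⟩
  · obtain ⟨h1, h2⟩ := key a b h.1 ha
    exact ⟨h.1, h1, h2⟩

/-- Re-rooting from a port. -/
lemma Frame.reroot [Finite ι] (m : ℕ) : ∃ R M : ℕ, ∀ (g : Half), ∀ z ∈ f.port g,
    ∀ (h : Half), ∀ y ∈ f.port h, ∀ u : F2, ∃ (γ : Γ) (k : Half),
      k = h.op.shift (f.π γ) ∧ Deeper k g ∧ k.base ∈ g.side ∧ g.base ∉ k.side ∧
      m ≤ len (g.base⁻¹ * k.base) ∧ len (g.base⁻¹ * k.base) ≤ R ∧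
      ¬(g.base⁻¹ * k.base).toWord <+: u.toWord ∧
      f.avoid (h.shift (f.π γ)) ≤ f.inner g ∧
      ∃ p : (f.inner g).Walk z (Frame.act γ y), p.length ≤ M ∧
        ∀ v ∈ p.support, len (k.base⁻¹ * f.pr v) ≤ R := by
  obtain ⟨R, M, h⟩ := f.connect (max m (2 * f.depth + 2 * f.L + 3))
  refine ⟨max R (f.L * M + f.L * M + f.L + 1), M, fun g z hz h' y hy u => ?_⟩
  obtain ⟨k, hk1, hk2, hk3, hk4, hk5, hk6, hk7, hk8⟩ := h g z hz h'.op.dir u
  let a : F2 := k.base * h'.op.base⁻¹
  have hk : h'.op.shift a = k := by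
    apply Half.ext
    · simp [Half.shift, a]
    · simp [Half.shift, hk1]
  have hy' : len (k.base⁻¹ * (a * f.pr y)) ≤ f.L + 1 := by
    have e : k.base⁻¹ * (a * f.pr y) = (h'.op.base)⁻¹ * f.pr y := by simp [a, mul_assoc]
    rw [e]
    have h1 := len_dist_le h'.op.base h'.base (f.pr y)
    have h2 : len (h'.op.base⁻¹ * h'.base) = 1 := by
      rw [len_dist_comm]; simp [Half.op, len_letter]
    have h3 := f.port_len hy
    omega
  obtain ⟨δ, hδ, p, hp⟩ := hk8 _ hy' y.2
  have hπ : f.π (δ * y.1⁻¹) = a := by simp [hδ, Frame.pr]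
  have hact : Frame.act (δ * y.1⁻¹) y = (δ, y.2) := by simp [Frame.act]
  refine ⟨δ * y.1⁻¹, k, by rw [hπ, hk], hk2, hk3, hk4, le_trans (le_max_left _ _) hk5,
    le_trans hk6 (le_max_left _ _), hk7, ?_, p.copy rfl hact.symm, by simpa using hp, ?_⟩
  · have : h'.shift (f.π (δ * y.1⁻¹)) = k.op := by
      rw [← hk, hπ, Half.shift_op, Half.op_op]
    rw [this]
    exact f.avoid_le_inner hk3 hk4 (le_trans (le_max_right _ _) hk5)
  · intro v hv
    rw [SimpleGraph.Walk.support_copy] at hv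
    refine le_trans ?_ (le_max_right _ _)
    let p' := p.mapLe (f.inner_le g)
    have hv' : v ∈ p'.support := by rw [Walk.support_mapLe_eq_support]; exact hv
    have h1 := f.walk_len p' v hv'
    have h2 := f.walk_len p' (δ, y.2) p'.end_mem_support
    have hpl : f.L * p'.length ≤ f.L * M :=
      Nat.mul_le_mul_left _ (by simpa [p', Walk.mapLe] using hp)
    have h3 : f.pr (δ, y.2) = a * f.pr y := hδ
    rw [h3] at h2
    have h4 := len_dist_le k.base (a * f.pr y) (f.pr v)
    have h5 := len_dist_le (a * f.pr y) (f.pr z) (f.pr v)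
    rw [len_dist_comm (a * f.pr y) (f.pr z)] at h5
    omega

end Vale.Agent.P165.Large
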