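import Mathlib
import Vale.Agent.P165.Large.Root

/-!
Growth: over codes, the sum of a power of the probability that a root is joined to a port is
either infinite or at most a constant.
-/

namespace Vale.Agent.P165.Large

open MeasureTheory
open scoped ENNReal

variable {Γ ι : Type} [Group Γ] (f : Frame Γ ι)

/-- A finite family of half-trees with disjoint sides, all disjoint from the side of `h`. -/
def RootCode (h : Half) (A : Finset Half) : Prop :=
  (A : Set Half).PairwiseDisjoint Half.side ∧ ∀ g ∈ A, Disjoint g.side h.side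

/-- The vertices with the projection and the label of `z`. -/
def Frame.sameClass (z : Γ × ι) : Set (Γ × ι) := {v | f.pr v = f.pr z ∧ v.2 = z.2}

/-- The probability that the root `y` of `h` is joined to `T` away from `h` and `g`. -/
noncomputable def Frame.meet (q : unitInterval) (h g : Half) (y : Γ × ι) (T : Set (Γ × ι)) :
    ℝ≥0∞ :=
  perc (Γ × ι) q (joins (f.avoid h ⊓ f.avoid g) y T)

/-- The largest sum of `σ`-powers of the crossing probabilities over a code at a root. -/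
noncomputable def Frame.growth (q : unitInterval) (σ : ℝ) : ℝ≥0∞ :=
  ⨆ (h : Half) (y : f.port h) (A : Finset Half) (_ : RootCode h A),
    ∑ g ∈ A, f.meet q h g y (f.port g) ^ σ

lemma Frame.le_growth (q : unitInterval) (σ : ℝ) {h : Half} {y : Γ × ι} (hy : y ∈ f.port h)
    {A : Finset Half} (hA : RootCode h A) :
    ∑ g ∈ A, f.meet q h g y (f.port g) ^ σ ≤ f.growth q σ :=
  le_iSup_of_le h (le_iSup_of_le ⟨y, hy⟩ (le_iSup₂_of_le A hA le_rfl))

lemma RootCode.subset {h : Half} {A B : Finset Half} (hA : RootCode h A) (hB : B ⊆ A) :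
    RootCode h B :=
  ⟨hA.1.subset (Finset.coe_subset.2 hB), fun g hg => hA.2 g (hB hg)⟩

lemma Frame.eq_act_of_sameClass {z v : Γ × ι} (hv : v ∈ f.sameClass z) :
    ∃ ν : Γ, f.π ν = 1 ∧ Frame.act ν z = v := by
  refine ⟨v.1 * z.1⁻¹, ?_, ?_⟩
  · have : f.π v.1 = f.π z.1 := hv.1
    simp [this]
  · exact Prod.ext (by simp [Frame.act]) hv.2.symm

lemma Frame.sameClass_port {g : Half} {z : Γ × ι} (hz : z ∈ f.port g) :
    f.sameClass z ⊆ f.port g := by
  intro v hv
  obtain ⟨ν, hν, rfl⟩ := f.eq_act_of_sameClass hv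
  have := (f.port_act ν g z).2 hz
  rwa [hν, Half.shift_one] at this

lemma Frame.port_nonempty (g : Half) (i : ι) : (f.port g).Nonempty := by
  obtain ⟨y, hy, -⟩ := f.out_port g (f.sec g.base, i) fun h => Half.base_notMem g (by
    have := f.Vs_side h
    rwa [Frame.pr, f.π_sec] at this)
  exact ⟨y, hy⟩

/-- Finitely many classes cover every port. -/
lemma Frame.exists_classes [Finite ι] : ∃ C : Finset (F2 × ι), ∀ g, ∀ v ∈ f.port g,
    ∃ c ∈ C, v ∈ f.sameClass (f.sec (g.base * c.1), c.2) := by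
  have := Fintype.ofFinite ι
  obtain ⟨B, hB⟩ := mem_ballFin f.L
  refine ⟨B ×ˢ Finset.univ, fun g v hv => ⟨(g.base⁻¹ * f.pr v, v.2),
    by simp [(hB _).2 (f.port_len hv)], ?_, rfl⟩⟩
  simp [Frame.pr, f.π_sec]

/-- One class of the port carries a fixed fraction of the crossing probability. -/
lemma Frame.exists_class [Finite ι] [Nonempty ι] : ∃ n : ℕ, 0 < n ∧
    ∀ (q : unitInterval) (h g : Half) (y : Γ × ι), ∃ z ∈ f.port g,
      f.meet q h g y (f.port g) ≤ n * f.meet q h g y (f.sameClass z) := by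
  classical
  obtain ⟨C, hC⟩ := f.exists_classes
  refine ⟨C.card + 1, Nat.succ_pos _, fun q h g y => ?_⟩
  obtain ⟨z₀, hz₀⟩ := f.port_nonempty g (Classical.arbitrary ι)
  let rep : F2 × ι → Γ × ι := fun c => (f.sec (g.base * c.1), c.2)
  let C' := C.filter fun c => rep c ∈ f.port g
  obtain ⟨c₁, hc₁, hmax⟩ : ∃ c₁ ∈ C', ∀ c ∈ C',
      f.meet q h g y (f.sameClass (rep c)) ≤ f.meet q h g y (f.sameClass (rep c₁)) := by
    refine C'.exists_max_image _ ?_
    obtain ⟨c, hc, hv⟩ := hC g z₀ hz₀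
    refine ⟨c, Finset.mem_filter.2 ⟨hc, ?_⟩⟩
    exact f.sameClass_port hz₀ ⟨hv.1.symm, hv.2.symm⟩
  refine ⟨rep c₁, (Finset.mem_filter.1 hc₁).2, ?_⟩
  calc f.meet q h g y (f.port g)
      ≤ perc (Γ × ι) q (⋃ c ∈ C', joins (f.avoid h ⊓ f.avoid g) y (f.sameClass (rep c))) := by
        refine measure_mono fun ω hω => ?_
        obtain ⟨v, hv, hc⟩ := mem_joins.1 hω
        obtain ⟨c, hc', hvc⟩ := hC g v hv
        exact Set.mem_iUnion₂.2 ⟨c, Finset.mem_filter.2
          ⟨hc', f.sameClass_port hv ⟨hvc.1.symm, hvc.2.symm⟩⟩, mem_joins.2 ⟨v, hvc, hc⟩⟩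
    _ ≤ ∑ c ∈ C', f.meet q h g y (f.sameClass (rep c)) := measure_biUnion_finset_le _ _
    _ ≤ ∑ _c ∈ C', f.meet q h g y (f.sameClass (rep c₁)) := Finset.sum_le_sum hmax
    _ ≤ _ := by
        rw [Finset.sum_const, nsmul_eq_mul]
        exact mul_le_mul_left (by
          exact_mod_cast (Finset.card_filter_le _ _).trans (Nat.le_succ _)) _

/-- From a port, a crossing of any root can be copied inside the half-tree. -/
lemma Frame.advance [Finite ι] (m : ℕ) : ∃ R M : ℕ, ∀ (g : Half), ∀ z ∈ f.port g,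
    ∀ (h₁ : Half), ∀ y₁ ∈ f.port h₁, ∀ w : F2, ∃ γ : Γ,
      Deeper (h₁.op.shift (f.π γ)) g ∧ f.avoid (h₁.shift (f.π γ)) ≤ f.inner g ∧ ∀ g₂ : Half,
      Disjoint g₂.side h₁.side → Far g₂ h₁.op.base R →
      (g₂.shift (f.π γ)).side ⊆ g.side ∧ Deeper (g₂.shift (f.π γ)) g ∧
      (∀ u ∈ (g₂.shift (f.π γ)).side, m < len (g.base⁻¹ * u) ∧
        lcp (g.base⁻¹ * u).toWord w.toWord ≤ R) ∧
      (∃ p : (f.inner g ⊓ f.avoid (g₂.shift (f.π γ))).Walk z (Frame.act γ y₁), p.length ≤ M) ∧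
      ∀ (q : unitInterval) (T T' : Set (Γ × ι)), Frame.act γ '' T ⊆ T' →
        ENNReal.ofReal ((q : ℝ) ^ M) * f.meet q h₁ g₂ y₁ T ≤
          perc (Γ × ι) q (joins (f.inner g ⊓ f.avoid (g₂.shift (f.π γ))) z T') := by
  classical
  have := f.countable
  obtain ⟨R, M, hr⟩ := f.reroot (max m 1)
  refine ⟨R, M, fun g z hz h₁ y₁ hy₁ w => ?_⟩
  obtain ⟨γ, k, hk, hkg, hkb, hgk, hk1, hkR, hkw, hav, p, hpM, hpR⟩ := hr g z hz h₁ y₁ hy₁ w
  refine ⟨γ, hk ▸ hkg, hav, fun g₂ hg₂ hfar => ?_⟩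
  set g₂' := g₂.shift (f.π γ) with hg₂'
  have hfar' : Far g₂' k.base R := by
    rw [hk]; exact far_shift _ hfar
  have hsub : g₂'.side ⊆ k.side := by
    intro u hu
    have hu' : (f.π γ)⁻¹ * u ∈ g₂.side := by
      rw [← shift_mem_side (g := f.π γ)]; simpa [hg₂'] using hu
    have h2 : (f.π γ)⁻¹ * u ∈ h₁.op.side :=
      mem_op_side.2 fun h' => Set.disjoint_left.1 hg₂ hu' h'
    rw [hk]
    simpa using (shift_mem_side (g := f.π γ)).2 h2
  have hsub' : g₂'.side ⊆ g.side := hsub.trans hkg.1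
  have hdeep : Deeper g₂' g := by
    refine deeper_of_base ?_ fun hb => Half.base_notMem g (hsub' hb)
    have h1 := g₂'.head_mem
    refine near_side (hsub' h1) ?_
    have h3 : (g₂'.base * letter g₂'.dir)⁻¹ * g₂'.base = (letter g₂'.dir)⁻¹ := by group
    rw [h3, len_inv, len_letter]
    exact lt_of_le_of_lt (le_trans (le_max_right _ _) hk1) ((nested hkb hgk).2 _ (hsub h1))
  have hp : ∀ e ∈ p.edges, e ∈ (f.inner g ⊓ f.avoid g₂').edgeSet := by
    intro e he
    have h2 := p.edges_subset_edgeSet he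
    have h3 := f.edges_avoid (f.inner_le g) p hfar' hpR e he
    induction e using Sym2.ind with
    | _ a b => exact ⟨h2, h3⟩
  refine ⟨hsub', hdeep, fun u hu => ⟨lt_of_le_of_lt (le_trans (le_max_left _ _) hk1)
    ((nested hkb hgk).2 _ (hsub hu)), (lcp_le_of_nested hkb hgk (hsub hu) hkw).trans hkR⟩,
    ⟨p.transfer _ hp, by simpa using hpM⟩, fun q T T' hT => ?_⟩
  refine le_trans (mul_le_mul_right ?_ _)
    (walk_joins (p := q) (p.transfer _ hp) (M := M) (by simpa using hpM) T')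
  let K := f.avoid (h₁.shift (f.π γ)) ⊓ f.avoid (g₂.shift (f.π γ))
  refine le_trans (le_of_eq (f.joins_map (K' := K) γ (fun a b => ?_) y₁ T).symm)
    (measure_mono (joins_mono ?_ _ hT))
  · exact and_congr (f.avoid_act _ _ _ _) (f.avoid_act _ _ _ _)
  · exact inf_le_inf hav le_rfl

/-- Crossing to a class, re-rooting there and crossing again. -/
lemma Frame.compose [Finite ι] : ∃ R M : ℕ, ∀ (q : unitInterval) (h g : Half) (y z : Γ × ι),
    Disjoint g.side h.side → z ∈ f.port g → ∀ (h₁ : Half), ∀ y₁ ∈ f.port h₁,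
    ∃ γ : Γ, Deeper (h₁.op.shift (f.π γ)) g ∧ ∀ g₂ : Half,
      Disjoint g₂.side h₁.side → Far g₂ h₁.op.base R →
      (g₂.shift (f.π γ)).side ⊆ g.side ∧
      ∀ T T' : Set (Γ × ι), (∀ ν, f.π ν = 1 → Frame.act (ν * γ) '' T ⊆ T') →
        ENNReal.ofReal ((q : ℝ) ^ M) * f.meet q h g y (f.sameClass z) * f.meet q h₁ g₂ y₁ T
          ≤ f.meet q h (g₂.shift (f.π γ)) y T' := by
  classical
  have := f.countable
  obtain ⟨R, M, hr⟩ := f.advance 1
  refine ⟨R, M, fun q h g y z hgh hz h₁ y₁ hy₁ => ?_⟩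
  obtain ⟨γ, hk, -, hrest⟩ := hr g z hz h₁ y₁ hy₁ 1
  refine ⟨γ, hk, fun g₂ hg₂ hfar => ?_⟩
  obtain ⟨hsub, hdeep, -, -, hprob⟩ := hrest g₂ hg₂ hfar
  refine ⟨hsub, fun T T' hT => ?_⟩
  set g₂' := g₂.shift (f.π γ)
  have hinner : f.inner g ≤ f.avoid h :=
    fun a b hab => ⟨hab.1, fun hh => f.Vs_disjoint hgh hab.2.1 hh.1⟩
  let K₁ := f.avoid h ⊓ f.avoid g
  let K₂ := f.inner g ⊓ f.avoid g₂'
  let A : f.sameClass z → Set (Sym2 (Γ × ι) → Bool) := fun v => conn K₁ y v
  let B : f.sameClass z → Set (Sym2 (Γ × ι) → Bool) := fun v => joins K₂ (v : Γ × ι) T'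
  have hdisj : Disjoint K₁.edgeSet K₂.edgeSet :=
    (f.disjoint_inner_avoid g).symm.mono (SimpleGraph.edgeSet_mono inf_le_right)
      (SimpleGraph.edgeSet_mono inf_le_left)
  have hb : ∀ v : f.sameClass z,
      ENNReal.ofReal ((q : ℝ) ^ M) * f.meet q h₁ g₂ y₁ T ≤ perc (Γ × ι) q (B v) := by
    intro v
    obtain ⟨ν, hν, hv⟩ := f.eq_act_of_sameClass v.2
    show _ ≤ perc (Γ × ι) q (joins K₂ (v : Γ × ι) T')
    rw [← hv]
    have h1 := hprob q T (Frame.act ν ⁻¹' T') fun w hw => by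
      obtain ⟨w', hw', rfl⟩ := hw
      exact hT ν hν ⟨w', hw', Frame.act_mul ν γ w'⟩
    refine h1.trans (le_trans (le_of_eq (f.joins_map (K' := K₂) ν (fun a b => ?_) z _).symm)
      (measure_mono (joins_mono le_rfl _ (Set.image_preimage_subset _ _))))
    have hav := f.avoid_act ν g₂' a b
    have hVs : ∀ c, Frame.act ν c ∈ f.Vs g ↔ c ∈ f.Vs g := fun c => by
      have := f.Vs_act ν g c
      rwa [hν, Half.shift_one] at this
    rw [hν, Half.shift_one] at hav
    exact and_congr (and_congr (f.adj_act ν) (and_congr (hVs a) (hVs b))) hav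
  calc ENNReal.ofReal ((q : ℝ) ^ M) * f.meet q h g y (f.sameClass z) * f.meet q h₁ g₂ y₁ T
      = perc (Γ × ι) q (⋃ v, A v) * (ENNReal.ofReal ((q : ℝ) ^ M) * f.meet q h₁ g₂ y₁ T) := by
        rw [Frame.meet, joins_eq_iUnion, Set.biUnion_eq_iUnion]
        ring
    _ ≤ perc (Γ × ι) q (⋃ v, A v ∩ B v) :=
        indep_union hdisj (fun v => meas_conn K₁ y _) (fun v => meas_joins K₂ _ _) hb
    _ ≤ f.meet q h g₂' y T' := by
        refine measure_mono (Set.iUnion_subset fun v ω hω => ?_)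
        obtain ⟨w, hw, hc⟩ := mem_joins.1 hω.2
        have hle₁ : K₁ ≤ f.avoid h ⊓ f.avoid g₂' :=
          inf_le_inf le_rfl (f.avoid_anti hdeep)
        have hle₂ : K₂ ≤ f.avoid h ⊓ f.avoid g₂' := inf_le_inf hinner le_rfl
        have mono : ∀ {K K' : SimpleGraph (Γ × ι)}, K ≤ K' → openGraph K ω ≤ openGraph K' ω :=
          fun h' _ _ ha => ⟨h' ha.1, ha.2⟩
        exact mem_joins.2 ⟨w, hw, SimpleGraph.Reachable.trans
          (SimpleGraph.Reachable.mono (mono hle₁) hω.1) (SimpleGraph.Reachable.mono (mono hle₂) hc)⟩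

/-- Growth at a fixed power is infinite or bounded by a constant. -/
theorem Frame.growth_le [Finite ι] [Nonempty ι] {a : ℝ} (ha : 0 < a) :
    ∃ K : ℝ≥0∞, K ≠ ⊤ ∧ ∀ (q : unitInterval) (σ : ℝ), a ≤ q → 0 ≤ σ → σ ≤ 1 →
      f.growth q σ ≠ ⊤ → f.growth q σ ≤ K := by
  classical
  obtain ⟨R, M, hcomp⟩ := f.compose
  obtain ⟨n, hn, hcls⟩ := f.exists_class
  obtain ⟨B, hB⟩ := mem_ballFin R
  let c : ℝ≥0∞ := ENNReal.ofReal (a ^ M) / n
  have hc0 : c ≠ 0 := by
    simp [c, ENNReal.div_eq_zero_iff, pow_pos ha M]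
  have hct : c ≠ ⊤ := ENNReal.div_ne_top ENNReal.ofReal_ne_top (by exact_mod_cast hn.ne')
  refine ⟨B.card + (c⁻¹ + 1), by simp [hc0], fun q σ haq hσ hσ1 hfin => ?_⟩
  set S := f.growth q σ with hS
  rcases eq_or_ne S 0 with h0 | h0
  · simp [h0]
  refine iSup_le fun h₁ => iSup_le fun y₁ => iSup₂_le fun A₂ hA₂ => ?_
  rw [← Finset.sum_filter_add_sum_filter_not A₂ (fun g => ¬Far g h₁.op.base R)]
  refine add_le_add ?_ ?_
  · refine le_trans (Finset.sum_le_sum fun g _ => ENNReal.rpow_le_one ?_ hσ) ?_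
    · exact prob_le_one
    · rw [Finset.sum_const, nsmul_one]
      exact_mod_cast card_not_far hA₂.1 fun u hu => (hB u).2 hu
  · simp only [not_not]
    set A₃ := A₂.filter fun g => Far g h₁.op.base R with hA₃
    set X := ∑ g ∈ A₃, f.meet q h₁ g y₁ (f.port g) ^ σ
    have key : c ^ σ * X * S ≤ 1 * S := by
      rw [one_mul]
      conv_lhs => rw [hS, Frame.growth]
      simp only [ENNReal.mul_iSup]
      refine iSup_le fun h => iSup_le fun y => iSup₂_le fun A hA => ?_
      have hz : ∀ g, ∃ z ∈ f.port g,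
          f.meet q h g y (f.port g) ≤ n * f.meet q h g y (f.sameClass z) :=
        fun g => hcls q h g y
      choose z hz hzle using hz
      have hex : ∀ g, ∃ γ : Γ, g ∈ A → Deeper (h₁.op.shift (f.π γ)) g ∧ ∀ g₂ : Half,
          Disjoint g₂.side h₁.side → Far g₂ h₁.op.base R →
          (g₂.shift (f.π γ)).side ⊆ g.side ∧
          ∀ T T' : Set (Γ × ι), (∀ ν, f.π ν = 1 → Frame.act (ν * γ) '' T ⊆ T') →
            ENNReal.ofReal ((q : ℝ) ^ M) * f.meet q h g y (f.sameClass (z g))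
              * f.meet q h₁ g₂ y₁ T ≤ f.meet q h (g₂.shift (f.π γ)) y T' := by
        intro g
        by_cases hg : g ∈ A
        · obtain ⟨γ, hγ⟩ := hcomp q h g y (z g) (hA.2 g hg) (hz g) h₁ y₁ y₁.2
          exact ⟨γ, fun _ => hγ⟩
        · exact ⟨1, fun h' => absurd h' hg⟩
      choose γ hγ using hex
      let F : Half × Half → Half := fun x => x.2.shift (f.π (γ x.1))
      have hF : ∀ x ∈ A ×ˢ A₃, (F x).side ⊆ x.1.side := by
        intro x hx
        obtain ⟨hx1, hx2⟩ := Finset.mem_product.1 hx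
        obtain ⟨hx2, hx3⟩ := Finset.mem_filter.1 hx2
        exact ((hγ x.1 hx1).2 x.2 (hA₂.2 _ hx2) hx3).1
      have hd : ∀ x ∈ A ×ˢ A₃, ∀ x' ∈ A ×ˢ A₃, x ≠ x' → Disjoint (F x).side (F x').side := by
        intro x hx x' hx' hne
        obtain ⟨hx1, hx2⟩ := Finset.mem_product.1 hx
        obtain ⟨hx1', hx2'⟩ := Finset.mem_product.1 hx'
        by_cases he : x.1 = x'.1
        · have hne2 : x.2 ≠ x'.2 := fun h' => hne (Prod.ext he h')
          refine Set.disjoint_left.2 fun u hu hu' => ?_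
          simp only [F, ← he] at hu hu'
          have h1 : (f.π (γ x.1))⁻¹ * u ∈ x.2.side := by
            rw [← shift_mem_side (g := f.π (γ x.1))]; simpa using hu
          have h2 : (f.π (γ x.1))⁻¹ * u ∈ x'.2.side := by
            rw [← shift_mem_side (g := f.π (γ x.1))]; simpa using hu'
          exact Set.disjoint_left.1 (hA₂.1 (Finset.mem_filter.1 hx2).1
            (Finset.mem_filter.1 hx2').1 hne2) h1 h2
        · exact (hA.1 hx1 hx1' he).mono (hF x hx) (hF x' hx')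
      have hinj : Set.InjOn F ↑(A ×ˢ A₃) := by
        intro x hx x' hx' he
        by_contra hne
        exact Set.disjoint_left.1 (hd x hx x' hx' hne) (F x).head_mem (he ▸ (F x).head_mem)
      have hcode : RootCode h ((A ×ˢ A₃).image F) := by
        refine ⟨fun a ha b hb hab => ?_, fun g hg => ?_⟩
        · obtain ⟨x, hx, rfl⟩ := Finset.mem_image.1 (Finset.mem_coe.1 ha)
          obtain ⟨x', hx', rfl⟩ := Finset.mem_image.1 (Finset.mem_coe.1 hb)
          exact hd x hx x' hx' fun h' => hab (h' ▸ rfl)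
        · obtain ⟨x, hx, rfl⟩ := Finset.mem_image.1 hg
          exact (hA.2 x.1 (Finset.mem_product.1 hx).1).mono_left (hF x hx)
      refine le_trans ?_ (f.le_growth q σ y.2 hcode)
      rw [Finset.sum_image hinj, Finset.sum_product, Finset.mul_sum]
      refine Finset.sum_le_sum fun g hg => ?_
      rw [mul_assoc, mul_comm X, Finset.mul_sum, Finset.mul_sum]
      refine Finset.sum_le_sum fun g₂ hg₂ => ?_
      obtain ⟨hg₂A, hg₂F⟩ := Finset.mem_filter.1 hg₂
      rw [← ENNReal.mul_rpow_of_nonneg _ _ hσ, ← ENNReal.mul_rpow_of_nonneg _ _ hσ]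
      refine ENNReal.rpow_le_rpow ?_ hσ
      refine le_trans ?_ (((hγ g hg).2 g₂ (hA₂.2 _ hg₂A) hg₂F).2 (f.port g₂) _ ?_)
      · rw [mul_assoc (ENNReal.ofReal _)]
        calc c * (f.meet q h g y (f.port g) * f.meet q h₁ g₂ y₁ (f.port g₂))
            ≤ c * (n * f.meet q h g y (f.sameClass (z g)) * f.meet q h₁ g₂ y₁ (f.port g₂)) :=
              mul_le_mul_right (mul_le_mul_left (hzle g) _) _
          _ = c * n * (f.meet q h g y (f.sameClass (z g))
              * f.meet q h₁ g₂ y₁ (f.port g₂)) := by ring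
          _ ≤ _ := by
              refine mul_le_mul_left ?_ _
              rw [ENNReal.div_mul_cancel (by exact_mod_cast hn.ne') (ENNReal.natCast_ne_top _)]
              exact ENNReal.ofReal_le_ofReal (pow_le_pow_left₀ ha.le haq _)
      · intro ν hν
        rintro _ ⟨w, hw, rfl⟩
        have := (f.port_act (ν * γ g) g₂ w).2 hw
        rwa [map_mul, hν, one_mul] at this
    have hXS : c ^ σ * X ≤ 1 := (ENNReal.mul_le_mul_iff_left h0 hfin).1 key
    calc X = (c ^ σ)⁻¹ * (c ^ σ * X) := by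
          rw [← mul_assoc, ENNReal.inv_mul_cancel (by simp [hc0, hct]) (by simp [hc0, hct]), one_mul]
      _ ≤ (c ^ σ)⁻¹ * 1 := mul_le_mul_right hXS _
      _ ≤ c⁻¹ + 1 := by
          rw [mul_one, ← ENNReal.inv_rpow]
          rcases le_total c⁻¹ 1 with h' | h'
          · exact (ENNReal.rpow_le_one h' hσ).trans le_add_self
          · exact ((ENNReal.rpow_le_rpow_of_exponent_le h' hσ1).trans (ENNReal.rpow_one _).le).trans
              le_self_add

end Vale.Agent.P165.Large
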