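import Mathlib
import Vale.Agent.P165.Large.Growth
import Vale.Agent.P165.Product.Susc

/-!
The critical exponent of the growth: powers above it are uniformly summable over codes below the
critical point, powers below it are not.
-/

namespace Vale.Agent.P165.Large

open MeasureTheory
open scoped ENNReal

variable {Γ ι : Type} [Group Γ] (f : Frame Γ ι)

/-- Sums of `σ`-powers over codes are finite at every parameter of the upper half below `pc`. -/
def Frame.Good (σ : ℝ) : Prop :=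
  ∀ q : unitInterval, pc f.H / 2 ≤ q → (q : ℝ) < pc f.H → f.growth q σ ≠ ⊤

lemma Frame.susc_finite [Finite ι] {q : unitInterval} (hq : (q : ℝ) < pc f.H) :
    ∃ X : ℝ≥0∞, X ≠ ⊤ ∧ ∀ x, ∑' y, f.tau q f.H x y ≤ X := by
  classical
  have := f.countable
  have := Fintype.ofFinite ι
  have horb : ∃ O : Finset (Γ × ι), ∀ v, ∃ φ : f.H ≃g f.H, φ v ∈ O := by
    refine ⟨Finset.univ.image fun i : ι => ((1 : Γ), i), fun v => ⟨f.actIso v.1⁻¹, ?_⟩⟩
    exact Finset.mem_image.2 ⟨v.2, Finset.mem_univ _, Prod.ext (inv_mul_cancel v.1).symm rfl⟩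
  obtain ⟨C, hC⟩ := Product.susceptibility_bound horb hq
  refine ⟨ENNReal.ofReal C, ENNReal.ofReal_ne_top, fun x => ?_⟩
  rw [ENNReal.tsum_eq_iSup_sum]
  refine iSup_le fun T => le_trans (le_of_eq ?_) (ENNReal.ofReal_le_ofReal (hC x T))
  rw [ENNReal.ofReal_sum_of_nonneg fun _ _ => measureReal_nonneg]
  exact Finset.sum_congr rfl fun y _ => (ENNReal.ofReal_toReal (measure_ne_top _ _)).symm

/-- Over disjoint half-trees the ports are disjoint, so the crossings sum to at most the
susceptibility. -/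
lemma Frame.sum_ports_le {q : unitInterval} {A : Finset Half}
    (hA : (A : Set Half).PairwiseDisjoint Half.side) (x : Γ × ι) :
    ∑ g ∈ A, ∑' z : f.port g, f.tau q f.H x z ≤ ∑' y, f.tau q f.H x y := by
  classical
  induction A using Finset.induction with
  | empty => simp
  | @insert g A hg ih =>
    clear ih
    simp only [tsum_subtype (f.port _) fun z => f.tau q f.H x z]
    rw [← Summable.tsum_finsetSum fun i _ => ENNReal.summable]
    refine ENNReal.tsum_le_tsum fun y => ?_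
    by_cases hy : ∃ a ∈ insert g A, y ∈ f.port a
    · obtain ⟨a, ha, hya⟩ := hy
      rw [Finset.sum_eq_single_of_mem a ha fun b hb hne => Set.indicator_of_notMem (fun hyb =>
        Set.disjoint_left.1 (hA (Finset.mem_coe.2 ha) (Finset.mem_coe.2 hb) hne.symm)
          hya.1.1 hyb.1.1) _]
      exact Set.indicator_le_self _ _ _
    · push Not at hy
      rw [Finset.sum_eq_zero fun b hb => Set.indicator_of_notMem (hy b hb) _]
      exact zero_le

lemma Frame.good_one [Finite ι] : f.Good 1 := by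
  intro q _ hq
  obtain ⟨X, hX, hsum⟩ := f.susc_finite hq
  refine ne_top_of_le_ne_top hX (iSup_le fun h => iSup_le fun y => iSup₂_le fun A hA => ?_)
  refine le_trans ?_ ((f.sum_ports_le hA.1 (y : Γ × ι)).trans (hsum _))
  refine Finset.sum_le_sum fun g _ => ?_
  rw [ENNReal.rpow_one, Frame.meet, joins_eq_iUnion, Set.biUnion_eq_iUnion]
  have := f.countable
  exact (measure_iUnion_le _).trans (ENNReal.tsum_le_tsum fun z =>
    f.tau_mono (inf_le_left.trans (f.avoid_le h)) _ _)

lemma Frame.meet_le_one (q : unitInterval) (h g : Half) (y : Γ × ι) (T : Set (Γ × ι)) :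
    f.meet q h g y T ≤ 1 :=
  prob_le_one

lemma Frame.growth_anti {q : unitInterval} {σ σ' : ℝ} (hσ : σ ≤ σ') :
    f.growth q σ' ≤ f.growth q σ :=
  iSup_mono fun h => iSup_mono fun y => iSup_mono fun A => iSup_mono fun _ =>
    Finset.sum_le_sum fun g _ =>
      ENNReal.rpow_le_rpow_of_exponent_ge (f.meet_le_one q h g y _) hσ

lemma Frame.Good.mono {f : Frame Γ ι} {σ σ' : ℝ} (h : f.Good σ) (hσ : σ ≤ σ') : f.Good σ' :=
  fun q h1 h2 => ne_top_of_le_ne_top (h q h1 h2) (f.growth_anti hσ)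

/-- Three children of an oriented edge. -/
lemma children {g : Half} {ℓ : Letter} (hℓ : ℓ ≠ (g.dir.1, !g.dir.2)) :
    (⟨g.base * letter g.dir, ℓ⟩ : Half).side ⊆ g.side := by
  refine (nested g.head_mem ?_).1
  rw [mem_side]
  have : (g.base * letter g.dir)⁻¹ * g.base = (letter g.dir)⁻¹ := by group
  rw [this, letter, FreeGroup.inv_mk, FreeGroup.toWord_mk]
  intro h
  simp [FreeGroup.invRev, FreeGroup.reduce] at h
  exact hℓ h.symm

lemma disjoint_same_base {b : F2} {ℓ ℓ' : Letter} (h : ℓ ≠ ℓ') :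
    Disjoint (Half.side ⟨b, ℓ⟩) (Half.side ⟨b, ℓ'⟩) :=
  Set.disjoint_left.2 fun u hu hu' => h (Option.some_inj.1
    ((mem_side.1 hu).symm.trans (mem_side.1 hu')))

/-- There are codes of any size at some root. -/
lemma exists_big_code : ∀ n : ℕ, ∃ (h : Half) (A : Finset Half), RootCode h A ∧ n + 1 ≤ A.card := by
  classical
  intro n
  induction n with
  | zero =>
    refine ⟨⟨1, (0, true)⟩, {⟨1, (1, true)⟩}, ⟨by simp, ?_⟩, by simp⟩
    simp only [Finset.mem_singleton, forall_eq]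
    exact disjoint_same_base (by decide)
  | succ n ih =>
    obtain ⟨h, A, hA, hn⟩ := ih
    obtain ⟨g, hg⟩ : A.Nonempty := Finset.card_pos.1 (by omega)
    obtain ⟨ℓ, ℓ', h1, h2, h3⟩ : ∃ ℓ ℓ' : Letter,
        ℓ ≠ (g.dir.1, !g.dir.2) ∧ ℓ' ≠ (g.dir.1, !g.dir.2) ∧ ℓ ≠ ℓ' := by
      have : ∀ d : Letter, ∃ ℓ ℓ' : Letter, ℓ ≠ d ∧ ℓ' ≠ d ∧ ℓ ≠ ℓ' := by decide
      exact this _
    set a : Half := ⟨g.base * letter g.dir, ℓ⟩ with ha
    set b : Half := ⟨g.base * letter g.dir, ℓ'⟩ with hb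
    have hab : Disjoint a.side b.side := disjoint_same_base h3
    have hna : ∀ c ∈ A.erase g, Disjoint a.side c.side ∧ Disjoint b.side c.side := by
      intro c hc
      obtain ⟨hne, hcA⟩ := Finset.mem_erase.1 hc
      exact ⟨(hA.1 hg hcA hne.symm).mono_left (children h1),
        (hA.1 hg hcA hne.symm).mono_left (children h2)⟩
    have hself : ∀ c : Half, ¬Disjoint c.side c.side := fun c hc =>
      Set.disjoint_left.1 hc c.head_mem c.head_mem
    refine ⟨h, insert a (insert b (A.erase g)), ⟨?_, ?_⟩, ?_⟩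
    · intro c hc d hd hne
      simp only [Finset.coe_insert, Set.mem_insert_iff, Finset.mem_coe] at hc hd
      rcases hc with rfl | rfl | hc <;> rcases hd with rfl | rfl | hd
      all_goals first
        | exact absurd rfl hne
        | exact hab
        | exact hab.symm
        | exact (hna _ hd).1
        | exact (hna _ hd).2
        | exact (hna _ hc).1.symm
        | exact (hna _ hc).2.symm
        | exact hA.1 (Finset.mem_erase.1 hc).2 (Finset.mem_erase.1 hd).2 hne
    · intro c hc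
      simp only [Finset.mem_insert, Finset.mem_erase] at hc
      rcases hc with rfl | rfl | ⟨-, hc⟩
      · exact (hA.2 g hg).mono_left (children h1)
      · exact (hA.2 g hg).mono_left (children h2)
      · exact hA.2 c hc
    · have hb' : b ∉ A.erase g := fun hh => hself b (hna b hh).2
      have ha' : a ∉ insert b (A.erase g) := fun hh => by
        rcases Finset.mem_insert.1 hh with hh | hh
        · exact hself b (hh ▸ hab)
        · exact hself a (hna a hh).1
      rw [Finset.card_insert_of_notMem ha', Finset.card_insert_of_notMem hb',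
        Finset.card_erase_of_mem hg]
      omega

/-- Disjoint half-trees are crossed with positive probability from some port point. -/
lemma Frame.exists_meet_pos [Nonempty ι] {q : unitInterval} (hq : 0 < (q : ℝ)) {h g : Half}
    (hgh : Disjoint g.side h.side) : ∃ y ∈ f.port h, 0 < f.meet q h g y (f.port g) := by
  classical
  have := f.countable
  let i := Classical.arbitrary ι
  obtain ⟨a, has, hal, -, -⟩ := extend_geo h.head_mem (m := f.depth + 1) (by simp [len_letter])
  obtain ⟨b, hbs, hbl, -, -⟩ := extend_geo g.head_mem (m := f.depth + 1) (by simp [len_letter])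
  have ha : (f.sec a, i) ∈ f.Vs h := f.deep_mem_Vs (by rw [Frame.pr, f.π_sec]; exact has)
    (by rw [Frame.pr, f.π_sec, hal]; omega)
  have hb : (f.sec b, i) ∈ f.Vs g := f.deep_mem_Vs (by rw [Frame.pr, f.π_sec]; exact hbs)
    (by rw [Frame.pr, f.π_sec, hbl]; omega)
  obtain ⟨p⟩ := f.connected.preconnected (f.sec a, i) (f.sec b, i)
  obtain ⟨a', c, r, hc, hac, -, hr, -⟩ := Sus.exists_first_hit (f.Vs g) p hb
    fun h' => f.Vs_disjoint hgh h' ha
  let r' := r.concat hac
  obtain ⟨y', y, r₂, hy, hyy, hye, hr₂, hre⟩ := Sus.exists_first_hit (f.Vs h) r'.reverse ha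
    fun h' => f.Vs_disjoint hgh hc h'
  have hy' : y' ∉ f.Vs h := hr₂ y' r₂.end_mem_support
  refine ⟨y, ⟨hy, y', hyy.symm, hy'⟩, ?_⟩
  let r₃ := (r₂.concat hyy).reverse
  have hr₃ : ∀ e ∈ r₃.edges, e ∈ (f.avoid h ⊓ f.avoid g).edgeSet := by
    intro e he
    simp only [r₃, SimpleGraph.Walk.edges_reverse, List.mem_reverse,
      SimpleGraph.Walk.edges_concat, List.concat_eq_append, List.mem_append,
      List.mem_singleton] at he
    have he' : e ∈ r'.reverse.edges ∧ e ∈ (f.avoid h).edgeSet := by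
      rcases he with he | rfl
      · refine ⟨hre e he, ?_⟩
        induction e using Sym2.ind with
        | _ u v => exact ⟨r₂.adj_of_mem_edges he,
            fun hh => hr₂ u (r₂.fst_mem_support_of_mem_edges he) hh.1⟩
      · exact ⟨by assumption, hyy, fun hh => hy' hh.1⟩
    refine SimpleGraph.edgeSet_inf .. ▸ ⟨he'.2, ?_⟩
    have h' := he'.1
    simp only [r', SimpleGraph.Walk.edges_reverse, List.mem_reverse,
      SimpleGraph.Walk.edges_concat, List.concat_eq_append, List.mem_append,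
      List.mem_singleton] at h'
    rcases h' with h' | rfl
    · induction e using Sym2.ind with
      | _ u v => exact ⟨r.adj_of_mem_edges h',
          fun hh => hr u (r.fst_mem_support_of_mem_edges h') hh.1⟩
    · exact ⟨hac, fun hh => hr a' r.end_mem_support hh.1⟩
  refine lt_of_lt_of_le ?_ (walk_joins (p := q) (r₃.transfer _ hr₃) le_rfl (f.port g))
  refine ENNReal.mul_pos (by simpa using pow_pos hq _) ?_
  have : joins (f.avoid h ⊓ f.avoid g) c (f.port g) = Set.univ :=
    Set.eq_univ_of_forall fun ω => mem_joins.2 ⟨c, ⟨hc, a', hac.symm, hr a' r.end_mem_support⟩,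
      SimpleGraph.Reachable.refl _⟩
  simp [this]

/-- Kernel translations do not change crossing probabilities. -/
lemma Frame.meet_class {q : unitInterval} {h g : Half} {y y' : Γ × ι}
    (hy : y' ∈ f.sameClass y) : f.meet q h g y' (f.port g) = f.meet q h g y (f.port g) := by
  obtain ⟨ν, hν, rfl⟩ := f.eq_act_of_sameClass hy
  have hK : ∀ u v, (f.avoid h ⊓ f.avoid g).Adj (Frame.act ν u) (Frame.act ν v) ↔
      (f.avoid h ⊓ f.avoid g).Adj u v := fun u v => by
    have h1 := f.avoid_act ν h u v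
    have h2 := f.avoid_act ν g u v
    rw [hν, Half.shift_one] at h1 h2
    exact and_congr h1 h2
  have hT : Frame.act ν '' f.port g = f.port g := by
    ext v
    constructor
    · rintro ⟨w, hw, rfl⟩
      exact f.sameClass_port hw ⟨by simp [f.pr_act, hν], rfl⟩
    · intro hv
      refine ⟨Frame.act ν⁻¹ v, f.sameClass_port hv ⟨by simp [f.pr_act, hν], rfl⟩,
        Frame.act_cancel_inv ν v⟩
  conv_lhs => rw [Frame.meet, ← hT]
  exact f.joins_map ν hK y _

/-- Some small power is not summable. -/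
lemma Frame.exists_not_good [Finite ι] [Nonempty ι] (hpc : 0 < pc f.H) :
    ∃ σ : ℝ, 0 < σ ∧ σ ≤ 1 ∧ ¬f.Good σ := by
  classical
  have hq1 : pc f.H / 2 ∈ Set.Icc (0 : ℝ) 1 := by
    have : pc f.H ≤ 1 := csInf_le
      ⟨0, by rintro x (rfl | ⟨p, -, rfl⟩); exacts [zero_le_one, p.2.1]⟩ (Set.mem_insert _ _)
    constructor <;> linarith
  set q : unitInterval := ⟨pc f.H / 2, hq1⟩
  obtain ⟨K, hK, hKle⟩ := f.growth_le (a := pc f.H / 2) (half_pos hpc)
  obtain ⟨C, hC⟩ := f.exists_classes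
  obtain ⟨N, hN⟩ := ENNReal.exists_nat_gt hK
  obtain ⟨h, A, hA, hcard⟩ := exists_big_code (C.card * (2 * N) + C.card)
  have hsel : ∀ g ∈ A, ∃ y ∈ f.port h, 0 < f.meet q h g y (f.port g) :=
    fun g hg => f.exists_meet_pos (half_pos hpc) (hA.2 g hg)
  choose! yf hyf hpos using hsel
  have hcls : ∀ g ∈ A, ∃ c ∈ C, yf g ∈ f.sameClass (f.sec (h.base * c.1), c.2) :=
    fun g hg => hC h _ (hyf g hg)
  choose! cf hcf hcf' using hcls
  obtain ⟨c, -, hc⟩ := Finset.exists_lt_card_fiber_of_mul_lt_card_of_maps_to hcf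
    (n := 2 * N) (by omega)
  set A' := A.filter fun g => cf g = c
  obtain ⟨g₀, hg₀⟩ : A'.Nonempty := Finset.card_pos.1 (by omega)
  have hmemA : ∀ g ∈ A', g ∈ A ∧ cf g = c := fun g hg => Finset.mem_filter.1 hg
  have hall : ∀ g ∈ A', 0 < f.meet q h g (yf g₀) (f.port g) := by
    intro g hg
    obtain ⟨hgA, hgc⟩ := hmemA g hg
    obtain ⟨hg0A, hg0c⟩ := hmemA g₀ hg₀
    have h1 := hcf' g hgA
    have h2 := hcf' g₀ hg0A
    rw [hgc] at h1; rw [hg0c] at h2
    rw [f.meet_class (y' := yf g₀) (y := yf g)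
      ⟨h2.1.trans h1.1.symm, h2.2.trans h1.2.symm⟩]
    exact hpos g hgA
  obtain ⟨g₁, hg₁, hmin⟩ := A'.exists_min_image
    (fun g => f.meet q h g (yf g₀) (f.port g)) ⟨g₀, hg₀⟩
  set v := f.meet q h g₁ (yf g₀) (f.port g₁)
  have hvpos : 0 < v.toReal :=
    ENNReal.toReal_pos (hall g₁ hg₁).ne' (ne_top_of_le_ne_top ENNReal.one_ne_top (f.meet_le_one ..))
  obtain ⟨σ, hσ0, hσ1, hσ⟩ : ∃ σ : ℝ, 0 < σ ∧ σ ≤ 1 ∧ 1 / 2 ≤ v.toReal ^ σ := by
    have hcont : Filter.Tendsto (fun σ : ℝ => v.toReal ^ σ) (nhdsWithin 0 (Set.Ioi 0))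
        (nhds 1) := by
      have h0 := (Real.continuous_const_rpow hvpos.ne').tendsto 0
      rw [Real.rpow_zero] at h0
      exact h0.mono_left nhdsWithin_le_nhds
    obtain ⟨σ, h1, h2⟩ := (((hcont.eventually (eventually_ge_nhds (by norm_num : (1 / 2 : ℝ) < 1))).and
      (eventually_nhdsWithin_of_eventually_nhds (eventually_le_nhds zero_lt_one))).and
      self_mem_nhdsWithin).exists
    exact ⟨σ, h2, h1.2, h1.1⟩
  refine ⟨σ, hσ0, hσ1, fun hgood => ?_⟩
  have hle := hKle q σ le_rfl hσ0.le hσ1 (hgood q le_rfl (by simp only [q]; linarith))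
  have hsum : (2 * N : ℕ) * ENNReal.ofReal (1 / 2) ≤
      ∑ g ∈ A', f.meet q h g (yf g₀) (f.port g) ^ σ := by
    refine le_trans ?_ (Finset.sum_le_sum fun g hg => ENNReal.rpow_le_rpow (hmin g hg) hσ0.le)
    rw [Finset.sum_const, nsmul_eq_mul]
    refine mul_le_mul' (by exact_mod_cast hc.le) ?_
    have hv : ENNReal.ofReal v.toReal = v :=
      ENNReal.ofReal_toReal (ne_top_of_le_ne_top ENNReal.one_ne_top (f.meet_le_one ..))
    conv_rhs => rw [← hv]
    rw [ENNReal.ofReal_rpow_of_pos hvpos]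
    exact ENNReal.ofReal_le_ofReal hσ
  have hN' : ((2 * N : ℕ) : ℝ≥0∞) * ENNReal.ofReal (1 / 2) = N := by
    rw [← ENNReal.ofReal_natCast, ← ENNReal.ofReal_mul (Nat.cast_nonneg _),
      ← ENNReal.ofReal_natCast]
    congr 1; push_cast; ring
  rw [hN'] at hsum
  exact absurd ((hsum.trans (f.le_growth q σ (hyf g₀ (hmemA g₀ hg₀).1)
    (hA.subset (Finset.filter_subset _ _)))).trans hle) (not_le.2 hN)

/-- The critical exponent. -/
theorem Frame.exists_exponent [Finite ι] [Nonempty ι] (hpc : 0 < pc f.H) :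
    ∃ s : ℝ, 0 < s ∧ s ≤ 1 ∧ (∀ ε, 0 < ε → f.Good (min 1 (s + ε))) ∧
      ∀ σ, σ < s → ¬f.Good σ := by
  obtain ⟨σ₀, hσ0, hσ1, hbad⟩ := f.exists_not_good hpc
  set G := {σ : ℝ | σ₀ ≤ σ ∧ σ ≤ 1 ∧ f.Good σ}
  have hne : G.Nonempty := ⟨1, hσ1, le_rfl, f.good_one⟩
  have hbdd : BddBelow G := ⟨σ₀, fun σ h => h.1⟩
  refine ⟨sInf G, lt_of_lt_of_le hσ0 (le_csInf hne fun σ h => h.1),
    csInf_le hbdd ⟨hσ1, le_rfl, f.good_one⟩, fun ε hε => ?_, fun σ hσ hg => ?_⟩
  · obtain ⟨σ, hσ, hlt⟩ := exists_lt_of_csInf_lt hne (lt_add_of_pos_right (sInf G) hε)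
    exact hσ.2.2.mono (le_min hσ.2.1 hlt.le)
  · rcases le_or_gt σ₀ σ with h | h
    · have h1 : σ ≤ 1 := hσ.le.trans (csInf_le hbdd ⟨hσ1, le_rfl, f.good_one⟩)
      exact absurd (csInf_le hbdd ⟨h, h1, hg⟩) (not_le.2 hσ)
    · exact hbad (hg.mono h.le)

end Vale.Agent.P165.Large
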