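import Mathlib
import Vale.Agent.P165.Large.Act

/-!
The second moment of a cluster is at most the cube of the susceptibility.
-/

namespace Vale.Agent.P165.Large

open MeasureTheory
open P151 (openOcc disjOcc)
open scoped ENNReal

variable {W : Type} {p : unitInterval}

/-- The van den Berg–Kesten inequality for three witness families. -/
theorem bk_three [Countable W] (F₁ F₂ F₃ : Set (Finset (Sym2 W))) :
    perc W p {ω | ∃ s ∈ F₁, ∃ t ∈ F₂, ∃ u ∈ F₃, Disjoint s t ∧ Disjoint s u ∧ Disjoint t u ∧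
        (∀ e ∈ s, ω e = true) ∧ (∀ e ∈ t, ω e = true) ∧ ∀ e ∈ u, ω e = true}
      ≤ perc W p (openOcc F₁) * perc W p (openOcc F₂) * perc W p (openOcc F₃) := by
  have h := P151.bk (p := p) ![F₁, F₂, F₃]
  rw [Fin.prod_univ_three] at h
  refine le_trans (measure_mono ?_) h
  rintro ω ⟨s, hs, t, ht, u, hu, h12, h13, h23, h1, h2, h3⟩
  exact ⟨![s, t, u], by simp [Fin.forall_fin_succ, hs, ht, hu],
    by simp [Fin.forall_fin_succ]; exact ⟨h1, h2, h3⟩,
    by simp [Fin.forall_fin_succ, h12, h13, h23, h12.symm, h13.symm, h23.symm]⟩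

/-- Two connections from one vertex meet in a vertex with three disjoint connections. -/
lemma exists_branch [DecidableEq W] {H : SimpleGraph W} {ω : Sym2 W → Bool} {x y y' : W}
    (h : ω ∈ conn H x y) (h' : ω ∈ conn H x y') :
    ∃ w, ∃ q₁ : H.Walk x w, ∃ q₂ : H.Walk w y, ∃ q₃ : H.Walk w y',
      (∀ e ∈ q₁.edges, ω e = true) ∧ (∀ e ∈ q₂.edges, ω e = true) ∧
      (∀ e ∈ q₃.edges, ω e = true) ∧
      (∀ e ∈ q₁.edges, e ∉ q₂.edges ∧ e ∉ q₃.edges) ∧ ∀ e ∈ q₂.edges, e ∉ q₃.edges := by
  obtain ⟨p, hp, hpo⟩ := exists_path_of_mem_conn h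
  obtain ⟨r, hr, hro⟩ := exists_path_of_mem_conn h'
  have hsuf : ∀ {c b : W} (q : H.Walk c b), (∃ v ∈ q.support, v ∈ p.support) →
      ∃ w, w ∈ p.support ∧ ∃ q₃ : H.Walk w b, (∀ e ∈ q₃.edges, e ∈ q.edges) ∧
        ∀ u ∈ q₃.support.tail, u ∉ p.support := by
    intro c b q
    induction q with
    | nil =>
      rintro ⟨v, hv, hvp⟩
      simp only [SimpleGraph.Walk.support_nil, List.mem_singleton] at hv
      exact ⟨_, hv ▸ hvp, .nil, by simp, by simp⟩
    | @cons c d b hcd q ih =>
      rintro ⟨v, hv, hvp⟩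
      by_cases h2 : ∃ v ∈ q.support, v ∈ p.support
      · obtain ⟨w, hw, q₃, h3, h4⟩ := ih h2
        exact ⟨w, hw, q₃, fun e he => by simp [h3 e he], h4⟩
      · push Not at h2
        rcases List.mem_cons.1 (by simpa using hv) with rfl | hv'
        · exact ⟨_, hvp, .cons hcd q, fun e he => he, by simpa using h2⟩
        · exact absurd hvp (h2 v hv')
  have key : ∃ w, ∃ hw : w ∈ p.support, ∃ q₃ : H.Walk w y', (∀ e ∈ q₃.edges, ω e = true) ∧
      ∀ e ∈ q₃.edges, e ∉ p.edges := by
    obtain ⟨w, hw, q₃, h3, h4⟩ := hsuf r ⟨x, r.start_mem_support, p.start_mem_support⟩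
    refine ⟨w, hw, q₃, fun e he => hro e (List.mem_toFinset.2 (h3 e he)), fun e he hep => ?_⟩
    induction e using Sym2.ind with
    | _ u u' =>
      have h5 := p.fst_mem_support_of_mem_edges hep
      have h6 := p.snd_mem_support_of_mem_edges hep
      have h7 := q₃.fst_mem_support_of_mem_edges he
      have h8 := q₃.snd_mem_support_of_mem_edges he
      rw [← SimpleGraph.Walk.cons_tail_support, List.mem_cons] at h7 h8
      rcases h7 with h7 | h7
      · rcases h8 with h8 | h8
        · exact (q₃.adj_of_mem_edges he).ne (h7.trans h8.symm)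
        · exact h4 u' h8 h6
      · exact h4 u h7 h5
  obtain ⟨w, hw, q₃, h3, h4⟩ := key
  refine ⟨w, p.takeUntil w hw, p.dropUntil w hw, q₃,
    fun e he => hpo e (List.mem_toFinset.2 ((p.edges_takeUntil_subset_edges hw) he)),
    fun e he => hpo e (List.mem_toFinset.2 ((p.edges_dropUntil_subset_edges hw) he)), h3,
    fun e he => ⟨fun he' => ?_, fun he' => h4 e he' ((p.edges_takeUntil_subset_edges hw) he)⟩,
    fun e he he' => h4 e he' ((p.edges_dropUntil_subset_edges hw) he)⟩
  have hnd := hp.isTrail.edges_nodup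
  rw [← p.take_spec hw, SimpleGraph.Walk.edges_append, List.nodup_append] at hnd
  exact hnd.2.2 e he e he' rfl

variable {Γ ι : Type} [Group Γ] (f : Frame Γ ι) {q : unitInterval}

/-- The probability that `x` is joined to both `y` and `y'`. -/
noncomputable def Frame.two (q : unitInterval) (x y y' : Γ × ι) : ℝ≥0∞ :=
  perc (Γ × ι) q (conn f.H x y ∩ conn f.H x y')

/-- The second moment of the cluster is at most the cube of the susceptibility. -/
theorem Frame.tsum_two_le {X : ℝ≥0∞} (hX : ∀ x, ∑' y, f.tau q f.H x y ≤ X) (x : Γ × ι) :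
    ∑' y, ∑' y', f.two q x y y' ≤ X ^ 3 := by
  classical
  have := f.countable
  have hpt : ∀ y y', f.two q x y y' ≤
      ∑' w, f.tau q f.H x w * f.tau q f.H w y * f.tau q f.H w y' := by
    intro y y'
    refine le_trans (measure_mono (t := ⋃ w, {ω | ∃ s ∈ wit f.H x {w}, ∃ t ∈ wit f.H w {y},
      ∃ u ∈ wit f.H w {y'}, Disjoint s t ∧ Disjoint s u ∧ Disjoint t u ∧
      (∀ e ∈ s, ω e = true) ∧ (∀ e ∈ t, ω e = true) ∧ ∀ e ∈ u, ω e = true}) ?_) ?_
    · rintro ω ⟨h, h'⟩
      obtain ⟨w, q₁, q₂, q₃, h1, h2, h3, h12, h23⟩ := exists_branch h h'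
      refine Set.mem_iUnion.2 ⟨w, q₁.edges.toFinset, ⟨w, rfl, q₁, fun e => List.mem_toFinset⟩,
        q₂.edges.toFinset, ⟨y, rfl, q₂, fun e => List.mem_toFinset⟩,
        q₃.edges.toFinset, ⟨y', rfl, q₃, fun e => List.mem_toFinset⟩, ?_, ?_, ?_, ?_, ?_, ?_⟩
      · exact Finset.disjoint_left.2 fun e he he' =>
          (h12 e (List.mem_toFinset.1 he)).1 (List.mem_toFinset.1 he')
      · exact Finset.disjoint_left.2 fun e he he' =>
          (h12 e (List.mem_toFinset.1 he)).2 (List.mem_toFinset.1 he')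
      · exact Finset.disjoint_left.2 fun e he he' =>
          h23 e (List.mem_toFinset.1 he) (List.mem_toFinset.1 he')
      · exact fun e he => h1 e (List.mem_toFinset.1 he)
      · exact fun e he => h2 e (List.mem_toFinset.1 he)
      · exact fun e he => h3 e (List.mem_toFinset.1 he)
    · refine (measure_iUnion_le _).trans (ENNReal.tsum_le_tsum fun w => ?_)
      have := bk_three (p := q) (wit f.H x {w}) (wit f.H w {y}) (wit f.H w {y'})
      simp only [show ∀ a b : Γ × ι, openOcc (wit f.H a {b}) = conn f.H a b from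
        fun a b => joins_singleton f.H a b] at this
      exact this
  calc ∑' y, ∑' y', f.two q x y y'
      ≤ ∑' y, ∑' y', ∑' w, f.tau q f.H x w * f.tau q f.H w y * f.tau q f.H w y' :=
        ENNReal.tsum_le_tsum fun y => ENNReal.tsum_le_tsum fun y' => hpt y y'
    _ = ∑' y, ∑' w, f.tau q f.H x w * f.tau q f.H w y * ∑' y', f.tau q f.H w y' := by
        refine tsum_congr fun y => ?_
        rw [ENNReal.tsum_comm]
        exact tsum_congr fun w => ENNReal.tsum_mul_left
    _ ≤ ∑' y, ∑' w, f.tau q f.H x w * f.tau q f.H w y * X :=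
        ENNReal.tsum_le_tsum fun y => ENNReal.tsum_le_tsum fun w => mul_le_mul_right (hX w) _
    _ = ∑' w, f.tau q f.H x w * (∑' y, f.tau q f.H w y) * X := by
        rw [ENNReal.tsum_comm]
        refine tsum_congr fun w => ?_
        rw [ENNReal.tsum_mul_right, ENNReal.tsum_mul_left]
    _ ≤ ∑' w, f.tau q f.H x w * X * X :=
        ENNReal.tsum_le_tsum fun w => mul_le_mul_left (mul_le_mul_right (hX w) _) _
    _ ≤ X * X * X := by
        rw [ENNReal.tsum_mul_right, ENNReal.tsum_mul_right]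
        exact mul_le_mul_left (mul_le_mul_left (hX x) _) _
    _ = X ^ 3 := by ring

end Vale.Agent.P165.Large
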