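import Mathlib
import Vale.Agent.P165.Large.Pairs
import Vale.Agent.P165.Large.Geo
import Vale.Agent.P165.Unique

/-!
A finite set has a large boundary, and the clusters of the vertices of a finite set cover many
vertices when the tilted susceptibility is small against the susceptibility.
-/

namespace Vale.Agent.P165.Large

open MeasureTheory Finset
open scoped ENNReal

variable {Γ ι : Type} [Group Γ] (f : Frame Γ ι) {q : unitInterval}

/-- The expected cluster size. -/
noncomputable def Frame.chi (q : unitInterval) (x : Γ × ι) : ℝ≥0∞ := ∑' y, f.tau q f.H x y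

/-- The ratio of the tilts at `y` and at `x`. -/
noncomputable def Frame.rho (t : ℝ) (P : F2) (x y : Γ × ι) : ℝ≥0∞ :=
  ENNReal.ofReal (t ^ (ht P (f.pr y) - ht P (f.pr x)))

lemma Frame.tau_self (K : SimpleGraph (Γ × ι)) (x : Γ × ι) : f.tau q K x x = 1 := by
  have : conn K x x = Set.univ := Set.eq_univ_of_forall fun ω => SimpleGraph.Reachable.refl _
  rw [Frame.tau, this, measure_univ]

lemma Frame.one_le_chi (x : Γ × ι) : 1 ≤ f.chi q x :=
  le_trans (f.tau_self f.H x).ge (ENNReal.le_tsum x)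

lemma Frame.rho_self (t : ℝ) (P : F2) (x : Γ × ι) : f.rho t P x x = 1 := by simp [Frame.rho]

lemma Frame.rho_mul {t : ℝ} (ht0 : 0 < t) (P : F2) (x y z : Γ × ι) :
    f.rho t P x y * f.rho t P y z = f.rho t P x z := by
  rw [Frame.rho, Frame.rho, Frame.rho, ← ENNReal.ofReal_mul (zpow_nonneg ht0.le _),
    ← zpow_add₀ ht0.ne']
  congr 2
  ring

lemma Frame.rho_adj_le {t : ℝ} (ht1 : 1 ≤ t) (ht2 : t ≤ 2) (P : F2) {a b : Γ × ι}
    (h : f.H.Adj a b) : f.rho t P a b ≤ ENNReal.ofReal (2 ^ f.L) := by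
  refine ENNReal.ofReal_le_ofReal ?_
  have hL : ht P (f.pr b) - ht P (f.pr a) ≤ (f.L : ℤ) := by
    have h1 := ht_mul P (f.pr a) ((f.pr a)⁻¹ * f.pr b)
    rw [mul_inv_cancel_left] at h1
    have h2 := ht_le ((f.pr a)⁻¹ * P) ((f.pr a)⁻¹ * f.pr b)
    have h3 : len ((f.pr a)⁻¹ * f.pr b) ≤ f.L := f.hL a b h
    omega
  calc t ^ (ht P (f.pr b) - ht P (f.pr a)) ≤ t ^ (f.L : ℤ) := zpow_le_zpow_right₀ ht1 hL
    _ = t ^ f.L := zpow_natCast _ _
    _ ≤ _ := pow_le_pow_left₀ (by linarith) ht2 _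

/-- The expected cluster size is invariant under translations. -/
lemma Frame.chi_act (g : Γ) (x : Γ × ι) : f.chi q (Frame.act g x) = f.chi q x := by
  unfold Frame.chi
  rw [← (Frame.actEquiv g).tsum_eq]
  exact tsum_congr fun y => f.tau_map g (fun u v => f.adj_act g) x y

/-- Two expected cluster sizes differ at most by a constant factor. -/
lemma Frame.chi_compare (x : Γ × ι) (j : ι) :
    ENNReal.ofReal ((q : ℝ) ^ f.rad) * f.chi q ((1 : Γ), j) ≤ f.chi q x := by
  classical
  have := f.countable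
  obtain ⟨r, hr⟩ := f.swap x j
  have hx : f.chi q ((1 : Γ), j) = f.chi q (x.1, j) := by
    rw [← f.chi_act x.1 ((1 : Γ), j)]
    simp [Frame.act]
  rw [hx, Frame.chi, Frame.chi, ← ENNReal.tsum_mul_left]
  refine ENNReal.tsum_le_tsum fun y => ?_
  have := walk_joins (p := q) r hr {y}
  rwa [joins_singleton, joins_singleton] at this

/-- The degrees are bounded. -/
lemma Frame.exists_degree [Fintype ι] : ∃ D : ℕ, 1 ≤ D ∧
    ∀ v, (f.H.neighborFinset v).card ≤ D := by
  classical
  refine ⟨1 + ∑ i : ι, (f.H.neighborFinset ((1 : Γ), i)).card, Nat.le_add_right 1 _, fun v => ?_⟩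
  have h : (f.H.neighborFinset v).card = (f.H.neighborFinset ((1 : Γ), v.2)).card := by
    refine card_bij' (fun u _ => Frame.act v.1⁻¹ u) (fun u _ => Frame.act v.1 u) ?_ ?_
      (fun u _ => Frame.act_cancel_inv _ _) (fun u _ => Frame.act_inv_cancel _ _)
    · intro u hu
      have := (f.adj_act v.1⁻¹).2 ((SimpleGraph.mem_neighborFinset _ _ _).1 hu)
      simpa [Frame.act] using this
    · intro u hu
      have := (f.adj_act v.1).2 ((SimpleGraph.mem_neighborFinset _ _ _).1 hu)
      simpa [Frame.act] using this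
  rw [h]
  exact le_add_left (single_le_sum (f := fun i => (f.H.neighborFinset ((1 : Γ), i)).card)
    (fun _ _ => Nat.zero_le _) (mem_univ v.2))

lemma near_card_le {W : Type} [DecidableEq W] {H : SimpleGraph W} [H.LocallyFinite] {D : ℕ}
    (hD : ∀ v, (H.neighborFinset v).card ≤ D) (a : W) :
    ∀ n, (near H a n).card ≤ (D + 1) ^ n
  | 0 => by simp [near]
  | n + 1 => by
    have ih := near_card_le hD a n
    have h2 := card_biUnion_le_card_mul (near H a n) (fun v => H.neighborFinset v) D fun v _ => hD v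
    calc (near H a (n + 1)).card
        ≤ (near H a n).card + ((near H a n).biUnion fun v => H.neighborFinset v).card :=
          card_union_le _ _
      _ ≤ (near H a n).card * (D + 1) := by rw [Nat.mul_succ]; omega
      _ ≤ _ := by rw [pow_succ]; exact Nat.mul_le_mul_right _ ih

/-- The outer boundary of a finite set. -/
noncomputable def Frame.outer [DecidableEq (Γ × ι)] (S : Finset (Γ × ι)) : Finset (Γ × ι) :=
  (S.biUnion fun v => f.H.neighborFinset v) \ S

lemma Frame.mem_outer [DecidableEq (Γ × ι)] {S : Finset (Γ × ι)} {b : Γ × ι} :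
    b ∈ f.outer S ↔ b ∉ S ∧ ∃ a ∈ S, f.H.Adj a b := by
  simp [Frame.outer, and_comm]

/-- Three lengthening letters move a finite set mostly outside itself, so its boundary is large. -/
theorem Frame.card_le_outer [DecidableEq (Γ × ι)] {D : ℕ}
    (hD : ∀ v, (f.H.neighborFinset v).card ≤ D) (S : Finset (Γ × ι)) :
    S.card ≤ (f.outer S).card * (D + 1) ^ f.rad := by
  classical
  let Ls : Γ × ι → Finset Letter := fun v =>
    univ.filter fun l => (f.pr v).toWord.getLast? ≠ some (linv l)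
  have hLs : ∀ v, 3 ≤ (Ls v).card := by
    intro v
    simp only [Ls]
    rcases (f.pr v).toWord.getLast? with _ | a
    · simp
    · revert a
      decide
  have hword : ∀ v, ∀ l ∈ Ls v,
      (f.pr (v.1 * f.γ l, v.2)).toWord = (f.pr v).toWord ++ [l] := by
    intro v l hl
    have hr : FreeGroup.IsReduced ((f.pr v).toWord ++ [l]) :=
      isReduced_concat.2 ⟨FreeGroup.isReduced_toWord, (mem_filter.1 hl).2⟩
    rw [show f.pr (v.1 * f.γ l, v.2) = FreeGroup.mk ((f.pr v).toWord ++ [l]) by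
      rw [← FreeGroup.mul_mk, FreeGroup.mk_toWord]; simp [Frame.pr, f.hγ, letter],
      toWord_mk_of_reduced hr]
  let T : Finset ((Γ × ι) × Letter) := S.biUnion fun v => (Ls v).image fun l => (v, l)
  let F : (Γ × ι) × Letter → Γ × ι := fun e => (e.1.1 * f.γ e.2, e.1.2)
  have hTc : 3 * S.card ≤ T.card := by
    rw [card_biUnion fun v _ v' _ hne => disjoint_left.2 fun e h h' => by
      obtain ⟨_, _, rfl⟩ := mem_image.1 h
      obtain ⟨_, _, h2⟩ := mem_image.1 h'
      exact hne (Prod.ext_iff.1 h2).1.symm]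
    refine le_trans (le_of_eq (by simp [mul_comm])) (sum_le_sum (f := fun _ => 3) fun v _ => ?_)
    rw [card_image_of_injective _ fun l l' h => (Prod.ext_iff.1 h).2]
    exact hLs v
  have hinj : Set.InjOn F (T : Set ((Γ × ι) × Letter)) := by
    intro e he e' he' h
    obtain ⟨v, -, hv⟩ := mem_biUnion.1 (mem_coe.1 he)
    obtain ⟨l, hl, rfl⟩ := mem_image.1 hv
    obtain ⟨v', -, hv'⟩ := mem_biUnion.1 (mem_coe.1 he')
    obtain ⟨l', hl', rfl⟩ := mem_image.1 hv'
    have hll : l = l' := by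
      have h1 : (f.pr (F (v, l))).toWord = (f.pr (F (v', l'))).toWord := by rw [h]
      simp only [F, hword v l hl, hword v' l' hl'] at h1
      simpa using (List.append_inj' h1 rfl).2
    subst hll
    simp only [F, Prod.mk.injEq, mul_right_cancel_iff] at h
    exact Prod.ext (Prod.ext h.1 h.2) rfl
  have hsub : T.image F \ S ⊆ (f.outer S).biUnion fun b => near f.H b f.rad := by
    intro w hw
    obtain ⟨hw1, hw2⟩ := mem_sdiff.1 hw
    obtain ⟨e, he, rfl⟩ := mem_image.1 hw1
    obtain ⟨v, hv, hv'⟩ := mem_biUnion.1 he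
    obtain ⟨l, -, rfl⟩ := mem_image.1 hv'
    obtain ⟨r, hr⟩ := f.lift v l
    obtain ⟨y, c, r₁, hc, r₂, hcS, hr2, hy⟩ := cut_at (S : Set (Γ × ι)) r.reverse (by simpa using hw2)
      ⟨v, r.reverse.end_mem_support, by simpa using hv⟩
    refine mem_biUnion.2 ⟨y, f.mem_outer.2 ⟨by simpa using hy y r₁.end_mem_support,
      c, by simpa using hcS, hc.symm⟩, mem_near r₁.reverse ?_⟩
    have := congrArg SimpleGraph.Walk.length hr2
    simp at this ⊢
    omega
  have h1 := card_le_card hsub
  have h2 := card_biUnion_le_card_mul (f.outer S) (fun b => near f.H b f.rad) ((D + 1) ^ f.rad)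
    fun b _ => near_card_le hD b _
  have h3 : T.card ≤ (T.image F \ S).card + S.card := by
    rw [← card_image_of_injOn hinj]
    exact card_le_card_sdiff_add_card
  omega
where
  /-- Cut a walk at its first visit to `S`. -/
  cut_at (S : Set (Γ × ι)) : ∀ {a b : Γ × ι} (r : f.H.Walk a b), a ∉ S →
      (∃ v ∈ r.support, v ∈ S) → ∃ y c, ∃ r₁ : f.H.Walk a y, ∃ hc : f.H.Adj y c,
        ∃ r₂ : f.H.Walk c b, c ∈ S ∧ r = r₁.append (.cons hc r₂) ∧ ∀ u ∈ r₁.support, u ∉ S := by
    intro a b r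
    induction r with
    | nil =>
      rintro ha ⟨v, hv, hvS⟩
      simp only [SimpleGraph.Walk.support_nil, List.mem_singleton] at hv
      exact absurd (hv ▸ hvS) ha
    | @cons a c b h r ih =>
      rintro ha ⟨v, hv, hvS⟩
      by_cases hc : c ∈ S
      · exact ⟨a, c, .nil, h, r, hc, rfl, by simpa using ha⟩
      · rcases List.mem_cons.1 (by simpa using hv) with rfl | hv'
        · exact absurd hvS ha
        · obtain ⟨y, c', r₁, hc', r₂, h1, h2, h3⟩ := ih hc ⟨v, hv', hvS⟩
          exact ⟨y, c', .cons h r₁, hc', r₂, h1, by rw [h2]; rfl, by simpa [ha] using h3⟩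

/-- The pointwise inequality `2 s N ≤ s ^ 2 1_{N ≠ 0} + N ^ 2` for a sum of events. -/
lemma two_mul_sum_le {Ω κ : Type} [MeasurableSpace Ω] (μ : Measure Ω) [IsFiniteMeasure μ]
    (A : κ → Set Ω) (hA : ∀ i, MeasurableSet (A i)) (Y : Finset κ) (s : ℝ) :
    2 * s * ∑ i ∈ Y, μ.real (A i)
      ≤ s ^ 2 * μ.real (⋃ i ∈ Y, A i) + ∑ i ∈ Y, ∑ j ∈ Y, μ.real (A i ∩ A j) := by
  classical
  have hU : MeasurableSet (⋃ i ∈ Y, A i) := Y.measurableSet_biUnion fun i _ => hA i
  have hint : ∀ {E : Set Ω}, MeasurableSet E → Integrable (E.indicator fun _ => (1 : ℝ)) μ :=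
    fun hE => (integrable_const (1 : ℝ)).indicator hE
  have hval : ∀ {E : Set Ω}, MeasurableSet E → ∫ ω, E.indicator (fun _ => (1 : ℝ)) ω ∂μ = μ.real E :=
    fun hE => by rw [integral_indicator hE]; simp
  have hpt : ∀ ω, 2 * s * ∑ i ∈ Y, (A i).indicator (fun _ => (1 : ℝ)) ω
      ≤ s ^ 2 * (⋃ i ∈ Y, A i).indicator (fun _ => (1 : ℝ)) ω
        + ∑ i ∈ Y, ∑ j ∈ Y, (A i ∩ A j).indicator (fun _ => (1 : ℝ)) ω := by
    intro ω
    have hprod : ∀ i j, (A i ∩ A j).indicator (fun _ => (1 : ℝ)) ω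
        = (A i).indicator (fun _ => (1 : ℝ)) ω * (A j).indicator (fun _ => (1 : ℝ)) ω := by
      intro i j
      by_cases h1 : ω ∈ A i <;> by_cases h2 : ω ∈ A j <;> simp [h1, h2]
    simp only [hprod, ← mul_sum, ← sum_mul]
    by_cases h : ω ∈ ⋃ i ∈ Y, A i
    · rw [Set.indicator_of_mem h]
      nlinarith [sq_nonneg (s - ∑ i ∈ Y, (A i).indicator (fun _ => (1 : ℝ)) ω)]
    · rw [Set.indicator_of_notMem h, sum_eq_zero fun i hi => Set.indicator_of_notMem
        (fun hm => h (Set.mem_biUnion hi hm)) _]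
      simp
  have h := integral_mono
    ((integrable_finsetSum Y fun i _ => hint (hA i)).const_mul (2 * s))
    (((hint hU).const_mul (s ^ 2)).add (integrable_finsetSum Y fun i _ =>
      integrable_finsetSum Y fun j _ => hint ((hA i).inter (hA j)))) hpt
  simp only [Pi.add_apply] at h
  rw [integral_const_mul, integral_finsetSum Y fun i _ => hint (hA i),
    integral_add ((hint hU).const_mul _) (integrable_finsetSum Y fun i _ =>
      integrable_finsetSum Y fun j _ => hint ((hA i).inter (hA j))),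
    integral_const_mul, hval hU, integral_finsetSum Y fun i _ =>
      integrable_finsetSum Y fun j _ => hint ((hA i).inter (hA j))] at h
  rw [sum_congr rfl fun i _ => hval (hA i), sum_congr rfl fun i _ =>
    (integral_finsetSum Y fun j _ => hint ((hA i).inter (hA j))).trans
      (sum_congr rfl fun j _ => hval ((hA i).inter (hA j)))] at h
  exact h

/-- Two connections from one vertex are bounded by the tree graph. -/
lemma Frame.two_le (x y y' : Γ × ι) :
    f.two q x y y' ≤ ∑' w, f.tau q f.H x w * f.tau q f.H w y * f.tau q f.H w y' := by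
  classical
  have := f.countable
  refine le_trans (measure_mono (t := ⋃ w, {ω | ∃ s ∈ wit f.H x {w}, ∃ t ∈ wit f.H w {y},
    ∃ u ∈ wit f.H w {y'}, Disjoint s t ∧ Disjoint s u ∧ Disjoint t u ∧
    (∀ e ∈ s, ω e = true) ∧ (∀ e ∈ t, ω e = true) ∧ ∀ e ∈ u, ω e = true}) ?_) ?_
  · rintro ω ⟨h, h'⟩
    obtain ⟨w, q₁, q₂, q₃, h1, h2, h3, h12, h23⟩ := exists_branch h h'
    refine Set.mem_iUnion.2 ⟨w, q₁.edges.toFinset, ⟨w, rfl, q₁, fun e => List.mem_toFinset⟩,
      q₂.edges.toFinset, ⟨y, rfl, q₂, fun e => List.mem_toFinset⟩,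
      q₃.edges.toFinset, ⟨y', rfl, q₃, fun e => List.mem_toFinset⟩, ?_, ?_, ?_, ?_, ?_, ?_⟩ <;>
      simp only [disjoint_left, List.mem_toFinset]
    exacts [fun e he => (h12 e he).1, fun e he => (h12 e he).2, fun e he => h23 e he,
      h1, h2, h3]
  · refine (measure_iUnion_le _).trans (ENNReal.tsum_le_tsum fun w => ?_)
    have := bk_three (p := q) (wit f.H x {w}) (wit f.H w {y}) (wit f.H w {y'})
    simp only [show ∀ a b : Γ × ι, P151.openOcc (wit f.H a {b}) = conn f.H a b from
      fun a b => joins_singleton f.H a b] at this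
    exact this

/-- The row sums of the tilted square of the two-point function bound its quadratic form. -/
lemma Frame.schur {t : ℝ} {M : ℝ≥0∞} (ht0 : 0 < t) (P : F2)
    (hM : ∀ x, ∑' y, f.tau q f.H x y * f.rho t P x y ≤ M) (A : Finset (Γ × ι)) :
    ∑ v ∈ A, ∑ w ∈ A, ∑' u, f.tau q f.H u v * f.tau q f.H u w ≤ M * M * A.card := by
  set K : Γ × ι → Γ × ι → ℝ≥0∞ := fun v w => ∑' u, f.tau q f.H u v * f.tau q f.H u w with hK
  have hsymm : ∀ v w, K v w = K w v := fun v w => tsum_congr fun u => mul_comm _ _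
  have hrow : ∀ v, ∑ w ∈ A, K v w * f.rho t P v w ≤ M * M := by
    intro v
    calc ∑ w ∈ A, K v w * f.rho t P v w
        ≤ ∑' w, K v w * f.rho t P v w := ENNReal.sum_le_tsum A
      _ = ∑' u, ∑' w, (f.tau q f.H v u * f.rho t P v u)
            * (f.tau q f.H u w * f.rho t P u w) := by
          rw [ENNReal.tsum_comm]
          refine tsum_congr fun w => ?_
          rw [hK, ← ENNReal.tsum_mul_right]
          refine tsum_congr fun u => ?_
          rw [f.tau_comm f.H v u, ← f.rho_mul ht0 P v u w]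
          ring
      _ ≤ ∑' u, (f.tau q f.H v u * f.rho t P v u) * M := by
          refine ENNReal.tsum_le_tsum fun u => ?_
          rw [ENNReal.tsum_mul_left]
          exact mul_le_mul_right (hM u) _
      _ ≤ M * M := by
          rw [ENNReal.tsum_mul_right]
          exact mul_le_mul_left (hM v) _
  have hge : ∀ v w, 2 ≤ f.rho t P v w + f.rho t P w v := by
    intro v w
    rw [Frame.rho, Frame.rho, ← ENNReal.ofReal_add (zpow_nonneg ht0.le _) (zpow_nonneg ht0.le _),
      ← ENNReal.ofReal_ofNat 2]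
    refine ENNReal.ofReal_le_ofReal ?_
    have hz : t ^ (ht P (f.pr v) - ht P (f.pr w))
        = (t ^ (ht P (f.pr w) - ht P (f.pr v)))⁻¹ := by
      rw [← zpow_neg, neg_sub]
    rw [hz]
    have hpos : 0 < t ^ (ht P (f.pr w) - ht P (f.pr v)) := zpow_pos ht0 _
    generalize t ^ (ht P (f.pr w) - ht P (f.pr v)) = a at hpos ⊢
    have h1 : (a + a⁻¹ - 2) * a = (a - 1) ^ 2 := by field_simp; ring
    nlinarith [sq_nonneg (a - 1), mul_pos hpos hpos]
  have htwo : 2 * ∑ v ∈ A, ∑ w ∈ A, K v w
      ≤ ∑ v ∈ A, ∑ w ∈ A, K v w * f.rho t P v w + ∑ v ∈ A, ∑ w ∈ A, K v w * f.rho t P v w := by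
    calc 2 * ∑ v ∈ A, ∑ w ∈ A, K v w
        ≤ ∑ v ∈ A, ∑ w ∈ A, (K v w * f.rho t P v w + K w v * f.rho t P w v) := by
          rw [mul_sum]
          refine sum_le_sum fun v _ => ?_
          rw [mul_sum]
          refine sum_le_sum fun w _ => ?_
          rw [hsymm w v, ← mul_add, mul_comm]
          exact mul_le_mul_right (hge v w) _
      _ = _ := by
          simp only [sum_add_distrib]
          congr 1
          exact sum_comm
  rw [← two_mul] at htwo
  refine ((ENNReal.mul_le_mul_iff_right two_ne_zero ENNReal.ofNat_ne_top).1 htwo).trans ?_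
  refine (sum_le_sum fun v _ => hrow v).trans (le_of_eq ?_)
  simp [mul_comm]

/-- The clusters of the vertices of a finite set cover many vertices. -/
theorem Frame.union_ge {t κ X M : ℝ} (ht0 : 0 < t) (P : F2) (hκ : 0 < κ) (hM0 : 0 < M)
    (hX0 : 0 ≤ X) (hlo : ∀ x, ENNReal.ofReal (κ * X) ≤ f.chi q x)
    (hhi : ∀ x, f.chi q x ≤ ENNReal.ofReal X)
    (hM : ∀ x, ∑' y, f.tau q f.H x y * f.rho t P x y ≤ ENNReal.ofReal M)
    (A : Finset (Γ × ι)) :
    ENNReal.ofReal (κ ^ 2 * X / M ^ 2) * A.card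
      ≤ ∑' z, perc (Γ × ι) q (joins f.H z (A : Set (Γ × ι))) := by
  classical
  set s : ℝ := M ^ 2 / κ with hs
  have hs0 : 0 < s := by positivity
  have hz : ∀ z, ENNReal.ofReal (2 * s) * ∑ v ∈ A, f.tau q f.H z v
      ≤ ENNReal.ofReal (s ^ 2) * perc (Γ × ι) q (joins f.H z (A : Set (Γ × ι)))
        + ∑ v ∈ A, ∑ w ∈ A, f.two q z v w := by
    intro z
    have h := ENNReal.ofReal_le_ofReal (two_mul_sum_le (perc (Γ × ι) q)
      (fun v => conn f.H z v) (fun v => measurableSet_conn z v) A s)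
    have hc : ∀ E : Set (Sym2 (Γ × ι) → Bool), ENNReal.ofReal ((perc (Γ × ι) q).real E)
        = perc (Γ × ι) q E := fun E => ENNReal.ofReal_toReal (measure_ne_top _ _)
    rw [ENNReal.ofReal_mul (mul_nonneg zero_le_two hs0.le),
      ENNReal.ofReal_sum_of_nonneg (fun _ _ => measureReal_nonneg),
      ENNReal.ofReal_add (by positivity) (sum_nonneg fun _ _ => sum_nonneg fun _ _ => measureReal_nonneg),
      ENNReal.ofReal_mul (sq_nonneg s),
      ENNReal.ofReal_sum_of_nonneg (fun _ _ => sum_nonneg fun _ _ => measureReal_nonneg)] at h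
    simp only [ENNReal.ofReal_sum_of_nonneg (fun _ _ => measureReal_nonneg), hc] at h
    rw [joins_eq_iUnion]
    simpa [Frame.tau, Frame.two] using h
  have hsum := ENNReal.tsum_le_tsum hz
  rw [ENNReal.tsum_mul_left, ENNReal.tsum_add, ENNReal.tsum_mul_left,
    Summable.tsum_finsetSum fun v _ => ENNReal.summable,
    Summable.tsum_finsetSum fun v _ => ENNReal.summable] at hsum
  have hlow : ENNReal.ofReal (κ * X) * A.card ≤ ∑ v ∈ A, ∑' z, f.tau q f.H z v := by
    refine le_trans (le_of_eq (by rw [sum_const, nsmul_eq_mul, mul_comm]))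
      (sum_le_sum (f := fun _ => ENNReal.ofReal (κ * X)) fun v _ => ?_)
    refine (hlo v).trans (le_of_eq (tsum_congr fun z => f.tau_comm f.H v z))
  have hupp : ∑ v ∈ A, ∑' z, ∑ w ∈ A, f.two q z v w
      ≤ ENNReal.ofReal X * (ENNReal.ofReal M * ENNReal.ofReal M * A.card) := by
    calc ∑ v ∈ A, ∑' z, ∑ w ∈ A, f.two q z v w
        = ∑ v ∈ A, ∑ w ∈ A, ∑' z, f.two q z v w :=
          sum_congr rfl fun v _ => Summable.tsum_finsetSum fun w _ => ENNReal.summable
      _ ≤ ∑ v ∈ A, ∑ w ∈ A, ENNReal.ofReal X * ∑' u, f.tau q f.H u v * f.tau q f.H u w := by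
          refine sum_le_sum fun v _ => sum_le_sum fun w _ => ?_
          refine (ENNReal.tsum_le_tsum fun z => f.two_le z v w).trans ?_
          rw [ENNReal.tsum_comm, ← ENNReal.tsum_mul_left]
          refine ENNReal.tsum_le_tsum fun u => ?_
          rw [ENNReal.tsum_mul_right, ENNReal.tsum_mul_right, mul_assoc]
          refine mul_le_mul_left (le_trans (le_of_eq ?_) (hhi u)) _
          exact tsum_congr fun z => f.tau_comm f.H z u
      _ ≤ _ := by
          simp only [← mul_sum]
          exact mul_le_mul_right (f.schur ht0 P hM A) _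
  have hmain : ENNReal.ofReal (2 * s * (κ * X)) * A.card
      ≤ ENNReal.ofReal (s ^ 2) * ∑' z, perc (Γ × ι) q (joins f.H z (A : Set (Γ × ι)))
        + ENNReal.ofReal (X * M ^ 2) * A.card := by
    rw [ENNReal.ofReal_mul (by positivity : 0 ≤ 2 * s), mul_assoc]
    refine (mul_le_mul_right hlow _).trans (hsum.trans (add_le_add le_rfl (hupp.trans_eq ?_)))
    rw [← ENNReal.ofReal_mul hM0.le, ← mul_assoc, ← ENNReal.ofReal_mul hX0, sq]
  have hsplit : 2 * s * (κ * X) = X * M ^ 2 + X * M ^ 2 := by rw [hs]; field_simp; ring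
  rw [hsplit, ENNReal.ofReal_add (by positivity) (by positivity), add_mul] at hmain
  have hcanc := (ENNReal.add_le_add_iff_right
    (ENNReal.mul_ne_top ENNReal.ofReal_ne_top (ENNReal.natCast_ne_top _))).1 hmain
  have hfac : κ ^ 2 * X / M ^ 2 = (1 / s ^ 2) * (X * M ^ 2) := by rw [hs]; field_simp
  rw [hfac, ENNReal.ofReal_mul (by positivity), mul_assoc]
  refine (mul_le_mul_right hcanc _).trans (le_of_eq ?_)
  rw [← mul_assoc, ← ENNReal.ofReal_mul (by positivity), one_div_mul_cancel (by positivity)]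
  simp

end Vale.Agent.P165.Large
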