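import Mathlib
import Vale.Agent.P165.Large.Spread
import Vale.Agent.P165.Large.Exponent
import Vale.Agent.P165.Product.Sprinkle

/-!
Sprinkling on the boundary of a finite cluster: the susceptibility grows at least like the power
three halves, so it blows up at the critical point at a controlled rate, which is in `(0, 1)`.
-/

namespace Vale.Agent.P165.Large

open MeasureTheory Finset
open Product (orQ orCfg bd comp edgesAt)
open scoped ENNReal

variable {W : Type} {p h : unitInterval}

/-- An event decided by finitely many coordinates is measurable for them. -/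
lemma meas_of_dep {A : Set (Sym2 W → Bool)} {S : Finset (Sym2 W)} (hA : Dep A S) :
    Meas (↑S) A := by
  classical
  have : A = ⋃ σ ∈ S.restrict '' A, ⋂ e : S, (fun ω : Sym2 W → Bool => ω e) ⁻¹' {σ e} := by
    conv_lhs => rw [hA.eq_preimage]
    ext ω
    simp only [Set.mem_preimage, Set.mem_iUnion, Set.mem_iInter, Set.mem_singleton_iff, exists_prop]
    exact ⟨fun hm => ⟨_, hm, fun e => rfl⟩, fun ⟨σ, hσ, he⟩ =>
      (funext he : S.restrict ω = σ) ▸ hσ⟩
  rw [Meas, this]
  exact (Set.toFinite _).measurableSet_biUnion fun σ _ =>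
    MeasurableSet.iInter fun e => meas_eval (S := (↑S : Set (Sym2 W))) e.2 _

/-- For every configuration in one of the events, one prescribed edge must be opened. -/
lemma open_one_le {κ : Type} [DecidableEq κ] (e : κ → Sym2 W) (I : Finset κ) :
    ∀ A : κ → Set (Sym2 W → Bool), (∀ i, MeasurableSet (A i)) →
      ENNReal.ofReal h * perc W p (⋃ i ∈ I, A i)
        ≤ ((perc W p).prod (perc W h)) (⋃ i ∈ I, A i ×ˢ allOpen {e i}) := by
  induction I using Finset.induction with
  | empty => simp
  | @insert j I hj ih =>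
    intro A hA
    have h1 := ih (fun i => A i \ A j) fun i => (hA i).diff (hA j)
    have hd : Disjoint (A j ×ˢ allOpen {e j}) (⋃ i ∈ I, (A i \ A j) ×ˢ allOpen {e i}) := by
      simp only [Set.disjoint_iUnion_right]
      exact fun i _ => Set.disjoint_left.2 fun x hx hx' => hx'.1.2 hx.1
    have hm : MeasurableSet (⋃ i ∈ I, (A i \ A j) ×ˢ allOpen {e i}) :=
      I.measurableSet_biUnion fun i _ => ((hA i).diff (hA j)).prod (measurableSet_allOpen _)
    have e1 : (⋃ i ∈ insert j I, A i) = A j ∪ ⋃ i ∈ I, (A i \ A j) := by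
      ext ω
      simp only [Set.mem_iUnion, mem_insert, exists_prop, Set.mem_union, Set.mem_sdiff]
      constructor
      · rintro ⟨i, rfl | hi, hω⟩
        · exact Or.inl hω
        · exact (em (ω ∈ A j)).imp id fun hn => ⟨i, hi, hω, hn⟩
      · rintro (hω | ⟨i, hi, hω, -⟩)
        · exact ⟨j, Or.inl rfl, hω⟩
        · exact ⟨i, Or.inr hi, hω⟩
    have hp : perc W h (allOpen {e j}) = ENNReal.ofReal h := by rw [perc_allOpen]; simp
    calc ENNReal.ofReal h * perc W p (⋃ i ∈ insert j I, A i)
        ≤ ENNReal.ofReal h * perc W p (A j)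
          + ENNReal.ofReal h * perc W p (⋃ i ∈ I, (A i \ A j)) := by
          rw [e1, ← mul_add]
          exact mul_le_mul_right (measure_union_le _ _) _
      _ ≤ ((perc W p).prod (perc W h)) (A j ×ˢ allOpen {e j})
          + ((perc W p).prod (perc W h)) (⋃ i ∈ I, (A i \ A j) ×ˢ allOpen {e i}) := by
          refine add_le_add (le_of_eq ?_) h1
          rw [Measure.prod_prod, hp, mul_comm]
      _ = _ := (measure_union hd hm).symm
      _ ≤ _ := measure_mono <| by
          intro x hx
          rcases hx with hx | hx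
          · exact Set.mem_biUnion (mem_insert_self j I) hx
          · simp only [Set.mem_iUnion, exists_prop] at hx ⊢
            obtain ⟨i, hi, hx, hx'⟩ := hx
            exact ⟨i, mem_insert_of_mem hi, hx.1, hx'⟩

/-- The graph without the edges that meet `S`. -/
def offG (H : SimpleGraph W) (S : Finset W) : SimpleGraph W where
  Adj a b := H.Adj a b ∧ a ∉ S ∧ b ∉ S
  symm := ⟨fun _ _ ⟨c, d, e⟩ => ⟨c.symm, e, d⟩⟩
  loopless := ⟨fun _ ⟨c, _⟩ => c.ne rfl⟩

variable [DecidableEq W] {H : SimpleGraph W} [H.LocallyFinite]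

/-- The cluster of `x` is exactly `S`. -/
def clus (H : SimpleGraph W) [H.LocallyFinite] (x : W) (S : Finset W) :
    Set (Sym2 W → Bool) :=
  {ω | x ∈ S ∧ comp H S x ω = S ∧ ∀ e ∈ bd H S, ω s(e.1, e.2) = false}

lemma dep_clus (x : W) (S : Finset W) : Dep (clus H x S) (edgesAt H S) := by
  rintro ω ω' hag ⟨hx, hc, hb⟩
  classical
  refine ⟨hx, ?_, fun e he => ?_⟩
  · apply subset_antisymm (filter_subset _ _)
    intro y hy
    have hy' : y ∈ comp H S x ω := hc.symm ▸ hy
    refine mem_filter.2 ⟨hy, SimpleGraph.Reachable.mono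
      (G := openGraph (Product.inG H S) ω) (G' := openGraph (Product.inG H S) ω')
      (fun a b hab => ⟨hab.1, ?_⟩) (mem_filter.1 hy').2⟩
    rw [← hag _ (Product.mem_edgesAt hab.1.2.1 hab.1.1)]
    exact hab.2
  · obtain ⟨h1, -, h3⟩ := Product.mem_bd.1 he
    rw [← hag _ (Product.mem_edgesAt h1 h3)]
    exact hb e he

lemma clus_iff {x : W} {S : Finset W} {ω : Sym2 W → Bool} (h : ω ∈ clus H x S) (y : W) :
    ω ∈ conn H x y ↔ y ∈ S := by
  obtain ⟨hx, hc, hb⟩ := h
  classical
  constructor
  · rintro ⟨q⟩
    induction q with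
    | nil => exact hx
    | @cons a b c hab q ih =>
      refine ih ?_ ?_
      · by_contra hbS
        exact absurd hab.2 (by simp [hb (a, b) (Product.mem_bd.2 ⟨hx, hbS, hab.1⟩)])
      · exact subset_antisymm (filter_subset _ _) fun z hz => by
          have hb' : b ∈ comp H S a ω := by
            rw [hc]
            by_contra hbS
            exact absurd hab.2 (by simp [hb (a, b) (Product.mem_bd.2 ⟨hx, hbS, hab.1⟩)])
          have hz' : z ∈ comp H S a ω := hc.symm ▸ hz
          exact mem_filter.2 ⟨hz, SimpleGraph.Reachable.trans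
            (SimpleGraph.Reachable.symm (mem_filter.1 hb').2) (mem_filter.1 hz').2⟩
  · intro hy
    have hy' : y ∈ comp H S x ω := hc.symm ▸ hy
    exact Product.connIn_subset_conn S x y (mem_filter.1 hy').2

lemma clus_disjoint {x : W} {S S' : Finset W} (hne : S ≠ S') :
    Disjoint (clus H x S) (clus H x S') :=
  Set.disjoint_left.2 fun _ h h' => hne (Finset.ext fun y =>
    (clus_iff h y).symm.trans (clus_iff h' y))

lemma mem_clus {x : W} {ω : Sym2 W → Bool}
    (hfin : {y | (openGraph H ω).Reachable x y}.Finite) : ω ∈ clus H x hfin.toFinset := by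
  classical
  have hx : x ∈ hfin.toFinset := hfin.mem_toFinset.2 (SimpleGraph.Reachable.refl _)
  refine ⟨hx, ?_, fun e he => ?_⟩
  · refine subset_antisymm (filter_subset _ _) fun y hy => mem_filter.2 ⟨hy, ?_⟩
    obtain ⟨q⟩ := hfin.mem_toFinset.1 hy
    exact Product.connIn_of_walk q fun z hz =>
      hfin.mem_toFinset.2 (q.takeUntil z hz).reachable
  · obtain ⟨h1, h2, h3⟩ := Product.mem_bd.1 he
    by_contra hne
    exact h2 (hfin.mem_toFinset.2 ((hfin.mem_toFinset.1 h1).trans
      (SimpleGraph.Adj.reachable (G := openGraph H ω) ⟨h3, by simpa using hne⟩)))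

lemma perc_conn_eq_tsum [Countable W] {x : W} (hinf : perc W p (toInf H x) = 0) (y : W) :
    perc W p (conn H x y) = ∑' S : Finset W, if y ∈ S then perc W p (clus H x S) else 0 := by
  have hm : ∀ S : Finset W, MeasurableSet (clus H x S) := fun S => (dep_clus x S).measurableSet
  have hu : perc W p (⋃ S : Finset W, if y ∈ S then clus H x S else ∅)
      = ∑' S : Finset W, if y ∈ S then perc W p (clus H x S) else 0 := by
    rw [measure_iUnion (fun S S' hne => ?_) fun S => ?_]
    · exact tsum_congr fun S => by split <;> simp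
    · simp only [Function.onFun]
      split <;> [split; skip] <;> first | exact clus_disjoint hne | simp
    · split <;> [exact hm S; exact MeasurableSet.empty]
  rw [← hu]
  refine le_antisymm ?_ (measure_mono ?_)
  · refine le_trans (measure_mono (t := (⋃ S : Finset W, if y ∈ S then clus H x S else ∅)
      ∪ toInf H x) fun ω hω => ?_) (le_trans (measure_union_le _ _) (by rw [hinf, add_zero]))
    rcases Set.finite_or_infinite {z | (openGraph H ω).Reachable x z} with hf | hf
    · refine Or.inl (Set.mem_iUnion.2 ⟨hf.toFinset, ?_⟩)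
      rw [if_pos (hf.mem_toFinset.2 hω)]
      exact mem_clus hf
    · exact Or.inr hf
  · intro ω hω
    obtain ⟨S, hS⟩ := Set.mem_iUnion.1 hω
    split at hS
    · next hy => exact (clus_iff hS y).2 hy
    · exact hS.elim

omit [DecidableEq W] [H.LocallyFinite] in
/-- A finite expected cluster size forbids infinite clusters. -/
lemma toInf_null [Countable W] {x : W} (hfin : ∑' y, perc W p (conn H x y) ≠ ⊤) :
    perc W p (toInf H x) = 0 := by
  refine le_antisymm ?_ zero_le
  refine ge_of_tendsto' (ENNReal.tendsto_tsum_compl_atTop_zero hfin) fun s => ?_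
  refine le_trans (measure_mono (t := ⋃ y : {y // y ∉ s}, conn H x y) fun ω hω => ?_)
    (measure_iUnion_le _)
  obtain ⟨y, hy, hys⟩ := Set.Infinite.exists_notMem_finset hω s
  exact Set.mem_iUnion.2 ⟨⟨y, hys⟩, hy⟩

variable {Γ ι : Type} [Group Γ] (f : Frame Γ ι)

lemma Frame.tau_le_of_le {q q' : unitInterval} (hq : (q : ℝ) ≤ q') (x y : Γ × ι) :
    f.tau q f.H x y ≤ f.tau q' f.H x y := by
  have := f.countable
  unfold Frame.tau
  rw [← ENNReal.ofReal_toReal (measure_ne_top (perc (Γ × ι) q) (conn f.H x y)),
    ← ENNReal.ofReal_toReal (measure_ne_top (perc (Γ × ι) q') (conn f.H x y))]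
  exact ENNReal.ofReal_le_ofReal (Product.real_mono (measurableSet_conn x y)
    (fun ω η hle h => SimpleGraph.Reachable.mono
      (show openGraph f.H ω ≤ openGraph f.H η from fun _ _ ha => ⟨ha.1, hle _ ha.2⟩) h) hq)

/-- Sprinkling on the boundary of the cluster of `x`. -/
theorem Frame.boost [DecidableEq (Γ × ι)] {D : ℕ} (hD : ∀ v, (f.H.neighborFinset v).card ≤ D)
    {K : ℝ} {x : Γ × ι} (hinf : perc (Γ × ι) p (toInf f.H x) = 0)
    (hK : ∀ A : Finset (Γ × ι), ENNReal.ofReal K * A.card
      ≤ ∑' z, perc (Γ × ι) p (joins f.H z (A : Set (Γ × ι)))) :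
    f.chi p x * (1 + ENNReal.ofReal h * ENNReal.ofReal (K / ((D + 1 : ℕ) ^ f.rad : ℕ)))
      ≤ f.chi (orQ p h) x + ENNReal.ofReal h * f.chi p x := by
  classical
  have := f.countable
  set ν := (perc (Γ × ι) p).prod (perc (Γ × ι) h) with hν
  set w : Finset (Γ × ι) → ℝ≥0∞ := fun S => perc (Γ × ι) p (clus f.H x S) with hw
  set U : Finset (Γ × ι) → Γ × ι → ℝ≥0∞ := fun S z =>
    perc (Γ × ι) p (joins f.H z (f.outer S : Set (Γ × ι))) with hU
  set c : ℝ≥0∞ := ENNReal.ofReal (K / ((D + 1 : ℕ) ^ f.rad : ℕ)) with hc
  set η : ℝ≥0∞ := ENNReal.ofReal h with hη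
  have hchi : f.chi p x = ∑' S, w S * S.card := by
    rw [Frame.chi]
    simp only [Frame.tau, perc_conn_eq_tsum hinf]
    rw [ENNReal.tsum_comm]
    refine tsum_congr fun S => ?_
    rw [tsum_eq_sum (s := S) fun y hy => if_neg hy, sum_congr rfl fun y hy => if_pos hy]
    simp [w, mul_comm]
  have hpt : ∀ y, ∑' S, (if y ∈ S then w S else η * (w S * U S y))
      ≤ f.tau (orQ p h) f.H x y := by
    intro y
    unfold Frame.tau
    rw [← Product.map_orCfg, Measure.map_apply Product.measurable_orCfg (measurableSet_conn x y)]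
    let E : Finset (Γ × ι) → Set ((Sym2 (Γ × ι) → Bool) × (Sym2 (Γ × ι) → Bool)) := fun S =>
      if y ∈ S then clus f.H x S ×ˢ Set.univ else
        ⋃ e ∈ bd f.H S, (clus f.H x S ∩ conn (offG f.H S) e.2 y) ×ˢ allOpen {s(e.1, e.2)}
    have hoff : ∀ S, ∀ e : (Γ × ι) × (Γ × ι), MeasurableSet (conn (offG f.H S) e.2 y) :=
      fun S e => (meas_conn _ _ _).measurableSet
    have hE1 : ∀ S, E S ⊆ clus f.H x S ×ˢ Set.univ := by
      intro S z hz
      simp only [E] at hz
      split at hz
      · exact hz
      · simp only [Set.mem_iUnion] at hz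
        obtain ⟨e, -, hz, -⟩ := hz
        exact ⟨hz.1, trivial⟩
    have hEm : ∀ S, MeasurableSet (E S) := by
      intro S
      simp only [E]
      split
      · exact (dep_clus x S).measurableSet.prod MeasurableSet.univ
      · exact Finset.measurableSet_biUnion _ fun e _ =>
          ((dep_clus x S).measurableSet.inter (hoff S e)).prod (measurableSet_allOpen _)
    have hEs : (⋃ S, E S) ⊆ orCfg ⁻¹' conn f.H x y := by
      rintro ⟨ω, η'⟩ hz
      obtain ⟨S, hS⟩ := Set.mem_iUnion.1 hz
      have hup : openGraph f.H ω ≤ openGraph f.H (orCfg (ω, η')) := fun a b hab =>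
        ⟨hab.1, by simp [orCfg, hab.2]⟩
      simp only [E] at hS
      split at hS
      · next hy => exact SimpleGraph.Reachable.mono hup ((clus_iff hS.1 y).2 hy)
      · simp only [Set.mem_iUnion] at hS
        obtain ⟨⟨a, b⟩, he, ⟨hcl, hcy⟩, ho⟩ := hS
        obtain ⟨ha, -, hab⟩ := Product.mem_bd.1 he
        refine (SimpleGraph.Reachable.mono hup ((clus_iff hcl a).2 ha)).trans
          ((SimpleGraph.Adj.reachable (G := openGraph f.H (orCfg (ω, η')))
            ⟨hab, by have := ho _ (mem_singleton_self _); simp only at this; simp [orCfg, this]⟩).trans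
          (SimpleGraph.Reachable.mono hup (Sus.conn_subset (K := offG f.H S) (fun _ _ h => h.1) b y hcy)))
    refine le_trans ?_ (measure_mono hEs)
    rw [measure_iUnion (fun S S' hne => (Set.disjoint_left.2 fun z hz hz' =>
      Set.disjoint_left.1 (clus_disjoint hne) (hE1 S hz).1 (hE1 S' hz').1)) hEm]
    refine ENNReal.tsum_le_tsum fun S => ?_
    simp only [E]
    split
    · rw [Measure.prod_prod, measure_univ, mul_one]
    next hyS =>
      refine le_trans ?_ (open_one_le (fun e : (Γ × ι) × (Γ × ι) => s(e.1, e.2)) (bd f.H S) _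
        fun e => (dep_clus x S).measurableSet.inter (hoff S e))
      rw [← Set.inter_iUnion₂]
      refine mul_le_mul_right ?_ _
      have hmU : Meas (offG f.H S).edgeSet (⋃ e ∈ bd f.H S, conn (offG f.H S) e.2 y) := by
        rw [Meas]
        exact Finset.measurableSet_biUnion _ fun e _ => meas_conn _ _ _
      rw [(meas_of_dep (dep_clus x S)).inter_eq hmU ?_]
      · refine mul_le_mul_right (measure_mono fun ω hω => ?_) _
        obtain ⟨b, hb, hyb⟩ := mem_joins.1 hω
        obtain ⟨r, -, hr⟩ := exists_path_of_mem_conn hyb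
        simp only [Set.mem_iUnion, exists_prop]
        have key : ∀ b', b' ∈ f.outer S → ∀ r' : f.H.Walk y b', (∀ u ∈ r'.support, u ∉ S) →
            (∀ e ∈ r'.edges, ω e = true) →
            ∃ e ∈ bd f.H S, ω ∈ conn (offG f.H S) e.2 y := by
          intro b' hb' r' hS' ho
          obtain ⟨hb'S, a, ha, hab⟩ := f.mem_outer.1 hb'
          refine ⟨(a, b'), Product.mem_bd.2 ⟨ha, hb'S, hab⟩, SimpleGraph.Reachable.symm ?_⟩
          refine Sus.mem_conn_of_walk r' (fun e he => ?_) ho
          induction e using Sym2.ind with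
          | _ u u' =>
            exact ⟨r'.adj_of_mem_edges he, hS' u (r'.fst_mem_support_of_mem_edges he),
              hS' u' (r'.snd_mem_support_of_mem_edges he)⟩
        by_cases hmeet : ∃ v ∈ r.support, v ∈ S
        · obtain ⟨y', c', r₁, hc', r₂, hcS, hr2, hr1⟩ :=
            Frame.card_le_outer.cut_at f (S : Set (Γ × ι)) r (by simpa using hyS)
              (by simpa using hmeet)
          refine key y' (f.mem_outer.2 ⟨by simpa using hr1 y' r₁.end_mem_support, c',
            by simpa using hcS, hc'.symm⟩) r₁ (fun u hu => by simpa using hr1 u hu)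
            fun e he => hr e (List.mem_toFinset.2 ?_)
          rw [hr2]; simp [he]
        · push Not at hmeet
          exact key b hb r hmeet fun e he => hr e (List.mem_toFinset.2 he)
      · rw [Set.disjoint_left]
        intro e he he'
        obtain ⟨a, ha, hae⟩ := mem_biUnion.1 (mem_coe.1 he)
        obtain ⟨b, -, rfl⟩ := mem_image.1 hae
        exact (he' : (offG f.H S).Adj a b).2.1 ha
  calc f.chi p x * (1 + η * c) = ∑' S, w S * S.card * (1 + η * c) := by
        rw [hchi, ENNReal.tsum_mul_right]
    _ ≤ ∑' S, ((∑' y, if y ∈ S then w S else η * (w S * U S y)) + η * (w S * S.card)) := by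
        refine ENNReal.tsum_le_tsum fun S => ?_
        have h1 : w S * S.card + η * (w S * ∑' y, U S y)
            ≤ (∑' y, if y ∈ S then w S else η * (w S * U S y)) + η * (w S * S.card) := by
          have h2 : ∑' y, ((if y ∈ S then w S else 0) + η * (w S * U S y))
              ≤ ∑' y, ((if y ∈ S then w S else η * (w S * U S y))
                  + if y ∈ S then η * (w S * 1) else 0) := by
            refine ENNReal.tsum_le_tsum fun y => ?_
            by_cases hy : y ∈ S
            · simp only [hy, if_true]
              exact add_le_add le_rfl (mul_le_mul_right (mul_le_mul_right prob_le_one _) _)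
            · simp [hy]
          rw [ENNReal.tsum_add, ENNReal.tsum_add, ENNReal.tsum_mul_left, ENNReal.tsum_mul_left,
            tsum_eq_sum (s := S) (f := fun y => if y ∈ S then w S else 0) fun y hy => if_neg hy,
            tsum_eq_sum (s := S) (f := fun y => if y ∈ S then η * (w S * 1) else 0)
              fun y hy => if_neg hy, sum_congr rfl fun y hy => if_pos hy,
            sum_congr rfl fun y hy => if_pos hy] at h2
          simpa [mul_comm, mul_assoc, mul_left_comm] using h2
        refine le_trans ?_ h1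
        have hB : c * S.card ≤ ∑' y, U S y := by
          refine le_trans ?_ (hK (f.outer S))
          have hle := f.card_le_outer hD S
          calc c * S.card ≤ c * ((f.outer S).card * ((D + 1) ^ f.rad : ℕ) : ℕ) :=
                mul_le_mul_right (by exact_mod_cast hle) _
            _ = _ := by
                rw [Nat.cast_mul, mul_comm ((f.outer S).card : ℝ≥0∞), ← mul_assoc]
                congr 1
                rw [← ENNReal.ofReal_natCast ((D + 1) ^ f.rad), ← ENNReal.ofReal_mul'
                  (Nat.cast_nonneg _), div_mul_cancel₀]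
                positivity
        calc w S * S.card * (1 + η * c) = w S * S.card + η * (w S * (c * S.card)) := by ring
          _ ≤ _ := by gcongr
    _ ≤ f.chi (orQ p h) x + η * f.chi p x := by
        rw [ENNReal.tsum_add, ENNReal.tsum_mul_left, ← hchi, ENNReal.tsum_comm]
        exact add_le_add (ENNReal.tsum_le_tsum hpt) le_rfl

end Vale.Agent.P165.Large
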