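import Mathlib
import Vale.Agent.P165.Large.Boost

/-!
The critical point is in `(0, 1)` and the susceptibility below it is at most the inverse square of
the distance to it, given the bound on the tilted susceptibility.
-/

namespace Vale.Agent.P165.Large

open MeasureTheory Finset
open Product (orQ)
open scoped ENNReal

variable {Γ ι : Type} [Group Γ] [Fintype ι] (f : Frame Γ ι) {q : unitInterval}

/-- The largest expected cluster size. -/
noncomputable def Frame.top (q : unitInterval) : ℝ≥0∞ := univ.sup fun i => f.chi q ((1 : Γ), i)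

lemma Frame.chi_le_top (x : Γ × ι) : f.chi q x ≤ f.top q := by
  rw [show x = Frame.act x.1 ((1 : Γ), x.2) by simp [Frame.act], f.chi_act]
  exact le_sup (f := fun i => f.chi q ((1 : Γ), i)) (mem_univ x.2)

lemma Frame.exists_top : ∃ x, f.chi q x = f.top q := by
  have : Nonempty ι := f.connected.nonempty.map Prod.snd
  obtain ⟨i, -, hi⟩ := exists_mem_eq_sup univ univ_nonempty fun i : ι => f.chi q ((1 : Γ), i)
  exact ⟨_, hi.symm⟩

lemma Frame.top_le_chi (x : Γ × ι) : ENNReal.ofReal ((q : ℝ) ^ f.rad) * f.top q ≤ f.chi q x := by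
  have : Nonempty ι := f.connected.nonempty.map Prod.snd
  obtain ⟨i, -, hi⟩ := exists_mem_eq_sup univ univ_nonempty fun i : ι => f.chi q ((1 : Γ), i)
  rw [Frame.top, hi]
  exact f.chi_compare x i

lemma Frame.one_le_top : 1 ≤ f.top q := by
  obtain ⟨x, hx⟩ := f.exists_top (q := q)
  exact hx ▸ f.one_le_chi x

lemma Frame.top_ne_top (hq : (q : ℝ) < pc f.H) : f.top q ≠ ⊤ := by
  obtain ⟨X, hX, hle⟩ := f.susc_finite hq
  obtain ⟨x, hx⟩ := f.exists_top (q := q)
  exact ne_top_of_le_ne_top hX (hx ▸ hle x)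

lemma Frame.top_mono {q' : unitInterval} (h : (q : ℝ) ≤ q') : f.top q ≤ f.top q' :=
  Finset.sup_le fun i _ => (ENNReal.tsum_le_tsum fun y => f.tau_le_of_le h ((1 : Γ), i) y).trans
    (f.chi_le_top _)

/-- The susceptibility as a real number. -/
noncomputable def Frame.size (q : unitInterval) : ℝ := (f.top q).toReal

lemma Frame.one_le_size (hq : (q : ℝ) < pc f.H) : 1 ≤ f.size q := by
  have := ENNReal.toReal_mono (f.top_ne_top hq) f.one_le_top
  simpa [Frame.size] using this

lemma Frame.ofReal_size (hq : (q : ℝ) < pc f.H) : ENNReal.ofReal (f.size q) = f.top q :=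
  ENNReal.ofReal_toReal (f.top_ne_top hq)

lemma Frame.suscLe_size (hq : (q : ℝ) < pc f.H) : f.SuscLe q (f.size q) := by
  intro x T
  refine (ENNReal.ofReal_le_ofReal_iff (zero_le_one.trans (f.one_le_size hq))).1 ?_
  rw [f.ofReal_size hq, ENNReal.ofReal_sum_of_nonneg fun _ _ => measureReal_nonneg]
  refine le_trans ((sum_le_sum fun y _ => ?_).trans (ENNReal.sum_le_tsum T)) (f.chi_le_top x)
  exact (ENNReal.ofReal_toReal (measure_ne_top _ _)).le

omit [Fintype ι] in
lemma Frame.tilt_tsum {t M : ℝ} (ht0 : 0 < t) (h : f.TiltLe q t M) (P : F2) (x : Γ × ι) :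
    ∑' y, f.tau q f.H x y * f.rho t P x y ≤ ENNReal.ofReal M := by
  rw [ENNReal.tsum_eq_iSup_sum]
  refine iSup_le fun T => le_trans (le_of_eq ?_) (ENNReal.ofReal_le_ofReal (h P x T))
  rw [ENNReal.ofReal_sum_of_nonneg fun _ _ => mul_nonneg measureReal_nonneg (zpow_nonneg ht0.le _)]
  refine sum_congr rfl fun y _ => ?_
  rw [ENNReal.ofReal_mul measureReal_nonneg, measureReal_def,
    ENNReal.ofReal_toReal (measure_ne_top _ _)]
  rfl

omit [Fintype ι] in
/-- Without an infinite cluster from any vertex there is no percolation. -/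
lemma Frame.no_perc (h : ∀ x, perc (Γ × ι) q (toInf f.H x) = 0) :
    perc (Γ × ι) q {ω | ∃ x, {y | (openGraph f.H ω).Reachable x y}.Infinite} = 0 := by
  have := f.countable
  refine measure_mono_null ?_ (measure_iUnion_null h)
  rintro ω ⟨x, hx⟩
  exact Set.mem_iUnion.2 ⟨x, hx⟩

/-- The critical point is positive. -/
theorem Frame.pc_pos : 0 < pc f.H := by
  classical
  have := f.countable
  obtain ⟨D, hD1, hD⟩ := f.exists_degree
  have hD0 : (0 : ℝ) < D := by exact_mod_cast hD1
  refine lt_of_lt_of_le (show (0 : ℝ) < 1 / (2 * D) by positivity)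
    (le_csInf (Set.insert_nonempty _ _) ?_)
  rintro r (rfl | ⟨p, hp, rfl⟩)
  · rw [div_le_one (by positivity)]
    have : (1 : ℝ) ≤ D := by exact_mod_cast hD1
    linarith
  by_contra hlt
  suffices hfin : ∀ x, ∑' y, perc (Γ × ι) p (conn f.H x y) ≠ ⊤ from
    (show 0 < perc (Γ × ι) p _ from hp).ne' (f.no_perc fun x => toInf_null (hfin x))
  intro x
  have hphi : ∀ v, Product.phi f.H p v {v} ≤ 1 / 2 := by
    intro v
    have hc : (Product.bd f.H {v}).card ≤ D := by
      refine le_trans (card_le_card_of_injOn Prod.snd (fun e he => ?_) fun e he e' he' h => ?_) (hD v)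
      · obtain ⟨h1, -, h3⟩ := Product.mem_bd.1 he
        rw [mem_singleton] at h1
        simpa [h1] using h3
      · obtain ⟨h1, -, -⟩ := Product.mem_bd.1 he
        obtain ⟨h1', -, -⟩ := Product.mem_bd.1 he'
        exact Prod.ext ((mem_singleton.1 h1).trans (mem_singleton.1 h1').symm) h
    have hle : Product.phi f.H p v {v} ≤ (p : ℝ) * D := by
      refine mul_le_mul_of_nonneg_left ?_ p.2.1
      refine (sum_le_card_nsmul _ _ 1 fun e _ => measureReal_le_one).trans ?_
      simp only [nsmul_eq_mul, mul_one]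
      exact_mod_cast hc
    have := mul_le_mul_of_nonneg_right (not_le.1 hlt).le hD0.le
    have h2 : 1 / (2 * (D : ℝ)) * D = 1 / 2 := by field_simp
    linarith
  have hsum := Product.sum_conn_le_of_phi (H := f.H) (p := p) (zero_le_one (α := ℝ))
    (by norm_num : (0 : ℝ) ≤ 1 / 2) (by norm_num)
    (fun v => ⟨{v}, mem_singleton_self v, by simp, hphi v⟩) x
  refine ne_top_of_le_ne_top (ENNReal.ofReal_ne_top (r := 1 / (1 - 1 / 2))) ?_
  rw [ENNReal.tsum_eq_iSup_sum]
  refine iSup_le fun T => le_trans (le_of_eq ?_) (ENNReal.ofReal_le_ofReal (hsum T))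
  rw [ENNReal.ofReal_sum_of_nonneg fun _ _ => measureReal_nonneg]
  exact sum_congr rfl fun y _ => (ENNReal.ofReal_toReal (measure_ne_top _ _)).symm

omit [Fintype ι] in
lemma Frame.toInf_null_below [Finite ι] (hq : (q : ℝ) < pc f.H) (x : Γ × ι) :
    perc (Γ × ι) q (toInf f.H x) = 0 := by
  have := f.countable
  obtain ⟨X, hX, hle⟩ := f.susc_finite hq
  exact toInf_null (ne_top_of_le_ne_top hX (hle x))

/-- Sprinkling multiplies the susceptibility by more than a multiple of its square root. -/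
theorem Frame.grow (hbound : f.TiltBound) : ∃ a : ℝ, 0 < a ∧ ∀ p h : unitInterval,
    pc f.H / 2 ≤ p → (p : ℝ) < pc f.H → (orQ p h : ℝ) < pc f.H →
      f.size p * (1 + (h : ℝ) * (a * √(f.size p)) - h) ≤ f.size (orQ p h) := by
  classical
  have := f.countable
  obtain ⟨D, -, hD⟩ := f.exists_degree
  obtain ⟨C, hC0, hC⟩ := hbound
  have hpc := f.pc_pos
  set κ : ℝ := (pc f.H / 2) ^ f.rad with hκ
  have hκ0 : 0 < κ := by positivity
  set B : ℝ := (((D + 1) ^ f.rad : ℕ) : ℝ) with hB
  have hB0 : 0 < B := by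
    have : 0 < (D + 1) ^ f.rad := by positivity
    rw [hB]; exact_mod_cast this
  refine ⟨κ ^ 2 / ((C + 1) ^ 2 * B), by positivity, fun p h hp hp' hq => ?_⟩
  set X := f.size p with hX
  have hX1 : 1 ≤ X := f.one_le_size hp'
  obtain ⟨t, ht1, -, ht⟩ := hC p hp hp'
  set M : ℝ := (C + 1) * X ^ (1 / 4 : ℝ) with hM
  have hM0 : 0 < M := by positivity
  have hK := f.union_ge (q := p) (κ := κ) (X := X) (M := M) (t := t) (by linarith) 1 hκ0 hM0
    (by linarith) (fun x => ?_) (fun x => by rw [f.ofReal_size hp']; exact f.chi_le_top x)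
    (fun x => (f.tilt_tsum (by linarith) (ht X hX1 (f.suscLe_size hp')) 1 x).trans
      (ENNReal.ofReal_le_ofReal (mul_le_mul_of_nonneg_right (by linarith) (by positivity))))
  swap
  · rw [ENNReal.ofReal_mul hκ0.le, f.ofReal_size hp']
    exact le_trans (mul_le_mul_left (ENNReal.ofReal_le_ofReal
      (pow_le_pow_left₀ (by linarith) hp _)) _) (f.top_le_chi x)
  obtain ⟨x, hx⟩ := f.exists_top (q := p)
  have hb := f.boost (p := p) (h := h) hD (K := κ ^ 2 * X / M ^ 2)
    (f.toInf_null_below hp' x) hK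
  rw [hx, ← f.ofReal_size hp'] at hb
  replace hb := hb.trans (add_le_add_left (f.chi_le_top x) _)
  rw [← f.ofReal_size hq, ← hB] at hb
  have hM2 : M ^ 2 = (C + 1) ^ 2 * √X := by
    rw [hM, mul_pow, Real.sqrt_eq_rpow, ← Real.rpow_natCast (X ^ (1 / 4 : ℝ)) 2,
      ← Real.rpow_mul (by linarith)]
    norm_num
  have hc : κ ^ 2 * X / M ^ 2 / B = κ ^ 2 / ((C + 1) ^ 2 * B) * √X := by
    rw [hM2]
    field_simp
    rw [Real.sq_sqrt (by linarith : (0 : ℝ) ≤ X)]
  rw [hc] at hb
  have h0 : (0 : ℝ) ≤ h := h.2.1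
  have hs0 : 0 ≤ κ ^ 2 / ((C + 1) ^ 2 * B) * √X := by positivity
  rw [← ENNReal.ofReal_one, ← ENNReal.ofReal_mul h0, ← ENNReal.ofReal_add zero_le_one
    (mul_nonneg h0 hs0), ← ENNReal.ofReal_mul (by linarith : (0 : ℝ) ≤ X),
    ← ENNReal.ofReal_mul h0, ← ENNReal.ofReal_add (zero_le_one.trans (f.one_le_size hq))
    (mul_nonneg h0 (by linarith)),
    ENNReal.ofReal_le_ofReal_iff (add_nonneg (zero_le_one.trans (f.one_le_size hq))
    (mul_nonneg h0 (by linarith)))] at hb
  nlinarith [hb]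

/-- Iterated sprinkling bounds the susceptibility near the critical point. -/
theorem Frame.blowup (hbound : f.TiltBound) : ∃ A : ℝ, 0 < A ∧ ∀ p : unitInterval,
    pc f.H / 2 ≤ p → (p : ℝ) < pc f.H →
      √(f.size p) * ((pc f.H - p) / (1 - p)) ≤ A := by
  obtain ⟨a, ha, hgrow⟩ := f.grow hbound
  refine ⟨16 / a, by positivity, fun p hp hp' => ?_⟩
  by_contra hlt
  rw [not_le, div_lt_iff₀ ha] at hlt
  have hpc1 : pc f.H ≤ 1 := csInf_le ⟨0, by
    rintro r (rfl | ⟨z, -, rfl⟩)
    · exact zero_le_one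
    · exact z.2.1⟩ (Set.mem_insert _ _)
  set ε := pc f.H - p with hε
  have hε0 : 0 < ε := by linarith
  let r : ℕ → ℝ := fun k => (p : ℝ) + ε / 2 * (1 - (3 / 4 : ℝ) ^ k)
  have hr : ∀ k, (p : ℝ) ≤ r k ∧ r k ≤ p + ε / 2 := fun k => by
    have h1 : (3 / 4 : ℝ) ^ k ≤ 1 := pow_le_one₀ (by norm_num) (by norm_num)
    have h2 : 0 < (3 / 4 : ℝ) ^ k := by positivity
    constructor <;> simp only [r] <;> nlinarith
  let P : ℕ → unitInterval := fun k => ⟨r k, le_trans p.2.1 (hr k).1, by linarith [(hr k).2]⟩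
  have hP : ∀ k, pc f.H / 2 ≤ P k ∧ (P k : ℝ) < pc f.H := fun k =>
    ⟨le_trans hp (hr k).1, lt_of_le_of_lt (hr k).2 (by linarith)⟩
  have hX0 : 1 ≤ f.size p := f.one_le_size hp'
  have hmain : ∀ k, (16 / 9 : ℝ) ^ k * f.size p ≤ f.size (P k) := by
    intro k
    induction k with
    | zero =>
      have : P 0 = p := Subtype.ext (by simp [P, r])
      rw [this]; simp
    | succ k ih =>
      obtain ⟨h1, h2⟩ := hP k
      have hle : (P k : ℝ) ≤ P (k + 1) := by
        show r k ≤ r (k + 1)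
        simp only [r, pow_succ]
        nlinarith [show 0 < (3 / 4 : ℝ) ^ k by positivity]
      obtain ⟨h, hh⟩ := Product.exists_orQ hle
      have hval : (h : ℝ) * (1 - r k) = ε / 8 * (3 / 4) ^ k := by
        have := congrArg (fun u : unitInterval => (u : ℝ)) hh
        simp only [Product.coe_orQ, P, r, pow_succ] at this ⊢
        linarith
      have hlow : ε / 8 * (3 / 4) ^ k ≤ (h : ℝ) * (1 - p) := by
        rw [← hval]
        exact mul_le_mul_of_nonneg_left (by linarith [(hr k).1]) h.2.1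
      have hsq : (4 / 3 : ℝ) ^ k * √(f.size p) ≤ √(f.size (P k)) := by
        refine le_trans (le_of_eq ?_) (Real.sqrt_le_sqrt ih)
        rw [Real.sqrt_mul (by positivity),
          show (16 / 9 : ℝ) ^ k = ((4 / 3) ^ k) ^ 2 by rw [← pow_mul, mul_comm k, pow_mul]; norm_num,
          Real.sqrt_sq (by positivity)]
      have hp1 : 0 < 1 - (p : ℝ) := by linarith
      have h2le : 2 ≤ (h : ℝ) * (a * √(f.size (P k))) := by
        have hpow : (3 / 4 : ℝ) ^ k * (4 / 3) ^ k = 1 := by rw [← mul_pow]; norm_num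
        have h4 := mul_le_mul hlow (mul_le_mul_of_nonneg_left hsq ha.le) (by positivity)
          (mul_nonneg h.2.1 hp1.le)
        have h5 : ε / 8 * (3 / 4) ^ k * (a * ((4 / 3) ^ k * √(f.size p)))
            = ε * a * √(f.size p) / 8 := by
          linear_combination (ε * a * √(f.size p) / 8) * hpow
        have h6 : 2 * (1 - (p : ℝ)) ≤ ε * a * √(f.size p) / 8 := by
          have h7 : √(f.size p) * (ε / (1 - p)) * a * (1 - (p : ℝ)) = ε * a * √(f.size p) := by
            field_simp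
          nlinarith [mul_le_mul_of_nonneg_right hlt.le hp1.le]
        refine le_of_mul_le_mul_right ?_ hp1
        calc 2 * (1 - (p : ℝ)) ≤ (h : ℝ) * (1 - p) * (a * √(f.size (P k))) := by linarith
          _ = _ := by ring
      have hg := hgrow (P k) h h1 h2 (by rw [hh]; exact (hP (k + 1)).2)
      rw [hh] at hg
      have hpos : 0 ≤ f.size (P k) := zero_le_one.trans (f.one_le_size h2)
      calc (16 / 9 : ℝ) ^ (k + 1) * f.size p = 16 / 9 * ((16 / 9) ^ k * f.size p) := by ring
        _ ≤ 2 * f.size (P k) := by nlinarith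
        _ ≤ _ := by nlinarith [h.2.2]
  let Q : unitInterval := ⟨p + ε / 2, by linarith [p.2.1], by linarith⟩
  obtain ⟨k, hk⟩ := pow_unbounded_of_one_lt (f.size Q) (by norm_num : (1 : ℝ) < 16 / 9)
  have hQ : (Q : ℝ) < pc f.H := by simp only [Q]; linarith
  have h8 : f.size (P k) ≤ f.size Q :=
    ENNReal.toReal_mono (f.top_ne_top hQ) (f.top_mono (hr k).2)
  nlinarith [hmain k, show 0 < (16 / 9 : ℝ) ^ k by positivity]

/-- The critical point is below one. -/
theorem Frame.pc_lt_one (hbound : f.TiltBound) : pc f.H < 1 := by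
  classical
  by_contra hge
  rw [not_lt] at hge
  have hpc1 : pc f.H ≤ 1 := csInf_le ⟨0, by
    rintro r (rfl | ⟨z, -, rfl⟩)
    · exact zero_le_one
    · exact z.2.1⟩ (Set.mem_insert _ _)
  have heq : pc f.H = 1 := le_antisymm hpc1 hge
  obtain ⟨A, hA, hblow⟩ := f.blowup hbound
  obtain ⟨N, hN⟩ := exists_nat_gt (2 * A ^ 2)
  have : Nonempty ι := f.connected.nonempty.map Prod.snd
  obtain ⟨i⟩ := this
  let v : ℕ → Γ × ι := fun k => (f.γ ((0 : Fin 2), true) ^ k, i)
  have hv : Function.Injective v := by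
    intro k l hkl
    have h1 := congrArg (fun u : Γ × ι => len (f.pr u)) hkl
    have h2 : ∀ k : ℕ, len (f.pr (v k)) = k := fun k => by
      simp only [v, Frame.pr, map_pow, f.hγ, letter]
      rw [show FreeGroup.mk [((0 : Fin 2), true)] = FreeGroup.of 0 from rfl, len,
        FreeGroup.toWord_of_pow, List.length_replicate]
    simpa [h2] using h1
  choose w hw using fun k : ℕ => f.connected.preconnected ((1 : Γ), i) (v k) |>.exists_path_of_dist
  let n : ℕ := (range N).sup fun k => (w k).length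
  have hn : (0 : ℝ) < n + 1 := by positivity
  let p : unitInterval := ⟨1 - 1 / (2 * (n + 1)), by
      rw [sub_nonneg, div_le_one (by positivity)]; linarith,
    by linarith [show (0 : ℝ) < 1 / (2 * (n + 1)) by positivity]⟩
  have hp1 : (p : ℝ) < pc f.H := by
    rw [heq]; simp only [p]; linarith [show (0 : ℝ) < 1 / (2 * (n + 1)) by positivity]
  have hp2 : pc f.H / 2 ≤ p := by
    rw [heq]
    have h3 : 1 / (2 * ((n : ℝ) + 1)) ≤ 1 / 2 :=
      one_div_le_one_div_of_le (by norm_num) (by linarith)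
    simp only [p]; linarith
  have hpn : 1 / 2 ≤ (p : ℝ) ^ n := by
    refine le_trans ?_ (one_add_mul_le_pow (a := -(1 / (2 * ((n : ℝ) + 1))))
      (by linarith [p.2.1, show (p : ℝ) = 1 - 1 / (2 * ((n : ℝ) + 1)) from rfl]) n)
    have h4 : (n : ℝ) * (1 / (2 * ((n : ℝ) + 1))) ≤ 1 / 2 := by
      rw [mul_one_div, div_le_iff₀ (by positivity)]; linarith
    linarith
  have hchi : ENNReal.ofReal ((p : ℝ) ^ n) * N ≤ f.top p := by
    refine le_trans ?_ (f.chi_le_top ((1 : Γ), i))
    refine le_trans ?_ (ENNReal.sum_le_tsum ((range N).image v))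
    rw [sum_image hv.injOn]
    refine le_trans (le_of_eq (by rw [sum_const, card_range, nsmul_eq_mul, mul_comm]))
      (sum_le_sum (f := fun _ => ENNReal.ofReal ((p : ℝ) ^ n)) fun k hk => ?_)
    have := f.countable
    have h := walk_joins (p := p) (w k) (le_sup (f := fun k => (w k).length) hk) {v k}
    rw [joins_singleton, joins_singleton] at h
    rw [show perc (Γ × ι) p (conn f.H (v k) (v k)) = 1 from f.tau_self f.H (v k), mul_one] at h
    exact h
  have hsz : (p : ℝ) ^ n * N ≤ f.size p := by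
    refine (ENNReal.ofReal_le_ofReal_iff (zero_le_one.trans (f.one_le_size hp1))).1 ?_
    rw [f.ofReal_size hp1, ENNReal.ofReal_mul (by positivity), ENNReal.ofReal_natCast]
    exact hchi
  have hb := hblow p hp2 hp1
  rw [heq, div_self (by linarith : (1 : ℝ) - p ≠ 0), mul_one] at hb
  have hsz2 : f.size p ≤ A ^ 2 := by
    rw [← Real.sq_sqrt (zero_le_one.trans (f.one_le_size hp1))]
    exact pow_le_pow_left₀ (Real.sqrt_nonneg _) hb 2
  nlinarith

end Vale.Agent.P165.Large
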