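import Mathlib
import Vale.Agent.P165.Large.Exponent
import Vale.Agent.P165.Product.Sprinkle

/-!
A seed: finitely many disjoint deeper copies of one half-tree, each reached inside a finite box
with a probability whose power below the critical exponent, times their number, is at least one.
-/

namespace Vale.Agent.P165.Large

open MeasureTheory
open P151 (openOcc)
open scoped ENNReal

/-- Increasing events are more likely at larger parameters. -/
lemma perc_mono {W : Type} {q q' : unitInterval} (h : (q : ℝ) ≤ q') {A : Set (Sym2 W → Bool)}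
    (hU : Up A) (hA : MeasurableSet A) : perc W q A ≤ perc W q' A := by
  rcases eq_or_lt_of_le q.2.2 with h1 | h1
  · have : q = q' := Subtype.ext (le_antisymm h (by rw [h1]; exact q'.2.2))
    rw [this]
  set t : unitInterval := ⟨((q' : ℝ) - q) / (1 - q), div_nonneg (by linarith) (by linarith),
    by rw [div_le_one (by linarith)]; linarith [q'.2.2]⟩
  have ht : Product.orQ q t = q' := Subtype.ext (by
    rw [Product.coe_orQ]
    simp only [t]
    field_simp [show (1 : ℝ) - q ≠ 0 by linarith]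
    ring)
  rw [← ht, ← Product.map_orCfg, Measure.map_apply Product.measurable_orCfg hA]
  calc perc W q A = ((perc W q).prod (perc W t)) (A ×ˢ Set.univ) := by
        rw [Measure.prod_prod, measure_univ, mul_one]
    _ ≤ _ := measure_mono fun x hx => hU x.1 _ (fun e he => by simp [Product.orCfg, he]) hx.1

variable {Γ ι : Type} [Group Γ] (f : Frame Γ ι)

/-- The connections from `z` inside `g` to the class of its translate by `b`, witnessed inside
`E`. -/
def Frame.stepWit (g : Half) (z : Γ × ι) (b : Γ) (E : Finset (Sym2 (Γ × ι))) :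
    Set (Finset (Sym2 (Γ × ι))) :=
  {s | s ∈ wit (f.inner g ⊓ f.avoid (g.shift (f.π b))) z (f.sameClass (Frame.act b z)) ∧ s ⊆ E}

/-- The data of a seed. -/
structure Seed (σ₁ : ℝ) where
  g : Half
  z : Γ × ι
  hz : z ∈ f.port g
  B : Finset Γ
  r : ℝ
  r_pos : 0 < r
  r_lt : r < 1
  count : 1 ≤ B.card * r ^ σ₁
  deep : ∀ b ∈ B, Deeper (g.shift (f.π b)) g
  disj : (B : Set Γ).PairwiseDisjoint fun b => (g.shift (f.π b)).side
  E : Γ → Finset (Sym2 (Γ × ι))
  q₀ : unitInterval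
  q₀_lt : (q₀ : ℝ) < pc f.H
  q₀_ge : pc f.H / 2 ≤ q₀
  prob : ∀ q : unitInterval, (q₀ : ℝ) ≤ q → ∀ b ∈ B,
    ENNReal.ofReal r ≤ perc (Γ × ι) q (openOcc (f.stepWit g z b (E b)))
  entryR : ℕ
  entryLen : ℕ
  entry : ∀ g' : Half, ∀ z' ∈ f.port g', ∀ w : F2, ∃ δ : Γ, Deeper (g.shift (f.π δ)) g' ∧
    (∀ u ∈ (g.shift (f.π δ)).side, lcp (g'.base⁻¹ * u).toWord w.toWord ≤ entryR) ∧
    ∃ v ∈ f.sameClass (Frame.act δ z),
      ∃ p : (f.inner g' ⊓ f.avoid (g.shift (f.π δ))).Walk z' v, p.length ≤ entryLen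

/-- A large sum of powers forces one dyadic level with many members. -/
lemma exists_level {α : Type} (A : Finset α) (v : α → ℝ) (hv : ∀ a ∈ A, v a ≤ 1)
    (hv0 : ∀ a ∈ A, 0 ≤ v a) {σ₁ σ₂ K : ℝ} (hσ0 : 0 < σ₂) (hσ : σ₁ < σ₂) (hK : 0 ≤ K)
    (hsum : K * (2 : ℝ) ^ σ₁ / (1 - (1 / 2 : ℝ) ^ (σ₂ - σ₁)) < ∑ a ∈ A, v a ^ σ₂) :
    ∃ j : ℕ, K < (A.filter fun a => (1 / 2 : ℝ) ^ (j + 1) < v a).card *
      ((1 / 2 : ℝ) ^ (j + 1)) ^ σ₁ := by
  classical
  by_contra hn
  push Not at hn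
  have hlev : ∀ a, ∃ j : ℕ, a ∈ A → 0 < v a →
      (1 / 2 : ℝ) ^ (j + 1) < v a ∧ v a ≤ (1 / 2 : ℝ) ^ j := by
    intro a
    by_cases h : a ∈ A ∧ 0 < v a
    · obtain ⟨j, hj⟩ := exists_nat_pow_near_of_lt_one h.2 (hv a h.1) (by norm_num : (0 : ℝ) < 1 / 2)
        (by norm_num)
      exact ⟨j, fun _ _ => hj⟩
    · exact ⟨0, fun h1 h2 => absurd ⟨h1, h2⟩ h⟩
  choose J hJ using hlev
  set A' := A.filter fun a => 0 < v a
  set x : ℝ := (1 / 2 : ℝ) ^ (σ₂ - σ₁) with hx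
  have hx0 : 0 ≤ x := (Real.rpow_pos_of_pos (by norm_num) _).le
  have hx1 : x < 1 := Real.rpow_lt_one (by norm_num) (by norm_num) (by linarith)
  have h1 : ∑ a ∈ A, v a ^ σ₂ = ∑ a ∈ A', v a ^ σ₂ := by
    rw [Finset.sum_filter_of_ne]
    intro a ha hne
    rcases (hv0 a ha).lt_or_eq with h | h
    · exact h
    · exact absurd (by rw [← h, Real.zero_rpow hσ0.ne']) hne
  have h2 : ∀ j, ∑ a ∈ A'.filter (fun a => J a = j), v a ^ σ₂ ≤ K * (2 : ℝ) ^ σ₁ * x ^ j := by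
    intro j
    refine (Finset.sum_le_card_nsmul _ _ (((1 / 2 : ℝ) ^ j) ^ σ₂) fun a ha => ?_).trans ?_
    · obtain ⟨ha', rfl⟩ := Finset.mem_filter.1 ha
      obtain ⟨haA, hpos⟩ := Finset.mem_filter.1 ha'
      exact Real.rpow_le_rpow (hv0 a haA) (hJ a haA hpos).2 hσ0.le
    · rw [nsmul_eq_mul]
      have hcard : ((A'.filter fun a => J a = j).card : ℝ)
          ≤ (A.filter fun a => (1 / 2 : ℝ) ^ (j + 1) < v a).card := by
        refine Nat.cast_le.2 (Finset.card_le_card fun a ha => ?_)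
        obtain ⟨ha', rfl⟩ := Finset.mem_filter.1 ha
        obtain ⟨haA, hpos⟩ := Finset.mem_filter.1 ha'
        exact Finset.mem_filter.2 ⟨haA, (hJ a haA hpos).1⟩
      have key : ((1 / 2 : ℝ) ^ j) ^ σ₂
          = ((1 / 2 : ℝ) ^ (j + 1)) ^ σ₁ * ((2 : ℝ) ^ σ₁ * x ^ j) := by
        rw [← mul_assoc, ← Real.mul_rpow (by positivity) (by norm_num), hx,
          ← Real.rpow_natCast ((1 / 2 : ℝ) ^ (σ₂ - σ₁)) j, ← Real.rpow_mul (by norm_num),
          show ((1 / 2 : ℝ) ^ (j + 1) * 2) = (1 / 2 : ℝ) ^ j by rw [pow_succ]; ring,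
          ← Real.rpow_natCast (1 / 2 : ℝ) j, ← Real.rpow_mul (by norm_num),
          ← Real.rpow_mul (by norm_num), ← Real.rpow_add (by norm_num)]
        congr 1; ring
      rw [key, ← mul_assoc]
      calc _ ≤ ((A.filter fun a => (1 / 2 : ℝ) ^ (j + 1) < v a).card : ℝ)
              * ((1 / 2 : ℝ) ^ (j + 1)) ^ σ₁ * ((2 : ℝ) ^ σ₁ * x ^ j) := by
            gcongr
        _ ≤ K * ((2 : ℝ) ^ σ₁ * x ^ j) := by gcongr; exact hn j
        _ = _ := by ring
  have h3 : ∑ a ∈ A', v a ^ σ₂ ≤ K * (2 : ℝ) ^ σ₁ / (1 - x) := by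
    rw [← Finset.sum_fiberwise_of_maps_to (g := J) (t := A'.image J)
      fun a ha => Finset.mem_image_of_mem _ ha]
    refine (Finset.sum_le_sum fun j _ => h2 j).trans ?_
    rw [← Finset.mul_sum, div_eq_mul_inv]
    refine mul_le_mul_of_nonneg_left ?_ (by positivity)
    rw [← tsum_geometric_of_lt_one hx0 hx1]
    exact (summable_geometric_of_lt_one hx0 hx1).sum_le_tsum _ fun j _ => by positivity
  linarith

/-- Below the critical exponent there are seeds. -/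
theorem Frame.exists_seed [Finite ι] [Nonempty ι] (hpc : 0 < pc f.H) {σ₁ σ₂ : ℝ} (hσ0 : 0 < σ₁)
    (hσ : σ₁ < σ₂) (hbad : ¬f.Good σ₂) : Nonempty (Seed f σ₁) := by
  classical
  have := f.countable
  simp only [Frame.Good, not_forall, not_not] at hbad
  obtain ⟨q, hq, hqlt, htop⟩ := hbad
  have hqpos : (0 : ℝ) < q := lt_of_lt_of_le (half_pos hpc) hq
  obtain ⟨R, M, hadv⟩ := f.advance 0
  obtain ⟨n, hn, hcls⟩ := f.exists_class
  obtain ⟨C, hC⟩ := f.exists_classes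
  obtain ⟨Bf, hBf⟩ := mem_ballFin R
  set c : ℝ := (q : ℝ) ^ M / (2 * n) with hc
  have hc0 : 0 < c := by positivity
  set K : ℝ := ((Fintype.card Letter * C.card : ℕ) + 1) * (c ^ σ₁)⁻¹ with hK
  have hK0 : 0 ≤ K := by positivity
  set D : ℝ := K * (2 : ℝ) ^ σ₁ / (1 - (1 / 2 : ℝ) ^ (σ₂ - σ₁)) with hD
  have hlt : ENNReal.ofReal D + Bf.card < f.growth q σ₂ := by
    rw [htop]
    exact (ENNReal.add_lt_top.2 ⟨ENNReal.ofReal_lt_top, ENNReal.natCast_lt_top _⟩)
  simp only [Frame.growth, lt_iSup_iff] at hlt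
  obtain ⟨h, y, A, hA, hsum⟩ := hlt
  set Af := A.filter fun g => Far g h.op.base R
  have hsum' : D < ∑ g ∈ Af, (f.meet q h g (y : Γ × ι) (f.port g)).toReal ^ σ₂ := by
    have h1 : ∑ g ∈ A.filter (fun g => ¬Far g h.op.base R),
        f.meet q h g (y : Γ × ι) (f.port g) ^ σ₂ ≤ Bf.card := by
      refine le_trans (Finset.sum_le_sum fun g _ => ENNReal.rpow_le_one
        (f.meet_le_one q h g y _) (by linarith)) ?_
      rw [Finset.sum_const, nsmul_one]
      exact_mod_cast card_not_far hA.1 fun u hu => (hBf u).2 hu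
    rw [← Finset.sum_filter_add_sum_filter_not A (fun g => Far g h.op.base R)] at hsum
    have h2 : ENNReal.ofReal D < ∑ g ∈ Af, f.meet q h g (y : Γ × ι) (f.port g) ^ σ₂ := by
      by_contra hle
      exact absurd hsum (not_lt.2 (add_le_add (not_lt.1 hle) h1))
    have h3 : ∑ g ∈ Af, f.meet q h g (y : Γ × ι) (f.port g) ^ σ₂ = ENNReal.ofReal
        (∑ g ∈ Af, (f.meet q h g (y : Γ × ι) (f.port g)).toReal ^ σ₂) := by
      rw [ENNReal.ofReal_sum_of_nonneg fun g _ => Real.rpow_nonneg ENNReal.toReal_nonneg _]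
      refine Finset.sum_congr rfl fun g _ => ?_
      rw [← ENNReal.ofReal_rpow_of_nonneg ENNReal.toReal_nonneg (by linarith),
        ENNReal.ofReal_toReal (ne_top_of_le_ne_top ENNReal.one_ne_top (f.meet_le_one ..))]
    rw [h3] at h2
    exact lt_of_not_ge fun hle => absurd h2 (not_lt.2 (ENNReal.ofReal_le_ofReal hle))
  obtain ⟨j, hj⟩ := exists_level Af _ (fun g _ => ENNReal.toReal_le_of_le_ofReal zero_le_one
    (by simpa using f.meet_le_one q h g y _)) (fun g _ => ENNReal.toReal_nonneg)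
    (by linarith) hσ hK0 hsum'
  set w : ℝ := (1 / 2 : ℝ) ^ (j + 1) with hw
  have hw0 : 0 < w := by positivity
  set G := Af.filter fun g => w < (f.meet q h g (y : Γ × ι) (f.port g)).toReal
  have hz : ∀ g, ∃ z ∈ f.port g, f.meet q h g (y : Γ × ι) (f.port g)
      ≤ n * f.meet q h g y (f.sameClass z) := fun g => hcls q h g y
  choose z hz hzle using hz
  have hkey : ∀ g, ∃ p : Letter × (F2 × ι), p ∈ Finset.univ ×ˢ C ∧ p.1 = g.dir ∧
      f.pr (z g) = g.base * p.2.1 ∧ (z g).2 = p.2.2 := by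
    intro g
    obtain ⟨p, hp, hp'⟩ := hC g (z g) (hz g)
    exact ⟨(g.dir, p), Finset.mem_product.2 ⟨Finset.mem_univ _, hp⟩, rfl,
      by simpa [Frame.pr, f.π_sec] using hp'.1, hp'.2⟩
  choose key hkey using hkey
  set N := Fintype.card Letter * C.card
  have hG : K < G.card * w ^ σ₁ := hj
  have hfib : ∃ p ∈ (Finset.univ : Finset Letter) ×ˢ C,
      (G.card : ℝ) ≤ (N + 1) * (G.filter fun g => key g = p).card ∧
      (G.filter fun g => key g = p).Nonempty := by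
    have hGne : G.Nonempty := by
      rw [← Finset.card_pos]
      by_contra h0
      rw [Nat.eq_zero_of_not_pos h0, Nat.cast_zero, zero_mul] at hG
      linarith
    obtain ⟨g₀, hg₀⟩ := hGne
    obtain ⟨p, hp, hmax⟩ := ((Finset.univ : Finset Letter) ×ˢ C).exists_max_image
      (fun p => (G.filter fun g => key g = p).card) ⟨key g₀, (hkey g₀).1⟩
    refine ⟨p, hp, ?_, ?_⟩
    · have h1 := Finset.card_le_mul_card_image_of_maps_to (s := G) (f := key)
        (t := (Finset.univ : Finset Letter) ×ˢ C) (fun g _ => (hkey g).1) _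
        (fun b hb => hmax b hb)
      rw [Finset.card_product, Finset.card_univ] at h1
      have : (G.card : ℝ) ≤ N * (G.filter fun g => key g = p).card := by
        rw [mul_comm] at h1
        exact_mod_cast h1
      nlinarith [(Nat.cast_nonneg (α := ℝ) (G.filter fun g => key g = p).card)]
    · refine Finset.card_pos.1 (lt_of_lt_of_le ?_ (hmax _ (hkey g₀).1))
      exact Finset.card_pos.2 ⟨g₀, Finset.mem_filter.2 ⟨hg₀, rfl⟩⟩
  obtain ⟨p, -, hpcard, g₀, hg₀⟩ := hfib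
  set G' := G.filter fun g => key g = p
  obtain ⟨γ, -, -, hrest⟩ := hadv g₀ (z g₀) (hz g₀) h y y.2 1
  let b : Half → Γ := fun g => γ * f.sec (g.base * g₀.base⁻¹)
  have hdir : ∀ g ∈ G', g.dir = g₀.dir := fun g hg => by
    rw [← (hkey g).2.1, ← (hkey g₀).2.1, (Finset.mem_filter.1 hg).2, (Finset.mem_filter.1 hg₀).2]
  have hshift : ∀ g ∈ G', g₀.shift (f.π (b g)) = g.shift (f.π γ) := fun g hg => by
    simp [Half.shift, b, f.π_sec, mul_assoc, hdir g hg]
  have hmem : ∀ g ∈ G', g ∈ A ∧ Far g h.op.base R ∧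
      w < (f.meet q h g (y : Γ × ι) (f.port g)).toReal := fun g hg => by
    obtain ⟨h1, h2⟩ := Finset.mem_filter.1 (Finset.mem_filter.1 hg).1
    exact ⟨(Finset.mem_filter.1 h1).1, (Finset.mem_filter.1 h1).2, h2⟩
  have hfacts : ∀ g ∈ G', Deeper (g₀.shift (f.π (b g))) g₀ ∧ ENNReal.ofReal (2 * (c * w)) ≤
      perc (Γ × ι) q (joins (f.inner g₀ ⊓ f.avoid (g₀.shift (f.π (b g)))) (z g₀)
        (f.sameClass (Frame.act (b g) (z g₀)))) := by
    intro g hg
    obtain ⟨hgA, hfar, hgw⟩ := hmem g hg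
    obtain ⟨-, hdeep, -, -, hprob⟩ := hrest g (hA.2 g hgA) hfar
    rw [hshift g hg]
    refine ⟨hdeep, le_trans ?_ (hprob q (f.sameClass (z g)) _ ?_)⟩
    · have h1 : ENNReal.ofReal w ≤ n * f.meet q h g y (f.sameClass (z g)) :=
        le_trans (ENNReal.ofReal_le_iff_le_toReal (ne_top_of_le_ne_top ENNReal.one_ne_top
          (f.meet_le_one ..)) |>.2 hgw.le) (hzle g)
      have hn' : (n : ℝ≥0∞) ≠ 0 := by exact_mod_cast hn.ne'
      calc ENNReal.ofReal (2 * (c * w))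
          = ENNReal.ofReal ((q : ℝ) ^ M) * (ENNReal.ofReal w / n) := by
            rw [← ENNReal.ofReal_natCast, ← ENNReal.ofReal_div_of_pos (by exact_mod_cast hn),
              ← ENNReal.ofReal_mul (by positivity)]
            congr 1
            rw [hc]; field_simp
        _ ≤ _ := mul_le_mul_right (ENNReal.div_le_of_le_mul (by rwa [mul_comm] at h1)) _
    · rintro _ ⟨v, hv, rfl⟩
      refine ⟨?_, ?_⟩
      · rw [f.pr_act, f.pr_act, hv.1, (hkey g).2.2.1, (hkey g₀).2.2.1,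
          (Finset.mem_filter.1 hg).2, (Finset.mem_filter.1 hg₀).2]
        simp [b, f.π_sec, mul_assoc]
      · show v.2 = (z g₀).2
        rw [hv.2, (hkey g).2.2.2, (hkey g₀).2.2.2,
          (Finset.mem_filter.1 hg).2, (Finset.mem_filter.1 hg₀).2]
  have hinj : Set.InjOn b G' := fun g hg g' hg' he => by
    have h1 := hshift g hg
    rw [he, hshift g' hg'] at h1
    simp only [Half.shift, Half.mk.injEq, mul_right_inj] at h1
    exact Half.ext h1.1.symm h1.2.symm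
  have hbox : ∀ β : Γ, ∃ E : Finset (Sym2 (Γ × ι)), β ∈ G'.image b →
      ENNReal.ofReal (c * w) ≤ perc (Γ × ι) q (openOcc (f.stepWit g₀ (z g₀) β E)) := by
    intro β
    by_cases hβ : β ∈ G'.image b
    · obtain ⟨g, hg, rfl⟩ := Finset.mem_image.1 hβ
      set K' := f.inner g₀ ⊓ f.avoid (g₀.shift (f.π (b g)))
      set T := f.sameClass (Frame.act (b g) (z g₀))
      have hU : joins K' (z g₀) T = ⋃ E, openOcc (f.stepWit g₀ (z g₀) (b g) E) := by
        refine Set.Subset.antisymm (fun ω ⟨s, hs, ho⟩ => Set.mem_iUnion.2 ⟨s, s, ⟨hs, subset_rfl⟩,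
          ho⟩) (Set.iUnion_subset fun E ω ⟨s, hs, ho⟩ => ⟨s, hs.1, ho⟩)
      have hlt : ENNReal.ofReal (c * w) < perc (Γ × ι) q (joins K' (z g₀) T) := by
        refine lt_of_lt_of_le ((ENNReal.ofReal_lt_ofReal_iff (by positivity)).2 ?_) (hfacts g hg).2
        linarith [mul_pos hc0 hw0]
      have hdir' : Directed (· ⊆ ·) fun E => openOcc (f.stepWit g₀ (z g₀) (b g) E) :=
        fun E E' => ⟨E ∪ E',
          fun ω ⟨s, hs, ho⟩ => ⟨s, ⟨hs.1, hs.2.trans Finset.subset_union_left⟩, ho⟩,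
          fun ω ⟨s, hs, ho⟩ => ⟨s, ⟨hs.1, hs.2.trans Finset.subset_union_right⟩, ho⟩⟩
      rw [hU, hdir'.measure_iUnion, lt_iSup_iff] at hlt
      obtain ⟨E, hE⟩ := hlt
      exact ⟨E, fun _ => hE.le⟩
    · exact ⟨∅, fun h' => absurd h' hβ⟩
  choose E hE using hbox
  obtain ⟨hg₀A, hg₀far, hg₀w⟩ := hmem g₀ hg₀
  obtain ⟨v₀, hv₀, p₀, -⟩ : ∃ v₀ ∈ f.sameClass (z g₀),
      ∃ p₀ : (f.avoid h ⊓ f.avoid g₀).Walk (y : Γ × ι) v₀, True := by
    have h1 : f.meet q h g₀ y (f.sameClass (z g₀)) ≠ 0 := fun h0 => by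
      have h2 := hzle g₀
      rw [h0, mul_zero, nonpos_iff_eq_zero] at h2
      rw [h2, ENNReal.toReal_zero] at hg₀w
      linarith
    obtain ⟨ω, hω⟩ := nonempty_of_measure_ne_zero h1
    obtain ⟨v, hv, hc⟩ := mem_joins.1 hω
    obtain ⟨p₀, -⟩ := exists_path_of_mem_conn hc
    exact ⟨v, hv, p₀, trivial⟩
  have hentry : ∀ g' : Half, ∀ z' ∈ f.port g', ∀ u : F2, ∃ δ : Γ,
      Deeper (g₀.shift (f.π δ)) g' ∧
      (∀ x ∈ (g₀.shift (f.π δ)).side, lcp (g'.base⁻¹ * x).toWord u.toWord ≤ R) ∧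
      ∃ v ∈ f.sameClass (Frame.act δ (z g₀)),
        ∃ p : (f.inner g' ⊓ f.avoid (g₀.shift (f.π δ))).Walk z' v,
          p.length ≤ M + p₀.length := by
    intro g' z' hz' u
    obtain ⟨δ, -, hav, hrest'⟩ := hadv g' z' hz' h y y.2 u
    obtain ⟨-, hdeep, hlcp, ⟨p₁, hp₁⟩, -⟩ := hrest' g₀ (hA.2 g₀ hg₀A) hg₀far
    let φ : f.avoid h ⊓ f.avoid g₀ →g f.inner g' ⊓ f.avoid (g₀.shift (f.π δ)) :=
      { toFun := Frame.act δ
        map_rel' := fun {a b} hab =>
          ⟨hav ((f.avoid_act δ h a b).2 hab.1), (f.avoid_act δ g₀ a b).2 hab.2⟩ }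
    refine ⟨δ, hdeep, fun x hx => (hlcp x hx).2, Frame.act δ v₀,
      ⟨by rw [f.pr_act, f.pr_act, hv₀.1], hv₀.2⟩, p₁.append (p₀.map φ), ?_⟩
    rw [SimpleGraph.Walk.length_append, SimpleGraph.Walk.length_map]
    exact Nat.add_le_add_right hp₁ _
  have hqc : (q : ℝ) ^ M ≤ 1 := pow_le_one₀ q.2.1 q.2.2
  refine ⟨⟨g₀, z g₀, hz g₀, G'.image b, c * w, by positivity, ?_, ?_, ?_, ?_, E, q, hqlt, hq,
    fun q' hq' β hβ => (hE β hβ).trans (perc_mono hq' (up_openOcc _) ?_), R, _, hentry⟩⟩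
  · have h1 : c ≤ 1 := by
      rw [hc, div_le_one (by positivity)]
      have : (1 : ℝ) ≤ n := by exact_mod_cast hn
      linarith
    have h2 : w < 1 := pow_lt_one₀ (by norm_num) (by norm_num) (Nat.succ_ne_zero _)
    nlinarith
  · rw [Finset.card_image_of_injOn hinj, Real.mul_rpow hc0.le hw0.le]
    have hNN : (0 : ℝ) < (N : ℝ) + 1 := by positivity
    have hcs : 0 < c ^ σ₁ := Real.rpow_pos_of_pos hc0 _
    have : ((N : ℝ) + 1) * (c ^ σ₁)⁻¹ < ((N : ℝ) + 1) * (G'.card : ℝ) * w ^ σ₁ :=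
      lt_of_lt_of_le hG (mul_le_mul_of_nonneg_right hpcard (Real.rpow_nonneg hw0.le _))
    rw [mul_assoc] at this
    have h3 := lt_of_mul_lt_mul_left this hNN.le
    rw [inv_lt_iff_one_lt_mul₀ hcs] at h3
    linarith [h3]
  · intro β hβ
    obtain ⟨g, hg, rfl⟩ := Finset.mem_image.1 hβ
    exact (hfacts g hg).1
  · intro β hβ β' hβ' hne
    obtain ⟨g, hg, rfl⟩ := Finset.mem_image.1 (Finset.mem_coe.1 hβ)
    obtain ⟨g', hg', rfl⟩ := Finset.mem_image.1 (Finset.mem_coe.1 hβ')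
    have hd := hA.1 (hmem g hg).1 (hmem g' hg').1 fun h' => hne (h' ▸ rfl)
    show Disjoint (g₀.shift (f.π (b g))).side (g₀.shift (f.π (b g'))).side
    rw [hshift g hg, hshift g' hg']
    refine Set.disjoint_left.2 fun u hu hu' => ?_
    have h1 : (f.π γ)⁻¹ * u ∈ g.side := by
      rw [← shift_mem_side (g := f.π γ)]; simpa using hu
    have h2 : (f.π γ)⁻¹ * u ∈ g'.side := by
      rw [← shift_mem_side (g := f.π γ)]; simpa using hu'
    exact Set.disjoint_left.1 hd h1 h2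
  · exact (meas_openOcc (S := Set.univ) fun s _ => Set.subset_univ _).measurableSet

end Vale.Agent.P165.Large
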