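import Mathlib
import Vale.Agent.P165.Large.Seed
import Vale.Agent.P165.Large.Amp

/-!
Chains of seed steps as stages of the amplifier: many port points spread to each leaf of a tree of
seed steps.
-/

namespace Vale.Agent.P165.Large

open MeasureTheory
open P151 (openOcc)
open scoped ENNReal

variable {Γ ι : Type} [Group Γ] (f : Frame Γ ι)

/-- The permutations of the vertices by the kernel of the projection. -/
def Frame.kerAct : f.π.ker →* Equiv.Perm (Γ × ι) := Frame.actHom.comp f.π.ker.subtype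

lemma Frame.kerAct_apply (ν : f.π.ker) (v : Γ × ι) : f.kerAct ν v = Frame.act (ν : Γ) v := rfl

lemma Frame.π_ker (ν : f.π.ker) : f.π (ν : Γ) = 1 := ν.2

lemma Deeper.trans {a b c : Half} (h₁ : Deeper a b) (h₂ : Deeper b c) : Deeper a c :=
  ⟨h₁.1.trans h₂.1, fun u hu => (h₁.2 u hu).trans (h₂.2 u (h₁.1 hu))⟩

/-- An event with witnesses inside a finite set of edges. -/
def boxEvent (K : SimpleGraph (Γ × ι)) (R : Finset (Sym2 (Γ × ι))) (a c : Γ × ι) :
    Set (Sym2 (Γ × ι) → Bool) :=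
  openOcc {s | s ∈ wit K a {c} ∧ s ⊆ R}

lemma dep_boxEvent (K : SimpleGraph (Γ × ι)) (R : Finset (Sym2 (Γ × ι))) (a c : Γ × ι) :
    Dep (boxEvent K R a c) R := fun _ _ he ⟨s, hs, ho⟩ =>
  ⟨s, hs, fun e hm => (he e (hs.2 hm)).symm.trans (ho e hm)⟩

open Classical in
/-- One element of a set, if there is one. -/
noncomputable def pickOne {α : Type} (P : Set α) : Option α :=
  if h : P.Nonempty then some h.some else none

open Classical in
/-- The stage from `a` to the kernel translates of `c` inside `K` and `R`. -/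
noncomputable def Frame.stage (K : SimpleGraph (Γ × ι)) (R : Finset (Sym2 (Γ × ι)))
    (a c : Γ × ι) : Stage (Γ × ι) f.π.ker where
  R := R.filter fun e => e ∈ K.edgeSet
  next ω := pickOne {κ : f.π.ker |
    ω ∈ boxEvent K (R.filter fun e => e ∈ K.edgeSet) a (f.kerAct κ c)}
  dep := by
    intro o ω ω' he h
    refine (Eq.symm ?_).trans h
    refine congrArg pickOne (Set.ext fun κ => ?_)
    exact ⟨dep_boxEvent _ _ _ _ ω ω' he,
      dep_boxEvent _ _ _ _ ω' ω fun e hm => (he e hm).symm⟩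

lemma Frame.stage_R (K : SimpleGraph (Γ × ι)) (R : Finset (Sym2 (Γ × ι))) (a c : Γ × ι) :
    ∀ e ∈ (f.stage K R a c).R, e ∈ R ∧ e ∈ K.edgeSet := fun e he => by
  simp only [Frame.stage, Finset.mem_filter] at he
  exact he

lemma mem_edges {W N : Type} [Group N] {σ : N →* Equiv.Perm W} {T : Stage W N} {ν : N}
    {e : Sym2 W} : e ∈ T.edges σ ν ↔ ∃ a ∈ T.R, Sym2.map (σ ν) a = e := by
  simp [Stage.edges]

lemma Frame.stage_mass {q : unitInterval} {K : SimpleGraph (Γ × ι)}
    {R : Finset (Sym2 (Γ × ι))} {a c : Γ × ι} {r : ℝ}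
    (h : ENNReal.ofReal r ≤
      perc (Γ × ι) q (openOcc {s | s ∈ wit K a (f.sameClass c) ∧ s ⊆ R})) :
    r ≤ (f.stage K R a c).mass q := by
  classical
  rw [Stage.mass, measureReal_def, ← ENNReal.ofReal_le_iff_le_toReal (measure_ne_top _ _)]
  refine h.trans (measure_mono ?_)
  rintro ω ⟨s, ⟨⟨y, hy, p, hp⟩, hsR⟩, ho⟩
  obtain ⟨ν, hν, rfl⟩ := f.eq_act_of_sameClass hy
  have hex : ∃ κ : f.π.ker,
      ω ∈ boxEvent K (R.filter fun e => e ∈ K.edgeSet) a (f.kerAct κ c) :=
    ⟨⟨ν, hν⟩, s, ⟨⟨_, rfl, p, hp⟩, fun e he =>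
      Finset.mem_filter.2 ⟨hsR he, p.edges_subset_edgeSet ((hp e).1 he)⟩⟩, ho⟩
  have hne : Set.Nonempty {κ : f.π.ker |
      ω ∈ boxEvent K (R.filter fun e => e ∈ K.edgeSet) a (f.kerAct κ c)} := hex
  simp only [Frame.stage, Set.mem_ofPred_eq, pickOne, dif_pos hne]
  exact Option.some_ne_none _

lemma Frame.stage_next {K : SimpleGraph (Γ × ι)} {R : Finset (Sym2 (Γ × ι))} {a c : Γ × ι}
    {ω : Sym2 (Γ × ι) → Bool} {κ : f.π.ker} (h : (f.stage K R a c).next ω = some κ) :
    ω ∈ conn K a (f.kerAct κ c) := by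
  classical
  simp only [Frame.stage, pickOne] at h
  split_ifs at h with hex
  obtain ⟨s, ⟨⟨y, rfl, p, hp⟩, -⟩, ho⟩ := Option.some_inj.1 h ▸ hex.some_mem
  exact reachable_openGraph_of_walk p fun e he => ho e ((hp e).2 he)

/-- Connections survive translation back from the viewed configuration. -/
lemma Frame.conn_translate {K : SimpleGraph (Γ × ι)} (ν : f.π.ker)
    (hK : ∀ u v, K.Adj (f.kerAct ν u) (f.kerAct ν v) ↔ K.Adj u v)
    {ω : Sym2 (Γ × ι) → Bool} {a c : Γ × ι} (h : translate f.kerAct ν ω ∈ conn K a c) :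
    ω ∈ conn K (f.kerAct ν a) (f.kerAct ν c) := by
  let φ : openGraph K (translate f.kerAct ν ω) →g openGraph K ω :=
    { toFun := f.kerAct ν
      map_rel' := fun {a b} hab => ⟨(hK a b).2 hab.1, hab.2⟩ }
  exact SimpleGraph.Reachable.map φ h

lemma Frame.inner_inv (ν : f.π.ker) (g : Half) (u v : Γ × ι) :
    (f.inner g).Adj (f.kerAct ν u) (f.kerAct ν v) ↔ (f.inner g).Adj u v := by
  have hV : ∀ w, f.kerAct ν w ∈ f.Vs g ↔ w ∈ f.Vs g := fun w => by
    have := f.Vs_act (ν : Γ) g w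
    rwa [f.π_ker, Half.shift_one] at this
  exact and_congr (f.adj_act (ν : Γ)) (and_congr (hV u) (hV v))

lemma Frame.avoid_inv (ν : f.π.ker) (g : Half) (u v : Γ × ι) :
    (f.avoid g).Adj (f.kerAct ν u) (f.kerAct ν v) ↔ (f.avoid g).Adj u v := by
  have := f.avoid_act (ν : Γ) g u v
  rwa [f.π_ker, Half.shift_one] at this

variable {f} {σ₁ : ℝ} (S : Seed f σ₁)

/-- The half-tree of the seed at the node `β`. -/
def Seed.node (β : Γ) : Half := S.g.shift (f.π β)

lemma Seed.deeper_node {β : Γ} {b : Γ} (hb : b ∈ S.B) :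
    Deeper (S.node (β * b)) (S.node β) := by
  have h := S.deep b hb
  have he : S.node (β * b) = (S.g.shift (f.π b)).shift (f.π β) := by
    simp [Seed.node, Half.shift, mul_assoc]
  rw [he]
  refine ⟨fun u hu => ?_, fun u hu => ?_⟩
  · have h1 : (f.π β)⁻¹ * u ∈ (S.g.shift (f.π b)).side := by
      rw [← shift_mem_side (g := f.π β)]; simpa using hu
    simpa [Seed.node] using (shift_mem_side (g := f.π β)).2 (h.1 h1)
  · have h1 : (f.π β)⁻¹ * u ∈ (S.g.shift (f.π b)).side := by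
      rw [← shift_mem_side (g := f.π β)]; simpa using hu
    simpa [Seed.node, Half.shift, mul_assoc] using h.2 _ h1

lemma Seed.deeper_prod : ∀ (l : List Γ) (β : Γ), (∀ b ∈ l, b ∈ S.B) →
    Deeper (S.node (β * l.prod)) (S.node β)
  | [], β, _ => by simp only [List.prod_nil, mul_one]; exact ⟨subset_rfl, fun _ _ => le_rfl⟩
  | b :: l, β, h => by
    rw [List.prod_cons, ← mul_assoc]
    exact (Seed.deeper_prod l (β * b) fun c hc => h c (List.mem_cons_of_mem _ hc)).trans
      (S.deeper_node (h b List.mem_cons_self))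

/-- The stage from the node `β` to its child by `b`. -/
noncomputable def Seed.step (β b : Γ) : Stage (Γ × ι) f.π.ker := by
  classical
  exact f.stage (f.inner (S.node β) ⊓ f.avoid (S.node (β * b)))
    ((S.E b).image (Sym2.map (Frame.act β))) (Frame.act β S.z) (Frame.act (β * b) S.z)

/-- The stages along a word of seed steps. -/
noncomputable def Seed.chain : Γ → List Γ → List (Stage (Γ × ι) f.π.ker)
  | _, [] => []
  | β, b :: l => S.step β b :: Seed.chain (β * b) l

lemma Seed.length_chain : ∀ (l : List Γ) (β : Γ), (S.chain β l).length = l.length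
  | [], _ => rfl
  | b :: l, β => by simp [Seed.chain, Seed.length_chain l]

lemma Seed.step_mass {q : unitInterval} (hq : (S.q₀ : ℝ) ≤ q) {β b : Γ} (hb : b ∈ S.B) :
    S.r ≤ (S.step β b).mass q := by
  classical
  have := f.countable
  refine f.stage_mass ((S.prob q hq b hb).trans ?_)
  set K' := f.inner (S.node β) ⊓ f.avoid (S.node (β * b))
  conv_lhs => rw [← perc_map (p := q) (Frame.actEquiv β)]
  rw [Measure.map_apply (measurable_pi_lambda _ fun e => measurable_pi_apply _)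
    (meas_openOcc (S := Set.univ) fun s _ => Set.subset_univ _).measurableSet]
  refine measure_mono ?_
  rintro ω ⟨s, ⟨⟨y, hy, p, hp⟩, hsE⟩, ho⟩
  let φ : f.inner S.g ⊓ f.avoid (S.g.shift (f.π b)) →g K' :=
    { toFun := Frame.act β
      map_rel' := fun {u v} huv => by
        refine ⟨⟨(f.adj_act β).2 huv.1.1, f.act_mem_Vs huv.1.2.1, f.act_mem_Vs huv.1.2.2⟩, ?_⟩
        have he : S.node (β * b) = (S.g.shift (f.π b)).shift (f.π β) := by
          simp [Seed.node, Half.shift, mul_assoc]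
        rw [he]
        exact (f.avoid_act β _ u v).2 huv.2 }
  refine ⟨s.image (Sym2.map (Frame.act β)), ⟨⟨Frame.act β y, ?_, p.map φ, fun e => ?_⟩,
    Finset.image_subset_image hsE⟩, fun e he => ?_⟩
  · exact ⟨by simp [f.pr_act, hy.1, mul_assoc], hy.2⟩
  · rw [SimpleGraph.Walk.edges_map, Finset.mem_image, List.mem_map]
    exact ⟨fun ⟨a, h1, h2⟩ => ⟨a, (hp a).1 h1, h2⟩, fun ⟨a, h1, h2⟩ => ⟨a, (hp a).2 h1, h2⟩⟩
  · obtain ⟨a, ha, rfl⟩ := Finset.mem_image.1 he
    exact ho a ha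

lemma Seed.step_edges {β b : Γ} (ν : f.π.ker) : ∀ e ∈ (S.step β b).edges f.kerAct ν,
    e ∈ (f.inner (S.node β) ⊓ f.avoid (S.node (β * b))).edgeSet := by
  classical
  intro e he
  obtain ⟨a, ha, rfl⟩ := mem_edges.1 he
  have h := (f.stage_R _ _ _ _ a ha).2
  induction a using Sym2.ind with
  | _ u v => exact ⟨(f.inner_inv ν _ u v).2 h.1, (f.avoid_inv ν _ u v).2 h.2⟩

lemma Seed.chain_mem : ∀ (l : List Γ) (β : Γ), (∀ b ∈ l, b ∈ S.B) → ∀ T ∈ S.chain β l,
    ∃ β' b, b ∈ S.B ∧ Deeper (S.node β') (S.node β) ∧ T = S.step β' b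
  | [], _, _, T, hT => by simp [Seed.chain] at hT
  | b :: l, β, h, T, hT => by
    rcases List.mem_cons.1 hT with rfl | hT
    · exact ⟨β, b, h b List.mem_cons_self, ⟨subset_rfl, fun _ _ => le_rfl⟩, rfl⟩
    · obtain ⟨β', b', h1, h2, h3⟩ :=
        Seed.chain_mem l (β * b) (fun c hc => h c (List.mem_cons_of_mem _ hc)) T hT
      exact ⟨β', b', h1, h2.trans (S.deeper_node (h b List.mem_cons_self)), h3⟩

lemma Seed.chain_separated : ∀ (l : List Γ) (β : Γ), (∀ b ∈ l, b ∈ S.B) →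
    Separated f.kerAct (S.chain β l)
  | [], _, _ => List.Pairwise.nil
  | b :: l, β, h => by
    refine List.pairwise_cons.2 ⟨fun T hT ν ν' => ?_,
      Seed.chain_separated l (β * b) fun c hc => h c (List.mem_cons_of_mem _ hc)⟩
    obtain ⟨β', b', -, hd, rfl⟩ :=
      S.chain_mem l (β * b) (fun c hc => h c (List.mem_cons_of_mem _ hc)) T hT
    refine Finset.disjoint_left.2 fun e he he' => ?_
    have h1 := S.step_edges ν e he
    have h2 := S.step_edges ν' e he'
    induction e using Sym2.ind with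
    | _ u v => exact h1.2.2 ⟨f.Vs_mono hd h2.1.2.1, f.Vs_mono hd h2.1.2.2⟩

lemma Seed.chain_survive : ∀ (l : List Γ) (β : Γ) (ν : f.π.ker) (ω : Sym2 (Γ × ι) → Bool),
    (∀ b ∈ l, b ∈ S.B) → ω ∈ survive f.kerAct (S.chain β l) ν →
    ∃ κ : f.π.ker, ω ∈ conn (f.inner (S.node β) ⊓ f.avoid (S.node (β * l.prod)))
      (f.kerAct ν (Frame.act β S.z)) (f.kerAct κ (Frame.act (β * l.prod) S.z))
  | [], β, ν, ω, _, _ => ⟨ν, by rw [List.prod_nil, mul_one]; exact SimpleGraph.Reachable.refl _⟩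
  | b :: l, β, ν, ω, h, hω => by
    obtain ⟨κ, hκ, hrest⟩ := hω
    have hl : ∀ c ∈ l, c ∈ S.B := fun c hc => h c (List.mem_cons_of_mem _ hc)
    obtain ⟨κ', hκ'⟩ := Seed.chain_survive l (β * b) (ν * κ) ω hl hrest
    have h1 := f.conn_translate ν (fun u v => and_congr (f.inner_inv ν _ u v) (f.avoid_inv ν _ u v))
      (f.stage_next hκ)
    have hbd := S.deeper_node (β := β) (h b List.mem_cons_self)
    have hld := S.deeper_prod l (β * b) hl
    rw [List.prod_cons, ← mul_assoc]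
    refine ⟨κ', SimpleGraph.Reachable.trans (v := f.kerAct (ν * κ) (Frame.act (β * b) S.z)) ?_ ?_⟩
    · have e : f.kerAct (ν * κ) (Frame.act (β * b) S.z)
          = f.kerAct ν (f.kerAct κ (Frame.act (β * b) S.z)) := by
        rw [map_mul]; rfl
      rw [e]
      refine SimpleGraph.Reachable.mono ?_ h1
      intro u v huv
      exact ⟨⟨huv.1.1, f.avoid_anti hld huv.1.2⟩, huv.2⟩
    · refine SimpleGraph.Reachable.mono ?_ hκ'
      intro u v huv
      exact ⟨⟨⟨huv.1.1.1, f.Vs_mono hbd huv.1.1.2.1, f.Vs_mono hbd huv.1.1.2.2⟩, huv.1.2⟩, huv.2⟩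

/-- The overlaps of a finite set of edges with its kernel translates. -/
lemma Frame.exists_overlap (R : Finset (Sym2 (Γ × ι))) :
    ∃ Ω : Finset f.π.ker, Ω.card ≤ 4 * R.card ^ 2 ∧
      ∀ κ ∉ Ω, ∀ a ∈ R, Sym2.map (f.kerAct κ) a ∉ R := by
  classical
  let V := R.biUnion Sym2.toFinset
  have hV : V.card ≤ R.card * 2 := Finset.card_biUnion_le_card_mul _ _ _ fun e _ => by
    rw [Sym2.card_toFinset]; split_ifs <;> omega
  let P := (V ×ˢ V).image fun x : (Γ × ι) × (Γ × ι) => x.1.1 * x.2.1⁻¹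
  refine ⟨P.preimage Subtype.val Subtype.val_injective.injOn, ?_, fun κ hκ a ha ha' => ?_⟩
  · rw [Finset.card_preimage]
    refine (Finset.card_filter_le _ _).trans (Finset.card_image_le.trans ?_)
    rw [Finset.card_product]
    nlinarith
  · refine hκ (Finset.mem_preimage.2 (Finset.mem_image.2 ?_))
    induction a using Sym2.ind with
    | _ u v =>
      refine ⟨(f.kerAct κ u, u), Finset.mem_product.2 ⟨Finset.mem_biUnion.2 ⟨_, ha', ?_⟩,
        Finset.mem_biUnion.2 ⟨_, ha, ?_⟩⟩, ?_⟩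
      · simp
      · simp
      · simp [f.kerAct_apply, Frame.act]

/-- A bound for the overlaps of every stage. -/
noncomputable def Seed.om : ℕ := 4 * (S.entryLen + ∑ b ∈ S.B, (S.E b).card) ^ 2

/-- The first stage, along a fixed walk from the port. -/
noncomputable def entryStage (f : Frame Γ ι) {K : SimpleGraph (Γ × ι)} {a v : Γ × ι}
    (p : K.Walk a v) (c : Γ × ι) : Stage (Γ × ι) f.π.ker := by
  classical exact f.stage K p.edges.toFinset a c

/-- Enough port points reach a leaf with probability one half. -/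
theorem Seed.amplify {q : unitInterval} (hq : (S.q₀ : ℝ) ≤ q) (hq0 : 0 < (q : ℝ)) {g' : Half}
    {z' v : Γ × ι} {δ : Γ} (hd : Deeper (S.node δ) g') (hv : v ∈ f.sameClass (Frame.act δ S.z))
    (p : (f.inner g' ⊓ f.avoid (S.node δ)).Walk z' v) (hp : p.length ≤ S.entryLen)
    (l : List Γ) (hl : ∀ b ∈ l, b ∈ S.B) {J : Finset f.π.ker}
    (hJ : 2 * ((l.length + 1) * S.om : ℝ) ≤ J.card * ((q : ℝ) ^ S.entryLen * S.r ^ l.length))
    (hJne : J.Nonempty) :
    ENNReal.ofReal (1 / 2) ≤ perc (Γ × ι) q (⋃ ν ∈ J, joins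
      ((f.inner g' ⊓ SimpleGraph.fromEdgeSet {e | ∃ ν : f.π.ker, ∃ a ∈ p.edges,
          Sym2.map (f.kerAct ν) a = e}) ⊔
        (f.inner (S.node δ) ⊓ f.avoid (S.node (δ * l.prod))))
      (f.kerAct ν z') (f.sameClass (Frame.act (δ * l.prod) S.z))) := by
  classical
  have := f.countable
  set S₀ := entryStage f p (Frame.act δ S.z)
  set L := S₀ :: S.chain δ l
  have hmass0 : (q : ℝ) ^ S.entryLen ≤ S₀.mass q := by
    refine f.stage_mass (le_trans (le_trans ?_ (perc_allOpen p.edges.toFinset).ge) (measure_mono ?_))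
    · exact ENNReal.ofReal_le_ofReal (pow_le_pow_of_le_one q.2.1 q.2.2
        ((List.toFinset_card_le _).trans (by simpa using hp)))
    · intro ω hω
      exact ⟨p.edges.toFinset, ⟨⟨v, hv, p, fun e => List.mem_toFinset⟩, subset_rfl⟩, hω⟩
  have hr1 : (q : ℝ) ^ S.entryLen * S.r ^ l.length ≤ prodMass q L := by
    rw [prodMass]
    refine mul_le_mul hmass0 ?_ (pow_nonneg S.r_pos.le _) S₀.mass_nonneg
    have := pow_le_prodMass (p := q) S.r_pos.le (S.chain δ l) fun T hT => by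
      obtain ⟨β', b, hb, -, rfl⟩ := S.chain_mem l δ hl T hT
      exact S.step_mass hq hb
    rwa [S.length_chain] at this
  have hsep : Separated f.kerAct L := by
    refine List.pairwise_cons.2 ⟨fun T hT ν ν' => ?_, S.chain_separated l δ hl⟩
    obtain ⟨β', b, -, hd', rfl⟩ := S.chain_mem l δ hl T hT
    refine Finset.disjoint_left.2 fun e he he' => ?_
    obtain ⟨a, ha, rfl⟩ := mem_edges.1 he
    have h1 := (f.stage_R _ _ _ _ a ha).2
    have h2 := S.step_edges ν' _ he'
    induction a using Sym2.ind with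
    | _ u w =>
      have h1' := (f.avoid_inv ν _ u w).2 h1.2
      exact h1'.2 ⟨f.Vs_mono hd' h2.1.2.1, f.Vs_mono hd' h2.1.2.2⟩
  have hΩ : ∀ T ∈ L, ∃ Ω : Finset f.π.ker, Ω.card ≤ S.om ∧
      ∀ κ ∉ Ω, Disjoint T.R (T.edges f.kerAct κ) := by
    intro T hT
    obtain ⟨Ω, hΩ, hfar⟩ := Frame.exists_overlap (f := f) T.R
    have hcard : T.R.card ≤ S.entryLen + ∑ b ∈ S.B, (S.E b).card := by
      rcases List.mem_cons.1 hT with rfl | hT
      · refine le_trans (Finset.card_le_card fun e he => (f.stage_R _ _ _ _ e he).1) ?_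
        exact le_trans (List.toFinset_card_le _) (by simp only [SimpleGraph.Walk.length_edges]; omega)
      · obtain ⟨β', b, hb, -, rfl⟩ := S.chain_mem l δ hl T hT
        refine le_trans (Finset.card_le_card fun e he => (f.stage_R _ _ _ _ e he).1) ?_
        exact Finset.card_image_le.trans
          (le_add_left (Finset.single_le_sum (f := fun b => (S.E b).card) (fun _ _ => Nat.zero_le _) hb))
    refine ⟨Ω, hΩ.trans ?_, fun κ hκ => Finset.disjoint_left.2 fun e he he' => ?_⟩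
    · exact Nat.mul_le_mul_left _ (Nat.pow_le_pow_left hcard 2)
    · obtain ⟨a, ha, rfl⟩ := mem_edges.1 he'
      exact hfar κ hκ a ha he
  have hpow : 0 < prodMass q L :=
    lt_of_lt_of_le (mul_pos (pow_pos hq0 _) (pow_pos S.r_pos _)) hr1
  have hdie := amplify_bound f.kerAct L hsep hΩ hJne hpow
  have hL : (L.length : ℝ) = l.length + 1 := by simp [L, S.length_chain]
  have hhalf : (perc (Γ × ι) q).real {ω | ∀ ν ∈ J, ω ∉ survive f.kerAct L ν} ≤ 1 / 2 := by
    refine hdie.trans ((div_le_iff₀ (mul_pos (Nat.cast_pos.2 hJne.card_pos) hpow)).2 ?_)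
    have h3 := mul_le_mul_of_nonneg_left hr1 (Nat.cast_nonneg (α := ℝ) J.card)
    rw [hL]
    nlinarith
  have hms : MeasurableSet (⋃ ν ∈ J, survive f.kerAct L ν) :=
    Finset.measurableSet_biUnion _ fun ν _ => measurableSet_survive _ _ _
  have hge : (1 / 2 : ℝ) ≤ (perc (Γ × ι) q).real (⋃ ν ∈ J, survive f.kerAct L ν) := by
    have e : {ω | ∀ ν ∈ J, ω ∉ survive f.kerAct L ν} = (⋃ ν ∈ J, survive f.kerAct L ν)ᶜ := by
      ext ω; simp
    rw [e, probReal_compl_eq_one_sub hms] at hhalf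
    linarith
  rw [measureReal_def, ← ENNReal.ofReal_le_iff_le_toReal (measure_ne_top _ _)] at hge
  refine hge.trans (measure_mono (Set.iUnion₂_mono fun ν _ => ?_))
  intro ω hω
  obtain ⟨κ, hκ, hrest⟩ := hω
  obtain ⟨κ', hκ'⟩ := S.chain_survive l δ (ν * κ) ω hl hrest
  refine mem_joins.2 ⟨f.kerAct κ' (Frame.act (δ * l.prod) S.z),
    ⟨by simp [f.kerAct_apply, f.pr_act, f.π_ker], rfl⟩, ?_⟩
  set K₁ := f.inner g' ⊓ SimpleGraph.fromEdgeSet {e | ∃ ν : f.π.ker, ∃ a ∈ p.edges,
    Sym2.map (f.kerAct ν) a = e}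
  refine SimpleGraph.Reachable.trans (v := f.kerAct (ν * κ) (Frame.act δ S.z)) ?_
    (SimpleGraph.Reachable.mono
      (show openGraph (f.inner (S.node δ) ⊓ f.avoid (S.node (δ * l.prod))) ω ≤ openGraph (K₁ ⊔
        (f.inner (S.node δ) ⊓ f.avoid (S.node (δ * l.prod)))) ω from
          fun u w h => ⟨Or.inr h.1, h.2⟩) hκ')
  have h1 : translate f.kerAct ν ω ∈ conn ((f.inner g' ⊓ f.avoid (S.node δ)) ⊓ SimpleGraph.fromEdgeSet {e | e ∈ p.edges}) z'
      (f.kerAct κ (Frame.act δ S.z)) := by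
    simp only [S₀, entryStage, Frame.stage, pickOne] at hκ
    split_ifs at hκ with hex
    obtain ⟨s, ⟨⟨y, rfl, r, hr⟩, hsR⟩, ho⟩ := Option.some_inj.1 hκ ▸ hex.some_mem
    refine reachable_openGraph_of_walk (r.transfer _ fun e he => ?_) fun e he => ho e ((hr e).2 ?_)
    · have h0 := hsR ((hr e).2 he)
      simp only [Finset.mem_filter] at h0
      have h' := h0.1
      have h'' := r.edges_subset_edgeSet he
      induction e using Sym2.ind with
      | _ u w => exact ⟨h'', List.mem_toFinset.1 h', h''.1.1.ne⟩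
    · simpa using he
  have e : f.kerAct (ν * κ) (Frame.act δ S.z)
      = f.kerAct ν (f.kerAct κ (Frame.act δ S.z)) := by rw [map_mul]; rfl
  rw [e]
  let φ : openGraph ((f.inner g' ⊓ f.avoid (S.node δ)) ⊓ SimpleGraph.fromEdgeSet {e | e ∈ p.edges}) (translate f.kerAct ν ω) →g
      openGraph (K₁ ⊔ (f.inner (S.node δ) ⊓ f.avoid (S.node (δ * l.prod)))) ω :=
    { toFun := f.kerAct ν
      map_rel' := fun {u w} huw => ⟨Or.inl ⟨(f.inner_inv ν _ u w).2 huw.1.1.1,
        ⟨ν, s(u, w), huw.1.2.1, rfl⟩, fun hne => huw.1.2.2 ((f.kerAct ν).injective hne)⟩, huw.2⟩ }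
  exact SimpleGraph.Reachable.map φ h1

end Vale.Agent.P165.Large
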