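import Mathlib
import Vale.Agent.P165.Large.Boost

/-!
A small sprinkling at most doubles the tilted susceptibility.
-/

namespace Vale.Agent.P165.Large

open MeasureTheory Finset
open Product (orQ orCfg comp connIn)
open scoped ENNReal

variable {W : Type} {p h : unitInterval}

/-- Events on disjoint sets of edges stay independent in the sprinkled pair of configurations. -/
lemma prod_inter_or {A B D : Set (Sym2 W → Bool)} {S T : Finset (Sym2 W)} (hA : Dep A S)
    (hB : Dep B S) (hD : Dep D T) (hST : Disjoint S T) :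
    ((perc W p).prod (perc W h)) (A ×ˢ B ∩ orCfg ⁻¹' D)
      = perc W p A * perc W h B * perc W (orQ p h) D := by
  classical
  let cyl : (T → Bool) → Set (Sym2 W → Bool) := fun σ => T.restrict ⁻¹' {σ}
  let I : Finset ((T → Bool) × (T → Bool)) :=
    univ.filter fun σ => (fun e => σ.1 e || σ.2 e) ∈ T.restrict '' D
  have hcd : ∀ σ, Dep (cyl σ) T := by
    intro σ ω ω' hag hω
    have : T.restrict ω' = T.restrict ω := funext fun e => (hag e e.2).symm
    simpa [cyl, this] using hω
  have hpre : orCfg ⁻¹' D = ⋃ σ ∈ I, cyl σ.1 ×ˢ cyl σ.2 := by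
    ext z
    conv_lhs => rw [hD.eq_preimage]
    simp only [Set.mem_preimage, Set.mem_iUnion, exists_prop, I, mem_filter, mem_univ, true_and,
      Set.mem_prod, cyl, Set.mem_singleton_iff]
    exact ⟨fun hm => ⟨(T.restrict z.1, T.restrict z.2), hm, rfl, rfl⟩,
      fun ⟨σ, hσ, h1, h2⟩ => by rw [← h1, ← h2] at hσ; exact hσ⟩
  have hdisj : Set.PairwiseDisjoint ↑I fun σ : (T → Bool) × (T → Bool) => cyl σ.1 ×ˢ cyl σ.2 :=
    fun σ _ τ _ hne => Set.disjoint_left.2 fun z hz hz' => hne
      (Prod.ext ((hz.1 : T.restrict z.1 = σ.1).symm.trans hz'.1)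
        ((hz.2 : T.restrict z.2 = σ.2).symm.trans hz'.2))
  have hd : Disjoint (↑S : Set (Sym2 W)) ↑T := Finset.disjoint_coe.2 hST
  have hm : ∀ σ : (T → Bool) × (T → Bool), MeasurableSet (cyl σ.1 ×ˢ cyl σ.2) := fun σ =>
    (hcd _).measurableSet.prod (hcd _).measurableSet
  rw [← Product.map_orCfg, Measure.map_apply Product.measurable_orCfg hD.measurableSet, hpre,
    Set.inter_iUnion₂, measure_biUnion_finset (fun σ hσ τ hτ hne =>
      (hdisj hσ hτ hne).mono Set.inter_subset_right Set.inter_subset_right)
    (fun σ _ => (hA.measurableSet.prod hB.measurableSet).inter (hm σ)),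
    measure_biUnion_finset hdisj fun σ _ => hm σ, mul_sum]
  refine sum_congr rfl fun σ _ => ?_
  rw [Set.prod_inter_prod, Measure.prod_prod, Measure.prod_prod,
    (meas_of_dep hA).inter_eq (meas_of_dep (hcd σ.1)) hd,
    (meas_of_dep hB).inter_eq (meas_of_dep (hcd σ.2)) hd]
  ring

variable [DecidableEq W] {H : SimpleGraph W} [H.LocallyFinite]

/-- The oriented edges inside `U`. -/
def inEdges (H : SimpleGraph W) [H.LocallyFinite] (U : Finset W) : Finset (W × W) :=
  U.biUnion fun a => (H.neighborFinset a ∩ U).image fun b => (a, b)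

lemma mem_inEdges {U : Finset W} {e : W × W} :
    e ∈ inEdges H U ↔ e.1 ∈ U ∧ e.2 ∈ U ∧ H.Adj e.1 e.2 := by
  obtain ⟨a, b⟩ := e
  simp only [inEdges, mem_biUnion, mem_image, mem_inter, SimpleGraph.mem_neighborFinset,
    Prod.mk.injEq]
  exact ⟨fun ⟨a', ha, b', ⟨h1, h2⟩, e1, e2⟩ => by subst e1 e2; exact ⟨ha, h2, h1⟩,
    fun ⟨h1, h2, h3⟩ => ⟨a, h1, b, ⟨h3, h2⟩, rfl, rfl⟩⟩

omit [DecidableEq W] [H.LocallyFinite] in
lemma connIn_trivial {U : Finset W} {x y : W} (hx : x ∉ U) {ω : Sym2 W → Bool}
    (h : ω ∈ connIn H U x y) : y = x := by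
  obtain ⟨q⟩ := h
  cases q with
  | nil => rfl
  | cons h q => exact absurd h.1.2.1 hx

/-- The last step out of the cluster at the smaller parameter. -/
theorem sprinkle_le (U : Finset W) (x y : W) :
    perc W (orQ p h) (connIn H U x y) ≤ perc W p (connIn H U x y)
      + ∑ e ∈ inEdges H U, ENNReal.ofReal h * perc W p (connIn H U x e.1)
          * perc W (orQ p h) (connIn H U e.2 y) := by
  classical
  by_cases hx : x ∈ U
  swap
  · refine le_add_of_le_left ?_
    by_cases hyx : y = x
    · subst hyx
      refine le_of_le_of_eq prob_le_one (Eq.symm ?_)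
      have : connIn H U y y = Set.univ :=
        Set.eq_univ_of_forall fun ω => SimpleGraph.Reachable.refl _
      rw [this, measure_univ]
    · rw [Set.eq_empty_iff_forall_notMem.2 fun ω hω => hyx (connIn_trivial hx hω)]
      simp
  set A : Finset W → Set (Sym2 W → Bool) := fun C => {ω | comp H U x ω = C} with hA
  have hAm : ∀ C, MeasurableSet (A C) := fun C => (Product.dep_comp U C hx).measurableSet
  let I : Finset W → Finset (W × W) := fun C =>
    (inEdges H U).filter fun e => e.1 ∈ C ∧ e.2 ∉ C
  let F : Finset W → W × W → Set ((Sym2 W → Bool) × (Sym2 W → Bool)) := fun C e =>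
    A C ×ˢ allOpen {s(e.1, e.2)} ∩ orCfg ⁻¹' connIn H (U \ C) e.2 y
  have hcover : orCfg ⁻¹' connIn H U x y
      ⊆ (connIn H U x y ×ˢ Set.univ) ∪ ⋃ C ∈ U.powerset, ⋃ e ∈ I C, F C e := by
    rintro ⟨ω, η⟩ hω
    have hyU : y ∈ U := Product.mem_of_connIn hx hω
    by_cases hy : y ∈ comp H U x ω
    · exact Or.inl ⟨(mem_filter.1 hy).2, trivial⟩
    right
    obtain ⟨q⟩ := hω
    rcases Product.last_exit q hy with ⟨hn, -⟩ | ⟨a, b, ha, hb, hab, hop, hc⟩
    · exact absurd (mem_filter.2 ⟨hx, SimpleGraph.Reachable.refl _⟩) hn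
    have hbU : b ∈ U := (mem_sdiff.1 (Product.mem_of_connIn (mem_sdiff.2 ⟨hyU, hy⟩)
      (SimpleGraph.Reachable.symm hc))).1
    have haU : a ∈ U := (mem_filter.1 ha).1
    have hη : η s(a, b) = true := by
      have hω' : ω s(a, b) ≠ true := fun ho => hb (mem_filter.2 ⟨hbU, (mem_filter.1 ha).2.trans
        (SimpleGraph.Adj.reachable (G := openGraph (Product.inG H U) ω) ⟨⟨hab, haU, hbU⟩, ho⟩)⟩)
      simpa [orCfg, hω'] using hop
    simp only [Set.mem_iUnion, exists_prop]
    exact ⟨comp H U x ω, mem_powerset.2 (filter_subset _ _), (a, b),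
      mem_filter.2 ⟨mem_inEdges.2 ⟨haU, hbU, hab⟩, ha, hb⟩,
      ⟨rfl, by simpa [allOpen] using hη⟩, hc⟩
  have hF : ∀ C, ∀ e ∈ I C, ((perc W p).prod (perc W h)) (F C e)
      ≤ perc W p (A C) * (ENNReal.ofReal h * perc W (orQ p h) (connIn H U e.2 y)) := by
    intro C e he
    obtain ⟨he1, heC, -⟩ := mem_filter.1 he
    have hd : Disjoint ((U.sym2.filter fun f => ∃ v ∈ C, v ∈ f) ∪ {s(e.1, e.2)}) (U \ C).sym2 := by
      refine disjoint_left.2 fun z hz hz' => ?_
      rcases mem_union.1 hz with hz | hz
      · obtain ⟨-, v, hv, hvz⟩ := mem_filter.1 hz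
        exact (mem_sdiff.1 (mem_sym2_iff.1 hz' v hvz)).2 hv
      · rw [mem_singleton] at hz
        exact (mem_sdiff.1 (mk_mem_sym2_iff.1 (hz ▸ hz')).1).2 heC
    rw [prod_inter_or ((Product.dep_comp U C hx).mono subset_union_left)
      ((dep_allOpen _).mono subset_union_right) (Product.dep_connIn _ _ _) hd, mul_assoc]
    refine mul_le_mul_right (mul_le_mul' (le_of_eq ?_) (measure_mono fun ω hω =>
      Product.connIn_mono sdiff_subset (fun _ h => h) hω)) _
    rw [perc_allOpen]; simp
  rw [← Product.map_orCfg,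
    Measure.map_apply Product.measurable_orCfg (Product.measurableSet_connIn U x y)]
  refine (measure_mono hcover).trans ((measure_union_le _ _).trans (add_le_add ?_ ?_))
  · rw [Measure.prod_prod, measure_univ, mul_one]
  refine ((measure_biUnion_finset_le _ _).trans (sum_le_sum fun C _ =>
    (measure_biUnion_finset_le _ _).trans (sum_le_sum (hF C)))).trans ?_
  rw [Product.map_orCfg]
  simp only [I, sum_filter]
  rw [sum_comm]
  refine sum_le_sum fun e _ => ?_
  rw [← sum_filter, ← sum_mul, ← measure_biUnion_finset (fun C _ C' _ hne =>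
    Set.disjoint_left.2 fun ω h1 h2 => hne (h1.symm.trans h2)) fun C _ => hAm C,
    mul_comm (ENNReal.ofReal h) (perc W p _), mul_assoc]
  refine mul_le_mul_left (measure_mono ?_) _
  intro ω hω
  simp only [Set.mem_iUnion, mem_filter, exists_prop] at hω
  obtain ⟨C, ⟨-, heC, -⟩, hC⟩ := hω
  rw [← (hC : comp H U x ω = C)] at heC
  exact (mem_filter.1 heC).2

variable {Γ ι : Type} [Group Γ] (f : Frame Γ ι)

/-- After a small sprinkling the tilted two-point function is bounded. -/
theorem Frame.tilt_extend [DecidableEq (Γ × ι)] {D : ℕ}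
    (hD : ∀ v, (f.H.neighborFinset v).card ≤ D) {t M : ℝ} (ht1 : 1 ≤ t) (ht2 : t ≤ 2)
    (hM : f.TiltLe p t M) (hsmall : (h : ℝ) * D * 2 ^ f.L * M ≤ 1 / 2) (P : F2) (x y : Γ × ι) :
    f.tau (orQ p h) f.H x y * f.rho t P x y ≤ ENNReal.ofReal (2 * M) := by
  classical
  have := f.countable
  have ht0 : 0 < t := by linarith
  have hrow : ∀ x, ∑' y, f.tau p f.H x y * f.rho t P x y ≤ ENNReal.ofReal M := f' hM ht0
  have hM1 : 1 ≤ M := by
    have := hM P x {x}
    have hs : conn f.H x x = Set.univ :=
      Set.eq_univ_of_forall fun ω => SimpleGraph.Reachable.refl _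
    simpa [hs] using this
  let F : Finset (Γ × ι) → Γ × ι → ℝ≥0∞ := fun U x =>
    ∑' y, perc (Γ × ι) (orQ p h) (connIn f.H U x y) * f.rho t P x y
  have hbound : ∀ U, ∀ x, F U x ≤ ENNReal.ofReal (2 * M) := by
    intro U
    set G := ⨆ x, F U x with hG
    have hGfin : G ≠ ⊤ := by
      refine ne_top_of_le_ne_top (b := 1 + ∑ a ∈ U, ∑ y ∈ U, f.rho t P a y) ?_ (iSup_le fun a => ?_)
      · exact ENNReal.add_ne_top.2 ⟨ENNReal.one_ne_top, ENNReal.sum_ne_top.2 fun a _ =>
          ENNReal.sum_ne_top.2 fun y _ => ENNReal.ofReal_ne_top⟩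
      · by_cases ha : a ∈ U
        · refine le_trans ?_ (le_trans (single_le_sum (f := fun a => ∑ y ∈ U, f.rho t P a y)
            (fun _ _ => zero_le) ha) le_add_self)
          simp only [F]
          rw [tsum_eq_sum (s := U) fun y hy => by
            rw [Set.eq_empty_iff_forall_notMem.2 fun ω hω => hy (Product.mem_of_connIn ha hω)]
            simp]
          exact sum_le_sum fun y _ => mul_le_of_le_one_left zero_le prob_le_one
        · refine le_trans ?_ le_self_add
          simp only [F]
          rw [tsum_eq_single a fun y hy => by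
            rw [Set.eq_empty_iff_forall_notMem.2 fun ω hω => hy (connIn_trivial ha hω)]
            simp, f.rho_self, mul_one]
          exact prob_le_one
    have hstep : ∀ x, F U x ≤ ENNReal.ofReal M
        + ENNReal.ofReal (h * D * 2 ^ f.L * M) * G := by
      intro x
      calc F U x ≤ ∑' y, (f.tau p f.H x y * f.rho t P x y
            + ∑ e ∈ inEdges f.H U, ENNReal.ofReal h * ENNReal.ofReal (2 ^ f.L)
              * (f.tau p f.H x e.1 * f.rho t P x e.1)
              * (perc (Γ × ι) (orQ p h) (connIn f.H U e.2 y) * f.rho t P e.2 y)) := by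
            refine ENNReal.tsum_le_tsum fun y => ?_
            refine (mul_le_mul_left (sprinkle_le U x y) _).trans ?_
            rw [add_mul, sum_mul]
            refine add_le_add (mul_le_mul_left (measure_mono (Product.connIn_subset_conn U x y)) _)
              (sum_le_sum fun e he => ?_)
            obtain ⟨-, -, hab⟩ := mem_inEdges.1 he
            rw [← f.rho_mul ht0 P x e.1 y, ← f.rho_mul ht0 P e.1 e.2 y]
            calc ENNReal.ofReal h * perc (Γ × ι) p (connIn f.H U x e.1)
                    * perc (Γ × ι) (orQ p h) (connIn f.H U e.2 y)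
                    * (f.rho t P x e.1 * (f.rho t P e.1 e.2 * f.rho t P e.2 y))
                = ENNReal.ofReal h * f.rho t P e.1 e.2
                    * (perc (Γ × ι) p (connIn f.H U x e.1) * f.rho t P x e.1)
                    * (perc (Γ × ι) (orQ p h) (connIn f.H U e.2 y) * f.rho t P e.2 y) := by ring
              _ ≤ _ := by
                  gcongr
                  · exact f.rho_adj_le ht1 ht2 P hab
                  · exact measure_mono (Product.connIn_subset_conn U x e.1)
        _ ≤ ENNReal.ofReal M + ∑ e ∈ inEdges f.H U, ENNReal.ofReal h * ENNReal.ofReal (2 ^ f.L)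
              * (f.tau p f.H x e.1 * f.rho t P x e.1) * G := by
            rw [ENNReal.tsum_add, Summable.tsum_finsetSum fun e _ => ENNReal.summable]
            refine add_le_add (hrow x) (sum_le_sum fun e _ => ?_)
            rw [ENNReal.tsum_mul_left]
            exact mul_le_mul_right (le_iSup (F U) e.2) _
        _ ≤ _ := by
            refine add_le_add le_rfl ?_
            rw [← sum_mul, ← mul_sum]
            refine mul_le_mul_left ?_ _
            have hD' : ∑ e ∈ inEdges f.H U, f.tau p f.H x e.1 * f.rho t P x e.1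
                ≤ D * ENNReal.ofReal M := by
              rw [inEdges, sum_biUnion fun a _ a' _ hne => disjoint_left.2 fun e h h' => by
                obtain ⟨_, _, rfl⟩ := mem_image.1 h
                obtain ⟨_, _, h2⟩ := mem_image.1 h'
                exact hne (Prod.ext_iff.1 h2).1.symm]
              calc ∑ a ∈ U, ∑ e ∈ (f.H.neighborFinset a ∩ U).image (fun b => (a, b)),
                    f.tau p f.H x e.1 * f.rho t P x e.1
                  ≤ ∑ a ∈ U, (D : ℝ≥0∞) * (f.tau p f.H x a * f.rho t P x a) := by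
                    refine sum_le_sum fun a _ => ?_
                    rw [sum_image fun b _ b' _ hb => (Prod.ext_iff.1 hb).2]
                    simp only [sum_const, nsmul_eq_mul]
                    refine mul_le_mul_left ?_ _
                    exact_mod_cast (card_le_card inter_subset_left).trans (hD a)
                _ ≤ _ := by
                    rw [← mul_sum]
                    exact mul_le_mul_right ((ENNReal.sum_le_tsum U).trans (hrow x)) _
            refine (mul_le_mul_right hD' _).trans (le_of_eq ?_)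
            have h2L : (0 : ℝ) ≤ 2 ^ f.L := by positivity
            rw [← ENNReal.ofReal_natCast D, ← ENNReal.ofReal_mul h.2.1,
              ← ENNReal.ofReal_mul (Nat.cast_nonneg _),
              ← ENNReal.ofReal_mul (mul_nonneg h.2.1 h2L)]
            congr 1; ring
    have hG2 : G ≤ ENNReal.ofReal M + ENNReal.ofReal (1 / 2) * G := iSup_le fun x =>
      (hstep x).trans (add_le_add le_rfl (mul_le_mul_left (ENNReal.ofReal_le_ofReal hsmall) _))
    intro x
    refine (le_iSup (F U) x).trans ?_
    rw [← hG, ← ENNReal.ofReal_toReal hGfin]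
    refine ENNReal.ofReal_le_ofReal ?_
    have h3 := ENNReal.toReal_mono (ENNReal.add_ne_top.2
      ⟨ENNReal.ofReal_ne_top, ENNReal.mul_ne_top ENNReal.ofReal_ne_top hGfin⟩) hG2
    rw [ENNReal.toReal_add ENNReal.ofReal_ne_top (ENNReal.mul_ne_top ENNReal.ofReal_ne_top hGfin),
      ENNReal.toReal_mul, ENNReal.toReal_ofReal (by linarith),
      ENNReal.toReal_ofReal (by norm_num)] at h3
    linarith
  have hlim : f.tau (orQ p h) f.H x y
      = ⨆ U : Finset (Γ × ι), perc (Γ × ι) (orQ p h) (connIn f.H U x y) := by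
    rw [Frame.tau, ← Directed.measure_iUnion]
    · congr 1
      refine subset_antisymm (fun ω hω => ?_)
        (Set.iUnion_subset fun U => Product.connIn_subset_conn U x y)
      obtain ⟨q⟩ := hω
      exact Set.mem_iUnion.2 ⟨q.support.toFinset,
        Product.connIn_of_walk q fun z hz => List.mem_toFinset.2 hz⟩
    · exact fun U V => ⟨U ∪ V, fun ω hω => Product.connIn_mono subset_union_left (fun _ h => h) hω,
        fun ω hω => Product.connIn_mono subset_union_right (fun _ h => h) hω⟩
  rw [hlim, ENNReal.iSup_mul]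
  exact iSup_le fun U => (ENNReal.le_tsum y).trans (hbound U x)
where
  /-- The tilted susceptibility as a sum over all vertices. -/
  f' {p : unitInterval} {t M : ℝ} (hM : f.TiltLe p t M) (ht0 : 0 < t) {P : F2} (x : Γ × ι) :
      ∑' y, f.tau p f.H x y * f.rho t P x y ≤ ENNReal.ofReal M := by
    rw [ENNReal.tsum_eq_iSup_sum]
    refine iSup_le fun T => le_trans (le_of_eq ?_) (ENNReal.ofReal_le_ofReal (hM P x T))
    rw [ENNReal.ofReal_sum_of_nonneg
      fun _ _ => mul_nonneg measureReal_nonneg (zpow_nonneg ht0.le _)]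
    refine sum_congr rfl fun y _ => ?_
    rw [ENNReal.ofReal_mul measureReal_nonneg, measureReal_def,
      ENNReal.ofReal_toReal (measure_ne_top _ _)]
    rfl

end Vale.Agent.P165.Large
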