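import Mathlib
import Vale.Agent.P165.Large.Chain

/-!
Tails: if the cluster of a vertex often holds many points of the ports of a family of half-trees,
then it spreads to many leaves, so these probabilities are small.
-/

namespace Vale.Agent.P165.Large

open MeasureTheory
open scoped ENNReal

variable {Γ ι : Type} [Group Γ] (f : Frame Γ ι)

/-- The cluster of `x` away from `g` holds at least `n` kernel translates of `z`. -/
def Frame.many (x : Γ × ι) (g : Half) (z : Γ × ι) (n : ℕ) : Set (Sym2 (Γ × ι) → Bool) :=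
  ⋃ J ∈ {J : Finset f.π.ker | n ≤ J.card}, ⋂ ν ∈ J, conn (f.avoid g) x (f.kerAct ν z)

/-- The largest sum of powers of the probabilities that `x` is joined to the ports of a code. -/
noncomputable def Frame.reach (q : unitInterval) (σ : ℝ) (x : Γ × ι) : ℝ≥0∞ :=
  ⨆ (A : Finset Half) (_ : (A : Set Half).PairwiseDisjoint Half.side ∧
      ∀ g ∈ A, f.pr x ∉ g.side),
    ∑ g ∈ A, perc (Γ × ι) q (joins (f.avoid g) x (f.port g)) ^ σ

lemma Frame.le_reach (q : unitInterval) (σ : ℝ) {x : Γ × ι} {A : Finset Half}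
    (hA : (A : Set Half).PairwiseDisjoint Half.side) (hx : ∀ g ∈ A, f.pr x ∉ g.side) :
    ∑ g ∈ A, perc (Γ × ι) q (joins (f.avoid g) x (f.port g)) ^ σ ≤ f.reach q σ x :=
  le_iSup₂_of_le A ⟨hA, hx⟩ le_rfl

lemma le_lcp : ∀ {v u w : List Letter}, v <+: u → v <+: w → v.length ≤ lcp u w := by
  intro v
  induction v with
  | nil => simp
  | cons a v ih =>
    intro u w hu hw
    obtain ⟨u', rfl⟩ := hu
    obtain ⟨w', rfl⟩ := hw
    simp only [List.cons_append, lcp, if_pos, List.length_cons]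
    exact Nat.succ_le_succ (ih (List.prefix_append _ _) (List.prefix_append _ _))

variable {f} {σ₁ : ℝ} (S : Seed f σ₁)

/-- The leaves after `i` steps, indexed by words. -/
abbrev Seed.Word (i : ℕ) := Fin i → S.B

/-- The list of a word. -/
def Seed.lst {i : ℕ} (w : S.Word i) : List Γ := List.ofFn fun s => (w s : Γ)

lemma Seed.lst_mem {i : ℕ} (w : S.Word i) : ∀ b ∈ S.lst w, b ∈ S.B := by
  intro b hb
  obtain ⟨s, rfl⟩ := List.mem_ofFn.1 hb
  exact (w s).2

lemma Seed.leaf_point (β : Γ) : f.sameClass (Frame.act β S.z) ⊆ f.port (S.node β) :=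
  f.sameClass_port ((f.port_act β S.g S.z).2 S.hz)

lemma Seed.leaf_disjoint : ∀ {i : ℕ} (δ : Γ) (w w' : S.Word i), w ≠ w' →
    Disjoint (S.node (δ * (S.lst w).prod)).side (S.node (δ * (S.lst w').prod)).side := by
  intro i
  induction i with
  | zero => exact fun δ w w' h => absurd (funext fun s => s.elim0) h
  | succ i ih =>
    intro δ w w' hne
    have he : ∀ v : S.Word (i + 1), (S.lst v).prod = (v 0 : Γ) * (S.lst (Fin.tail v)).prod :=
      fun v => by simp [Seed.lst, List.ofFn_succ, Fin.tail]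
    rw [he w, he w', ← mul_assoc, ← mul_assoc]
    by_cases h0 : w 0 = w' 0
    · rw [h0]
      refine ih _ _ _ fun ht => hne ?_
      rw [← Fin.cons_self_tail w, ← Fin.cons_self_tail w', h0, ht]
    · have hd := S.disj (w 0).2 (w' 0).2 fun h => h0 (Subtype.ext h)
      have h1 : ∀ v : S.Word (i + 1), (S.node (δ * (v 0 : Γ) * (S.lst (Fin.tail v)).prod)).side
          ⊆ (S.node (δ * (v 0 : Γ))).side :=
        fun v => (S.deeper_prod _ _ (S.lst_mem _)).1
      refine Disjoint.mono (h1 w) (h1 w') (Set.disjoint_left.2 fun u hu hu' => ?_)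
      have hb : ∀ b : Γ, S.node (δ * b) = (S.g.shift (f.π b)).shift (f.π δ) := fun b => by
        simp [Seed.node, Half.shift, mul_assoc]
      rw [hb] at hu hu'
      have h2 : (f.π δ)⁻¹ * u ∈ (S.g.shift (f.π (w 0 : Γ))).side := by
        rw [← shift_mem_side (g := f.π δ)]; simpa using hu
      have h3 : (f.π δ)⁻¹ * u ∈ (S.g.shift (f.π (w' 0 : Γ))).side := by
        rw [← shift_mem_side (g := f.π δ)]; simpa using hu'
      exact Set.disjoint_left.1 hd h2 h3

/-- From every set of at least `n` port translates the leaves at depth `i` are reached with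
probability at least `b`. -/
def Seed.Spreads (q : unitInterval) (i n : ℕ) (b : ℝ≥0∞) : Prop :=
  ∀ (g : Half) (z v : Γ × ι) (δ : Γ), Deeper (S.node δ) g → v ∈ f.sameClass (Frame.act δ S.z) →
    ∀ p : (f.inner g ⊓ f.avoid (S.node δ)).Walk z v, p.length ≤ S.entryLen →
      ∀ l : List Γ, l.length = i → (∀ c ∈ l, c ∈ S.B) → ∀ J : Finset f.π.ker, n ≤ J.card →
        b ≤ perc (Γ × ι) q (⋃ ν ∈ J, joins
          ((f.inner g ⊓ SimpleGraph.fromEdgeSet {e | ∃ ν : f.π.ker, ∃ a ∈ p.edges,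
              Sym2.map (f.kerAct ν) a = e}) ⊔
            (f.inner (S.node δ) ⊓ f.avoid (S.node (δ * l.prod))))
          (f.kerAct ν z) (f.sameClass (Frame.act (δ * l.prod) S.z)))

/-- Many starts spread with probability one half. -/
theorem Seed.spreads_half {q : unitInterval} (hq : (S.q₀ : ℝ) ≤ q) (hq0 : 0 < (q : ℝ)) {i n : ℕ}
    (hn : 0 < n) (hcond : 2 * ((i + 1) * S.om : ℝ) ≤ n * ((q : ℝ) ^ S.entryLen * S.r ^ i)) :
    S.Spreads q i n (ENNReal.ofReal (1 / 2)) := by
  intro g z v δ hd hv p hp l hli hl J hJ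
  refine S.amplify hq hq0 hd hv p hp l hl (le_trans ?_ (mul_le_mul_of_nonneg_right
    (Nat.cast_le.2 hJ) (mul_nonneg (pow_nonneg q.2.1 _) (pow_nonneg S.r_pos.le _))))
    (Finset.card_pos.1 (lt_of_lt_of_le hn hJ))
  rw [hli]
  exact hcond

/-- One start reaches the first node with a fixed probability. -/
theorem Seed.spreads_one (q : unitInterval) :
    S.Spreads q 0 1 (ENNReal.ofReal ((q : ℝ) ^ S.entryLen)) := by
  classical
  intro g z v δ hd hv p hp l hli hl J hJ
  have := f.countable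
  obtain ⟨ν, hν⟩ := Finset.card_pos.1 hJ
  obtain rfl := List.length_eq_zero_iff.1 hli
  rw [List.prod_nil, mul_one]
  refine le_trans ?_ (measure_mono (Set.subset_biUnion_of_mem
    (u := fun ν => joins _ (f.kerAct ν z) _) (Finset.mem_coe.2 hν)))
  set K := (f.inner g ⊓ SimpleGraph.fromEdgeSet {e | ∃ ν : f.π.ker, ∃ a ∈ p.edges,
      Sym2.map (f.kerAct ν) a = e}) ⊔ (f.inner (S.node δ) ⊓ f.avoid (S.node δ))
  let φ : f.inner g ⊓ f.avoid (S.node δ) →g f.inner g :=
    { toFun := f.kerAct ν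
      map_rel' := fun {a b} hab => (f.inner_inv ν _ a b).2 hab.1 }
  have hedge : ∀ e ∈ (p.map φ).edges, e ∈ K.edgeSet := by
    intro e he
    have h1 := (p.map φ).edges_subset_edgeSet he
    simp only [SimpleGraph.Walk.edges_map, List.mem_map] at he
    obtain ⟨a, ha, hae⟩ := he
    induction e using Sym2.ind with
    | _ u w => exact Or.inl ⟨h1, ⟨ν, a, ha, hae⟩, h1.1.ne⟩
  refine le_of_eq_of_le ?_ (walk_joins ((p.map φ).transfer K hedge) (M := S.entryLen)
    (by simpa using hp) _)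
  have hin : f.kerAct ν v ∈ f.sameClass (Frame.act δ S.z) :=
    ⟨by rw [f.kerAct_apply, f.pr_act, f.π_ker, one_mul]; exact hv.1, hv.2⟩
  have : joins K (φ v) (f.sameClass (Frame.act δ S.z)) = Set.univ :=
    Set.eq_univ_of_forall fun ω => mem_joins.2 ⟨_, hin, SimpleGraph.Reachable.refl _⟩
  rw [this, measure_univ, mul_one]

/-- A large cluster trace reaches each leaf. -/
theorem Seed.spread {q : unitInterval} {i n : ℕ} {b : ℝ≥0∞} (hs : S.Spreads q i n b) {x : Γ × ι}
    {g : Half} {z v : Γ × ι} {δ : Γ} (hd : Deeper (S.node δ) g)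
    (hv : v ∈ f.sameClass (Frame.act δ S.z))
    (p : (f.inner g ⊓ f.avoid (S.node δ)).Walk z v) (hp : p.length ≤ S.entryLen)
    (l : List Γ) (hli : l.length = i) (hl : ∀ b ∈ l, b ∈ S.B)
    {K : SimpleGraph (Γ × ι)} (hK₁ : f.avoid g ≤ K)
    (hK₂ : ∀ (ν : f.π.ker), ∀ a ∈ p.edges, Sym2.map (f.kerAct ν) a ∈ K.edgeSet)
    (hK₃ : f.inner (S.node δ) ⊓ f.avoid (S.node (δ * l.prod)) ≤ K) :
    perc (Γ × ι) q (f.many x g z n) * b ≤
      perc (Γ × ι) q (joins K x (f.sameClass (Frame.act (δ * l.prod) S.z))) := by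
  classical
  have := f.countable
  have : Countable Γ := Function.Injective.countable
    (f := fun γ : Γ => (γ, x.2)) fun a b h => (Prod.ext_iff.1 h).1
  set K₁ := (f.inner g ⊓ SimpleGraph.fromEdgeSet {e | ∃ ν : f.π.ker, ∃ a ∈ p.edges,
          Sym2.map (f.kerAct ν) a = e}) ⊔
        (f.inner (S.node δ) ⊓ f.avoid (S.node (δ * l.prod))) with hK₁def
  set T := f.sameClass (Frame.act (δ * l.prod) S.z)
  let A : {J : Finset f.π.ker // n ≤ J.card} → Set (Sym2 (Γ × ι) → Bool) := fun J =>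
    ⋂ ν ∈ J.1, conn (f.avoid g) x (f.kerAct ν z)
  let B : {J : Finset f.π.ker // n ≤ J.card} → Set (Sym2 (Γ × ι) → Bool) := fun J =>
    ⋃ ν ∈ J.1, joins K₁ (f.kerAct ν z) T
  have hmany : f.many x g z n = ⋃ J, A J := by
    ext ω; simp [Frame.many, A]
  have hK₁g : K₁ ≤ f.inner g := sup_le inf_le_left
    (fun a b hab => ⟨hab.1.1, f.Vs_mono hd hab.1.2.1, f.Vs_mono hd hab.1.2.2⟩)
  rw [hmany]
  refine le_trans (indep_union (S := (f.avoid g).edgeSet) (T := K₁.edgeSet)
    ((f.disjoint_inner_avoid g).symm.mono_right (SimpleGraph.edgeSet_mono hK₁g)) (A := A) (B := B)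
    (fun J => ?_) (fun J => ?_) fun J => ?_) (measure_mono ?_)
  · exact Finset.measurableSet_biInter _ fun ν _ => meas_conn _ _ _
  · exact Finset.measurableSet_biUnion _ fun ν _ => meas_joins _ _ _
  · exact hs g z v δ hd hv p hp l hli hl J J.2
  · refine Set.iUnion_subset fun J ω hω => ?_
    obtain ⟨ν, hν, hj⟩ := Set.mem_iUnion₂.1 hω.2
    obtain ⟨y, hy, hc⟩ := mem_joins.1 hj
    have hle : K₁ ≤ K := by
      refine sup_le (fun a b hab => ?_) hK₃
      obtain ⟨ν', a', ha', he⟩ := hab.2.1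
      have := hK₂ ν' a' ha'
      rwa [he] at this
    have mono : ∀ {K K' : SimpleGraph (Γ × ι)}, K ≤ K' → openGraph K ω ≤ openGraph K' ω :=
      fun h' _ _ ha => ⟨h' ha.1, ha.2⟩
    exact mem_joins.2 ⟨y, hy, SimpleGraph.Reachable.trans
      (SimpleGraph.Reachable.mono (mono hK₁) (Set.mem_iInter₂.1 hω.1 ν hν))
      (SimpleGraph.Reachable.mono (mono hle) hc)⟩

/-- The tail bound for a family whose first seed copies are disjoint. -/
theorem Seed.tail {q : unitInterval} {σ : ℝ}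
    (hσ : 0 ≤ σ) {x : Γ × ι} (A : Finset Half) (z : Half → Γ × ι) (w : Half → F2)
    (hz : ∀ g ∈ A, z g ∈ f.port g) (hx : ∀ g ∈ A, f.pr x ∉ g.side)
    (hsep : ∀ g ∈ A, ∀ g' ∈ A, g ≠ g' → ∀ u ∈ g.side, u ∈ g'.side →
      S.entryR < lcp (g.base⁻¹ * u).toWord (w g).toWord ∨
        S.entryR < lcp (g'.base⁻¹ * u).toWord (w g').toWord)
    {i n : ℕ} {b : ℝ≥0∞} (hb0 : b ≠ 0) (hb : b ≠ ⊤) (hs : S.Spreads q i n b) :
    (S.B.card : ℝ≥0∞) ^ i * ∑ g ∈ A, perc (Γ × ι) q (f.many x g (z g) n) ^ σ ≤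
      b⁻¹ ^ σ * f.reach q σ x := by
  classical
  have hex : ∀ g, ∃ δ : Γ, g ∈ A → Deeper (S.g.shift (f.π δ)) g ∧
      (∀ u ∈ (S.g.shift (f.π δ)).side,
        lcp (g.base⁻¹ * u).toWord (w g).toWord ≤ S.entryR) ∧
      ∃ v ∈ f.sameClass (Frame.act δ S.z),
        ∃ p : (f.inner g ⊓ f.avoid (S.g.shift (f.π δ))).Walk (z g) v, p.length ≤ S.entryLen := by
    intro g
    by_cases hg : g ∈ A
    · obtain ⟨δ, hδ⟩ := S.entry g (z g) (hz g hg) (w g)
      exact ⟨δ, fun _ => hδ⟩
    · exact ⟨1, fun h => absurd h hg⟩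
  choose δ hδ using hex
  let leaf : Half × S.Word i → Half := fun x => S.node (δ x.1 * (S.lst x.2).prod)
  have hsub : ∀ x ∈ A ×ˢ (Finset.univ : Finset (S.Word i)),
      (leaf x).side ⊆ (S.node (δ x.1)).side :=
    fun x _ => (S.deeper_prod _ _ (S.lst_mem _)).1
  have hdisj : ∀ x ∈ A ×ˢ (Finset.univ : Finset (S.Word i)),
      ∀ x' ∈ A ×ˢ (Finset.univ : Finset (S.Word i)), x ≠ x' →
        Disjoint (leaf x).side (leaf x').side := by
    intro x hx x' hx' hne
    have h1 := (Finset.mem_product.1 hx).1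
    have h2 := (Finset.mem_product.1 hx').1
    by_cases he : x.1 = x'.1
    · simp only [leaf, ← he]
      exact S.leaf_disjoint _ _ _ fun h => hne (Prod.ext he h)
    · refine Disjoint.mono (hsub x hx) (hsub x' hx') (Set.disjoint_left.2 fun u hu hu' => ?_)
      obtain ⟨hd, hl, -⟩ := hδ x.1 h1
      obtain ⟨hd', hl', -⟩ := hδ x'.1 h2
      rcases hsep _ h1 _ h2 he u (hd.1 hu) (hd'.1 hu') with h | h
      · exact absurd (hl u hu) (not_le.2 h)
      · exact absurd (hl' u hu') (not_le.2 h)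
  have hinj : Set.InjOn leaf ↑(A ×ˢ (Finset.univ : Finset (S.Word i))) := by
    intro x hx x' hx' he
    by_contra hne
    exact Set.disjoint_left.1 (hdisj x hx x' hx' hne) (leaf x).head_mem (he ▸ (leaf x).head_mem)
  have hr := f.le_reach q σ (x := x) (A := (A ×ˢ (Finset.univ : Finset (S.Word i))).image leaf)
    (by
      intro a ha b' hb' hab
      obtain ⟨y, hy, rfl⟩ := Finset.mem_image.1 (Finset.mem_coe.1 ha)
      obtain ⟨y', hy', rfl⟩ := Finset.mem_image.1 (Finset.mem_coe.1 hb')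
      exact hdisj y hy y' hy' fun h => hab (h ▸ rfl))
    (fun g hg => by
      obtain ⟨y, hy, rfl⟩ := Finset.mem_image.1 hg
      exact fun hu => hx y.1 (Finset.mem_product.1 hy).1
        ((hδ y.1 (Finset.mem_product.1 hy).1).1.1 (hsub y hy hu)))
  rw [Finset.sum_image hinj, Finset.sum_product] at hr
  refine le_trans ?_ (mul_le_mul_right hr _)
  rw [Finset.mul_sum, Finset.mul_sum]
  refine Finset.sum_le_sum fun g hg => ?_
  obtain ⟨hd, -, v, hv, p, hp⟩ := hδ g hg
  rw [Finset.mul_sum]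
  refine le_of_eq_of_le ?_ (Finset.sum_le_sum
    (f := fun _ => perc (Γ × ι) q (f.many x g (z g) n) ^ σ) fun w _ => ?_)
  · simp [Finset.card_univ]
  · rw [← ENNReal.mul_rpow_of_nonneg _ _ hσ]
    refine ENNReal.rpow_le_rpow ?_ hσ
    rw [← ENNReal.div_eq_inv_mul, ENNReal.le_div_iff_mul_le
      (Or.inl hb0) (Or.inl hb)]
    have hlen : (S.lst w).length = i := List.length_ofFn
    refine le_trans (S.spread hs hd hv p hp (S.lst w) hlen (S.lst_mem w)
      (K := f.avoid (leaf (g, w))) ?_ ?_ ?_)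
      (measure_mono (joins_mono le_rfl _ (S.leaf_point _)))
    · exact (f.avoid_anti hd).trans (f.avoid_anti (S.deeper_prod _ _ (S.lst_mem w)))
    · intro ν a ha
      have := p.edges_subset_edgeSet ha
      induction a using Sym2.ind with
      | _ u u' =>
        exact f.avoid_anti (S.deeper_prod _ _ (S.lst_mem w)) ((f.avoid_inv ν _ u u').2 this.2)
    · exact inf_le_right

/-- The tail bound from a port point of the half-tree itself. -/
theorem Seed.tail_port [Finite ι] {a : ℝ} (ha : 0 < a) {σ : ℝ} (hσ : 0 ≤ σ) (hσ1 : σ ≤ 1)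
    {K : ℝ≥0∞} (hK : K ≠ ⊤) :
    ∃ C : ℝ≥0∞, C ≠ ⊤ ∧ ∀ q : unitInterval, (S.q₀ : ℝ) ≤ q → a ≤ q → f.growth q σ ≤ K →
      ∀ g : Half, ∀ y ∈ f.port g, ∀ z ∈ f.port g, ∀ (i n : ℕ) (b : ℝ≥0∞), b ≠ 0 → b ≠ ⊤ →
        S.Spreads q i n b →
        (S.B.card : ℝ≥0∞) ^ i * perc (Γ × ι) q (f.many y g z n) ^ σ ≤ C * (b⁻¹ ^ σ + 1) := by
  classical
  have := f.countable
  set t := max S.entryR (f.L * S.entryLen + f.L + 1)
  set M := f.rad * (f.L + (t + 4) + f.depth + 2)
  obtain ⟨Bf, hBf⟩ := mem_ballFin (f.L + f.L * M)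
  set c : ℝ≥0∞ := ENNReal.ofReal (a ^ M)
  have hc0 : c ≠ 0 := by simp [c, pow_pos ha M]
  have hct : c ≠ ⊤ := ENNReal.ofReal_ne_top
  refine ⟨Bf.card + (c ^ σ)⁻¹ * K, ?_, fun q hq haq hgrow g y hy z hz i n b hb0 hbt hw => ?_⟩
  · exact ENNReal.add_ne_top.2 ⟨ENNReal.natCast_ne_top _,
      ENNReal.mul_ne_top (ENNReal.inv_ne_top.2 (by simp [hc0, hct])) hK⟩
  obtain ⟨h₂, -, hh₂, hgh₂, ht₁, ht₂, -, -⟩ := extend_half g.head_mem (m := t + 2)
    (by simp [len_letter]) g.dir 1
  have hh₂g : Deeper h₂ g := deeper_of_base hh₂ hgh₂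
  have hfar₂ : Far h₂ g.base t := fun u hu => by
    have := (nested hh₂ hgh₂).2 u hu
    omega
  obtain ⟨δ, hd, hl, v, hv, p, hp⟩ :=
    S.entry g z hz (g.base⁻¹ * (h₂.base * letter h₂.dir))
  have hnode : Disjoint (S.node δ).side h₂.side := by
    refine Set.disjoint_left.2 fun u hu hu' => ?_
    obtain ⟨hpre, hlen⟩ := prefix_of_nested hh₂ hgh₂ hu'
    have h1 := hl u hu
    have h2 := le_lcp hpre (List.prefix_refl _)
    change len _ ≤ _ at h2
    omega
  obtain ⟨y₂, hy₂, r, hr⟩ := f.out_port h₂ y fun hy' => by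
    have h1 := hfar₂ _ hy'.1
    have h2 := f.port_len hy
    omega
  have hrlen : r.length ≤ M := by
    refine hr.trans (Nat.mul_le_mul_left _ ?_)
    have h1 := len_dist_le h₂.base g.base (f.pr y)
    rw [len_dist_comm h₂.base g.base] at h1
    have h2 := f.port_len hy
    omega
  let leaf : S.Word i → Half := fun w => S.node (δ * (S.lst w).prod)
  set G := (Finset.univ : Finset (S.Word i)).filter fun w => Far (leaf w) g.base (f.L + f.L * M)
  have hsubn : ∀ w, (leaf w).side ⊆ (S.node δ).side :=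
    fun w => (S.deeper_prod _ _ (S.lst_mem w)).1
  have hinj : Function.Injective leaf := fun w w' he => by
    by_contra hne
    exact Set.disjoint_left.1 (S.leaf_disjoint δ w w' hne) (leaf w).head_mem
      (he ▸ (leaf w).head_mem)
  have hcode : RootCode h₂ (G.image leaf) := by
    refine ⟨fun a ha b hb hab => ?_, fun x hx => ?_⟩
    · obtain ⟨w, -, rfl⟩ := Finset.mem_image.1 (Finset.mem_coe.1 ha)
      obtain ⟨w', -, rfl⟩ := Finset.mem_image.1 (Finset.mem_coe.1 hb)
      exact S.leaf_disjoint δ w w' fun h => hab (h ▸ rfl)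
    · obtain ⟨w, -, rfl⟩ := Finset.mem_image.1 hx
      exact hnode.mono_left (hsubn w)
  set P := perc (Γ × ι) q (f.many y g z n)
  have hleaf : ∀ w ∈ G, c * b * P ≤ f.meet q h₂ (leaf w) y₂ (f.port (leaf w)) := by
    intro w hwG
    have hfarw := (Finset.mem_filter.1 hwG).2
    have hdw := S.deeper_prod _ δ (S.lst_mem w)
    have hsp := S.spread hw (x := y) hd hv p hp (S.lst w) List.length_ofFn (S.lst_mem w)
      (K := f.avoid h₂ ⊓ f.avoid (leaf w))
      (le_inf (f.avoid_anti hh₂g) ((f.avoid_anti hd).trans (f.avoid_anti hdw)))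
      (fun ν e he => by
        have hball : ∀ u ∈ p.support, len (g.base⁻¹ * f.pr u) ≤ t := by
          intro u hu
          have h1 := f.walk_len (p.mapLe (inf_le_left.trans (f.inner_le g))) u
            (by rwa [SimpleGraph.Walk.support_mapLe_eq_support])
          have h2 := len_dist_le g.base (f.pr z) (f.pr u)
          have h3 := f.port_len hz
          have h4 : f.L * (p.mapLe (inf_le_left.trans (f.inner_le g))).length
              ≤ f.L * S.entryLen :=
            Nat.mul_le_mul_left _ (by simpa [SimpleGraph.Walk.mapLe] using hp)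
          omega
        have h1 := f.edges_avoid (inf_le_left.trans (f.inner_le g)) p hfar₂ hball e he
        have h2 := (p.edges_subset_edgeSet he)
        induction e using Sym2.ind with
        | _ a b => exact ⟨(f.avoid_inv ν _ a b).2 h1,
            f.avoid_anti hdw ((f.avoid_inv ν _ a b).2 h2.2)⟩)
      (le_inf (fun a b hab => ⟨hab.1.1, fun hh =>
        f.Vs_disjoint hnode hab.1.2.1 hh.1⟩) inf_le_right)
    have hredge : ∀ e ∈ r.reverse.edges, e ∈ (f.avoid h₂ ⊓ f.avoid (leaf w)).edgeSet := by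
      intro e he
      rw [SimpleGraph.Walk.edges_reverse, List.mem_reverse] at he
      have h1 := r.edges_subset_edgeSet he
      have h2 := f.edges_avoid (f.avoid_le h₂) r hfarw (fun u hu => by
        have h3 := f.walk_len (r.mapLe (f.avoid_le h₂)) u
          (by rwa [SimpleGraph.Walk.support_mapLe_eq_support])
        have h4 := len_dist_le g.base (f.pr y) (f.pr u)
        have h5 := f.port_len hy
        have h6 : f.L * (r.mapLe (f.avoid_le h₂)).length ≤ f.L * M :=
          Nat.mul_le_mul_left _ (by simpa [SimpleGraph.Walk.mapLe] using hrlen)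
        omega) e he
      induction e using Sym2.ind with
      | _ a b => exact ⟨h1, h2⟩
    calc c * b * P = ENNReal.ofReal (a ^ M) * (P * b) := by
          simp only [c]; ring
      _ ≤ ENNReal.ofReal ((q : ℝ) ^ M) * perc (Γ × ι) q (joins (f.avoid h₂ ⊓ f.avoid (leaf w)) y
            (f.port (leaf w))) :=
          mul_le_mul' (ENNReal.ofReal_le_ofReal (pow_le_pow_left₀ ha.le haq _))
            (hsp.trans (measure_mono (joins_mono le_rfl _ (S.leaf_point _))))
      _ ≤ _ := walk_joins (r.reverse.transfer _ hredge) (by simpa using hrlen) _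
  have hnear : ((Finset.univ : Finset (S.Word i)).filter fun w => ¬Far (leaf w) g.base
      (f.L + f.L * M)).card ≤ Bf.card := by
    rw [← Finset.card_image_of_injective _ hinj]
    refine le_trans (Finset.card_le_card fun x hx => ?_) (card_not_far (A := Finset.univ.image leaf)
      (c := g.base) (R := f.L + f.L * M) (fun a ha b hb hab => ?_) fun u hu => (hBf u).2 hu)
    · obtain ⟨w, hw', rfl⟩ := Finset.mem_image.1 hx
      exact Finset.mem_filter.2 ⟨Finset.mem_image_of_mem _ (Finset.mem_univ _),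
        (Finset.mem_filter.1 hw').2⟩
    · obtain ⟨w, -, rfl⟩ := Finset.mem_image.1 (Finset.mem_coe.1 ha)
      obtain ⟨w', -, rfl⟩ := Finset.mem_image.1 (Finset.mem_coe.1 hb)
      exact S.leaf_disjoint δ w w' fun h => hab (h ▸ rfl)
  have hsum : (G.card : ℝ≥0∞) * (c * b * P) ^ σ ≤ K := by
    refine le_trans ?_ ((f.le_growth q σ hy₂ hcode).trans hgrow)
    rw [Finset.sum_image hinj.injOn, ← nsmul_eq_mul, ← Finset.sum_const]
    exact Finset.sum_le_sum fun w hwG => ENNReal.rpow_le_rpow (hleaf w hwG) hσ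
  have hcard : (S.B.card : ℝ≥0∞) ^ i = G.card + ((Finset.univ : Finset (S.Word i)).filter
      fun w => ¬Far (leaf w) g.base (f.L + f.L * M)).card := by
    rw [← Nat.cast_add, Finset.card_filter_add_card_filter_not]
    simp [Finset.card_univ]
  have hcb : c ^ σ * b ^ σ ≠ 0 ∧ c ^ σ * b ^ σ ≠ ⊤ :=
    ⟨mul_ne_zero (by simp [hc0, hct]) (by simp [hb0, hbt]),
      ENNReal.mul_ne_top (by simp [hc0, hct]) (by simp [hb0, hbt])⟩
  rw [hcard, add_mul, add_mul, add_comm]
  refine add_le_add ?_ ?_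
  · refine le_trans (mul_le_mul' (Nat.cast_le.2 hnear) (ENNReal.rpow_le_one prob_le_one hσ)) ?_
    rw [mul_one]
    exact le_mul_of_one_le_right zero_le le_add_self
  · rw [ENNReal.mul_rpow_of_nonneg _ _ hσ, ENNReal.mul_rpow_of_nonneg _ _ hσ, mul_left_comm]
      at hsum
    calc (G.card : ℝ≥0∞) * P ^ σ
        = (c ^ σ * b ^ σ)⁻¹ * (c ^ σ * b ^ σ * ((G.card : ℝ≥0∞) * P ^ σ)) := by
          rw [← mul_assoc, ENNReal.inv_mul_cancel hcb.1 hcb.2, one_mul]
      _ ≤ (c ^ σ * b ^ σ)⁻¹ * K := mul_le_mul_right hsum _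
      _ = (c ^ σ)⁻¹ * K * b⁻¹ ^ σ := by
          rw [ENNReal.mul_inv (Or.inl (by simp [hc0, hct])) (Or.inl (by simp [hc0, hct])),
            ENNReal.inv_rpow]
          ring
      _ ≤ _ := mul_le_mul_right le_self_add _

end Vale.Agent.P165.Large
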