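import Mathlib
import Vale.Agent.P165.Large.Tail
import Vale.Agent.P165.Large.Pairs

/-!
Expected numbers of port points from their tails, cut off by the second moment.
-/

namespace Vale.Agent.P165.Large

open MeasureTheory
open scoped ENNReal

variable {Γ ι : Type} [Group Γ] (f : Frame Γ ι)

/-- The expected number of kernel translates of `z` joined to `x` away from `g`. -/
noncomputable def Frame.classY (q : unitInterval) (x : Γ × ι) (g : Half) (z : Γ × ι) : ℝ≥0∞ :=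
  ∑' ν : f.π.ker, f.tau q (f.avoid g) x (f.kerAct ν z)

/-- The second moment of the number of kernel translates of `z` joined to `x`. -/
noncomputable def Frame.classSq (q : unitInterval) (x z : Γ × ι) : ℝ≥0∞ :=
  ∑' ν : f.π.ker, ∑' μ : f.π.ker, f.two q x (f.kerAct ν z) (f.kerAct μ z)

lemma rpow_sum_le {α : Type} (A : Finset α) (v : α → ℝ≥0∞) {σ : ℝ} (h0 : 0 < σ) (h1 : σ ≤ 1) :
    (∑ a ∈ A, v a) ^ σ ≤ ∑ a ∈ A, v a ^ σ := by
  classical
  induction A using Finset.induction with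
  | empty => simp [ENNReal.zero_rpow_of_pos h0]
  | @insert a A ha ih =>
    rw [Finset.sum_insert ha, Finset.sum_insert ha]
    exact (ENNReal.rpow_add_le_add_rpow _ _ h0.le h1).trans (add_le_add le_rfl ih)

/-- The pointwise split of a count into levels and a second moment. -/
lemma count_split (n : ℕ → ℕ) (i₀ : ℕ) {N : ℝ} (hN : 0 < N) :
    ∀ {I : ℕ}, i₀ ≤ I → N ≤ n I → ∀ k : ℕ,
      (k : ℝ≥0∞) ≤ (n i₀ : ℝ≥0∞) * (if 1 ≤ k then 1 else 0) +
        ∑ i ∈ Finset.Ico i₀ I, (n (i + 1) : ℝ≥0∞) * (if n i ≤ k then 1 else 0) +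
        (k : ℝ≥0∞) * k / ENNReal.ofReal N := by
  intro I hI hNI k
  by_cases hk : N ≤ k
  · refine le_trans ?_ le_add_self
    rw [ENNReal.le_div_iff_mul_le (Or.inl (by simpa using hN)) (Or.inl ENNReal.ofReal_ne_top)]
    refine mul_le_mul_right ?_ _
    exact (ENNReal.ofReal_le_ofReal hk).trans (ENNReal.ofReal_natCast k).le
  · rcases Nat.eq_zero_or_pos k with rfl | hk0
    · simp
    refine le_trans ?_ le_self_add
    by_cases hlow : k < n i₀
    · refine le_trans ?_ le_self_add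
      rw [if_pos (show 1 ≤ k from hk0), mul_one]
      exact_mod_cast hlow.le
    · refine le_trans ?_ le_add_self
      have hkI : k < n I := by exact_mod_cast lt_of_lt_of_le (not_le.1 hk) hNI
      obtain ⟨i, hi, h1, h2⟩ : ∃ i ∈ Finset.Ico i₀ I, n i ≤ k ∧ k < n (i + 1) := by
        by_contra hne
        push Not at hne
        have : ∀ m, i₀ + m ≤ I → n (i₀ + m) ≤ k := by
          intro m
          induction m with
          | zero => exact fun _ => not_lt.1 hlow
          | succ m ih =>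
            intro hm
            exact hne (i₀ + m) (Finset.mem_Ico.2 ⟨by omega, by omega⟩) (ih (by omega))
        have h3 := this (I - i₀) (by omega)
        rw [Nat.add_sub_cancel' hI] at h3
        omega
      refine le_trans ?_ (Finset.single_le_sum (fun j _ => zero_le) hi)
      rw [if_pos h1, mul_one]
      exact_mod_cast h2.le

/-- The expected count is at most its levels plus a second moment. -/
lemma Frame.classY_le (n : ℕ → ℕ) (i₀ : ℕ) {N : ℝ} (hN : 0 < N) {I : ℕ} (hI : i₀ ≤ I)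
    (hNI : N ≤ n I) (q : unitInterval) (x : Γ × ι) (g : Half) (z : Γ × ι) :
    f.classY q x g z ≤ (n i₀ : ℝ≥0∞) * perc (Γ × ι) q (f.many x g z 1) +
      ∑ i ∈ Finset.Ico i₀ I, (n (i + 1) : ℝ≥0∞) * perc (Γ × ι) q (f.many x g z (n i)) +
      f.classSq q x z / ENNReal.ofReal N := by
  classical
  have := f.countable
  have : Countable Γ := Function.Injective.countable
    (f := fun γ : Γ => (γ, x.2)) fun a b h => (Prod.ext_iff.1 h).1
  rw [Frame.classY, ENNReal.tsum_eq_iSup_sum]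
  refine iSup_le fun F => ?_
  let A : f.π.ker → Set (Sym2 (Γ × ι) → Bool) := fun ν => conn (f.avoid g) x (f.kerAct ν z)
  have hA : ∀ ν, MeasurableSet (A ν) := fun ν => (meas_conn _ _ _).measurableSet
  let k : (Sym2 (Γ × ι) → Bool) → ℕ := fun ω => (F.filter fun ν => ω ∈ A ν).card
  have hM : ∀ m, MeasurableSet (f.many x g z m) := fun m =>
    MeasurableSet.biUnion (Set.to_countable _) fun J _ =>
      Finset.measurableSet_biInter J fun ν _ => hA ν
  have hk : ∀ ω, (k ω : ℝ≥0∞) = ∑ ν ∈ F, (A ν).indicator 1 ω := by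
    intro ω
    simp only [k, Finset.card_filter, Nat.cast_sum, Set.indicator_apply, Pi.one_apply]
    exact Finset.sum_congr rfl fun ν _ => by split_ifs <;> simp
  have hkm : ∀ ω m, (if m ≤ k ω then (1 : ℝ≥0∞) else 0) ≤ (f.many x g z m).indicator 1 ω := by
    intro ω m
    by_cases h : m ≤ k ω
    · rw [if_pos h, Set.indicator_of_mem]
      · rfl
      · exact Set.mem_iUnion₂.2 ⟨F.filter fun ν => ω ∈ A ν, h, Set.mem_iInter₂.2 fun ν hν =>
          (Finset.mem_filter.1 hν).2⟩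
    · rw [if_neg h]; exact zero_le
  have hsum : ∑ ν ∈ F, f.tau q (f.avoid g) x (f.kerAct ν z)
      = ∫⁻ ω, (k ω : ℝ≥0∞) ∂perc (Γ × ι) q := by
    simp only [hk]
    rw [lintegral_finsetSum _ fun ν _ => measurable_one.indicator (hA ν)]
    exact Finset.sum_congr rfl fun ν _ => (lintegral_indicator_one (hA ν)).symm
  rw [hsum]
  calc ∫⁻ ω, (k ω : ℝ≥0∞) ∂perc (Γ × ι) q
      ≤ ∫⁻ ω, ((n i₀ : ℝ≥0∞) * (f.many x g z 1).indicator 1 ω +
          ∑ i ∈ Finset.Ico i₀ I, (n (i + 1) : ℝ≥0∞) * (f.many x g z (n i)).indicator 1 ω) +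
          (∑ ν ∈ F, ∑ μ ∈ F, (A ν ∩ A μ).indicator 1 ω) / ENNReal.ofReal N ∂perc (Γ × ι) q := by
        refine lintegral_mono fun ω => (count_split n i₀ hN hI hNI (k ω)).trans ?_
        refine add_le_add (add_le_add (mul_le_mul_right (hkm ω 1) _)
          (Finset.sum_le_sum fun i _ => mul_le_mul_right (hkm ω _) _)) (le_of_eq ?_)
        rw [hk ω, Finset.sum_mul_sum]
        congr 1
        refine Finset.sum_congr rfl fun ν _ => Finset.sum_congr rfl fun μ _ => ?_
        by_cases h1 : ω ∈ A ν <;> by_cases h2 : ω ∈ A μ <;> simp [h1, h2]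
    _ = ((n i₀ : ℝ≥0∞) * perc (Γ × ι) q (f.many x g z 1) +
          ∑ i ∈ Finset.Ico i₀ I, (n (i + 1) : ℝ≥0∞) * perc (Γ × ι) q (f.many x g z (n i))) +
          (∑ ν ∈ F, ∑ μ ∈ F, perc (Γ × ι) q (A ν ∩ A μ)) / ENNReal.ofReal N := by
        have hAA : ∀ ν μ, MeasurableSet (A ν ∩ A μ) := fun ν μ => (hA ν).inter (hA μ)
        rw [lintegral_add_left, lintegral_add_left, lintegral_const_mul _ (measurable_one.indicator (hM 1)),
          lintegral_finsetSum _ fun i _ => (measurable_one.indicator (hM _)).const_mul _]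
        · simp only [lintegral_const_mul _ (measurable_one.indicator (hM _)),
            lintegral_indicator_one (hM _), div_eq_mul_inv]
          rw [lintegral_mul_const _ (Finset.measurable_sum _ fun ν _ =>
              Finset.measurable_sum _ fun μ _ => measurable_one.indicator (hAA ν μ)),
            lintegral_finsetSum _ fun ν _ =>
              Finset.measurable_sum _ fun μ _ => measurable_one.indicator (hAA ν μ)]
          simp only [lintegral_finsetSum _ fun μ _ => measurable_one.indicator (hAA _ μ),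
            lintegral_indicator_one (hAA _ _)]
        · exact (measurable_one.indicator (hM 1)).const_mul _
        · exact ((measurable_one.indicator (hM 1)).const_mul _).add
            (Finset.measurable_sum _ fun i _ => (measurable_one.indicator (hM _)).const_mul _)
    _ ≤ _ := by
        gcongr
        refine le_trans ?_ (ENNReal.sum_le_tsum F)
        refine Finset.sum_le_sum fun ν _ => le_trans ?_ (ENNReal.sum_le_tsum F)
        refine Finset.sum_le_sum fun μ _ => measure_mono (Set.inter_subset_inter ?_ ?_) <;>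
          exact fun ω hω => SimpleGraph.Reachable.mono
            (show openGraph (f.avoid g) ω ≤ openGraph f.H ω from fun _ _ ha => ⟨ha.1.1, ha.2⟩) hω

variable {f} {σ₁ : ℝ} (S : Seed f σ₁)

/-- The levels carry a small power of the cut-off. -/
theorem Seed.levels {σ e a : ℝ} (hσ0 : 0 < σ) (hσ1 : σ ≤ 1) (he : 0 < e)
    (hζ : σ₁ < σ * (1 + e)) (ha : 0 < a) :
    ∃ C : ℝ≥0∞, C ≠ ⊤ ∧ ∀ q : unitInterval, (S.q₀ : ℝ) ≤ q → a ≤ q →
      ∀ (x : Γ × ι) (A : Finset Half) (z : Half → Γ × ι) (T : ℝ≥0∞),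
        (∀ (i n : ℕ) (b : ℝ≥0∞), b ≠ 0 → b ≠ ⊤ → S.Spreads q i n b →
          (S.B.card : ℝ≥0∞) ^ i * ∑ g ∈ A, perc (Γ × ι) q (f.many x g (z g) n) ^ σ
            ≤ T * (b⁻¹ ^ σ + 1)) →
        ∀ N : ℝ, 1 ≤ N → ∃ Lev : Half → ℝ≥0∞,
          (∀ g ∈ A, f.classY q x g (z g) ≤ Lev g + f.classSq q x (z g) / ENNReal.ofReal N) ∧
          ∑ g ∈ A, Lev g ^ σ ≤ C * T * ENNReal.ofReal (N ^ ((σ * (1 + e) - σ₁) / (1 + e))) := by
  classical
  set ζ := (σ * (1 + e) - σ₁) / (1 + e) with hζdef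
  have hζ0 : 0 < ζ := div_pos (by linarith) (by linarith)
  have hr1 : 1 < 1 / S.r := by rw [lt_div_iff₀ S.r_pos]; linarith [S.r_lt]
  set R : ℝ := (1 / S.r) ^ (1 + e) with hR
  have hR1 : 1 < R := Real.one_lt_rpow hr1 (by linarith)
  have hR0 : 0 < R := by linarith
  have hE1 : 1 < (1 / S.r) ^ e := Real.one_lt_rpow hr1 he
  obtain ⟨i₀, hi₀⟩ : ∃ i₀ : ℕ, ∀ i ≥ i₀,
      2 * ((i + 1) * S.om : ℝ) ≤ a ^ S.entryLen * ((1 / S.r) ^ e) ^ i := by
    set y := ((1 / S.r) ^ e)⁻¹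
    have hy0 : 0 ≤ y := by positivity
    have hy1 : y < 1 := inv_lt_one_of_one_lt₀ hE1
    have h1 : Filter.Tendsto (fun i : ℕ => 2 * (S.om : ℝ) * (i * y ^ i + y ^ i)) Filter.atTop
        (nhds 0) := by
      simpa using ((tendsto_self_mul_const_pow_of_lt_one hy0 hy1).add
        (tendsto_pow_atTop_nhds_zero_of_lt_one hy0 hy1)).const_mul (2 * (S.om : ℝ))
    obtain ⟨i₀, h⟩ := Filter.eventually_atTop.1 (h1.eventually (eventually_le_nhds (pow_pos ha S.entryLen)))
    refine ⟨i₀, fun i hi => ?_⟩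
    have h2 := h i hi
    have hpos : 0 < ((1 / S.r) ^ e) ^ i := pow_pos (by linarith) _
    have h3 : y ^ i * ((1 / S.r) ^ e) ^ i = 1 := by
      rw [← mul_pow, inv_mul_cancel₀ (by linarith), one_pow]
    calc 2 * ((i + 1) * S.om : ℝ)
        = 2 * (S.om : ℝ) * (i * y ^ i + y ^ i) * ((1 / S.r) ^ e) ^ i := by
          linear_combination (-2 * (S.om : ℝ) * (i + 1)) * h3
      _ ≤ _ := mul_le_mul_of_nonneg_right h2 hpos.le
  let n : ℕ → ℕ := fun i => ⌈R ^ i⌉₊
  have hn : ∀ i, R ^ i ≤ n i ∧ (n i : ℝ) ≤ 2 * R ^ i := fun i => by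
    have h1 : 1 ≤ R ^ i := one_le_pow₀ hR1.le
    refine ⟨Nat.le_ceil _, ?_⟩
    have := Nat.ceil_lt_add_one (show 0 ≤ R ^ i by linarith)
    linarith
  set P₁ : ℝ≥0∞ := (n i₀ : ℝ≥0∞) ^ σ * ((ENNReal.ofReal (a ^ S.entryLen))⁻¹ ^ σ + 1)
  set D : ℝ≥0∞ := ENNReal.ofReal ((2 * R) ^ σ) * ((ENNReal.ofReal (1 / 2))⁻¹ ^ σ + 1)
  set G : ℝ := (R ^ (i₀ + 1)) ^ ζ / (R ^ ζ - 1)
  refine ⟨P₁ + D * ENNReal.ofReal G, ?_, fun q hq haq x A z T hT N hN => ?_⟩
  · have h1 : P₁ ≠ ⊤ := ENNReal.mul_ne_top (ENNReal.rpow_ne_top_of_nonneg hσ0.le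
      (ENNReal.natCast_ne_top _)) (ENNReal.add_ne_top.2 ⟨ENNReal.rpow_ne_top_of_nonneg hσ0.le
        (by simp [pow_pos ha S.entryLen]), ENNReal.one_ne_top⟩)
    have h2 : D ≠ ⊤ := ENNReal.mul_ne_top ENNReal.ofReal_ne_top (ENNReal.add_ne_top.2
      ⟨ENNReal.rpow_ne_top_of_nonneg hσ0.le (by simp), ENNReal.one_ne_top⟩)
    exact ENNReal.add_ne_top.2 ⟨h1, ENNReal.mul_ne_top h2 ENNReal.ofReal_ne_top⟩
  have hq0 : 0 < (q : ℝ) := lt_of_lt_of_le ha haq
  have hex : ∃ I, i₀ ≤ I ∧ N ≤ R ^ I := by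
    obtain ⟨m, hm⟩ := pow_unbounded_of_one_lt N hR1
    exact ⟨max i₀ m, le_max_left _ _, hm.le.trans (pow_le_pow_right₀ hR1.le (le_max_right _ _))⟩
  set I := Nat.find hex
  obtain ⟨hI, hNI⟩ := Nat.find_spec hex
  have hIle : R ^ I ≤ R ^ (i₀ + 1) * N := by
    rcases eq_or_lt_of_le hI with h | h
    · calc R ^ I = R ^ i₀ := congrArg (R ^ ·) h.symm
        _ ≤ R ^ (i₀ + 1) := pow_le_pow_right₀ hR1.le (Nat.le_succ _)
        _ ≤ _ := le_mul_of_one_le_right (by positivity) hN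
    · have h' := Nat.find_min hex (m := I - 1) (by omega)
      push Not at h'
      have h2 := h' (by omega)
      calc R ^ I = R * R ^ (I - 1) := by rw [← pow_succ']; congr 1; omega
        _ ≤ R * N := mul_le_mul_of_nonneg_left h2.le hR0.le
        _ ≤ _ := mul_le_mul_of_nonneg_right (le_self_pow₀ hR1.le (Nat.succ_ne_zero _))
            (zero_le_one.trans hN)
  let P : Half → ℕ → ℝ≥0∞ := fun g m => perc (Γ × ι) q (f.many x g (z g) m)
  refine ⟨fun g => (n i₀ : ℝ≥0∞) * P g 1 + ∑ i ∈ Finset.Ico i₀ I, (n (i + 1) : ℝ≥0∞) * P g (n i),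
    fun g _ => f.classY_le n i₀ (lt_of_lt_of_le one_pos hN) hI (hNI.trans (hn I).1) q x g (z g), ?_⟩
  have h1 : ∑ g ∈ A, ((n i₀ : ℝ≥0∞) * P g 1) ^ σ ≤ P₁ * T := by
    simp only [ENNReal.mul_rpow_of_nonneg _ _ hσ0.le, ← Finset.mul_sum]
    rw [mul_assoc]
    refine mul_le_mul_right ?_ _
    have hb0 : ENNReal.ofReal ((q : ℝ) ^ S.entryLen) ≠ 0 := by simp [pow_pos hq0 S.entryLen]
    have := hT 0 1 _ hb0 ENNReal.ofReal_ne_top (S.spreads_one q)
    rw [pow_zero, one_mul] at this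
    refine this.trans ?_
    rw [mul_comm]
    gcongr
  have hstep : ∀ i ∈ Finset.Ico i₀ I,
      ∑ g ∈ A, ((n (i + 1) : ℝ≥0∞) * P g (n i)) ^ σ
        ≤ D * T * ENNReal.ofReal ((R ^ ζ) ^ i) := by
    intro i hi
    have hi' := (Finset.mem_Ico.1 hi).1
    have hnpos : 0 < n i := Nat.ceil_pos.2 (pow_pos hR0 _)
    have hwide : 2 * ((i + 1) * S.om : ℝ) ≤ n i * ((q : ℝ) ^ S.entryLen * S.r ^ i) := by
      refine (hi₀ i hi').trans ?_
      have h3 : ((1 / S.r) ^ e) ^ i = R ^ i * S.r ^ i := by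
        rw [hR, Real.rpow_add (by positivity), Real.rpow_one, ← mul_pow]
        congr 1
        rw [mul_right_comm, one_div, inv_mul_cancel₀ S.r_pos.ne', one_mul]
      rw [h3]
      have h4 : a ^ S.entryLen ≤ (q : ℝ) ^ S.entryLen := pow_le_pow_left₀ ha.le haq _
      calc a ^ S.entryLen * (R ^ i * S.r ^ i) ≤ (q : ℝ) ^ S.entryLen * ((n i : ℝ) * S.r ^ i) := by
            refine mul_le_mul h4 (mul_le_mul_of_nonneg_right (hn i).1 (pow_nonneg S.r_pos.le _))
              (mul_nonneg (pow_nonneg hR0.le _) (pow_nonneg S.r_pos.le _)) (pow_nonneg q.2.1 _)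
        _ = _ := by ring
    have h5 := hT i (n i) _ (by simp) ENNReal.ofReal_ne_top (S.spreads_half hq hq0 hnpos hwide)
    have hB : (1 : ℝ≥0∞) ≤ (S.B.card : ℝ≥0∞) ^ i * ENNReal.ofReal ((S.r ^ σ₁) ^ i) := by
      rw [← ENNReal.ofReal_natCast, ← ENNReal.ofReal_pow (Nat.cast_nonneg _),
        ← ENNReal.ofReal_mul (by positivity), ← mul_pow, ENNReal.one_le_ofReal]
      exact one_le_pow₀ S.count
    simp only [ENNReal.mul_rpow_of_nonneg _ _ hσ0.le, ← Finset.mul_sum]
    have hRi : (R ^ ζ) ^ i = (R ^ i) ^ σ * (S.r ^ σ₁) ^ i := by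
      have h6 : R ^ ζ = R ^ σ * S.r ^ σ₁ := by
        rw [hR, ← Real.rpow_mul (by positivity), ← Real.rpow_mul (by positivity),
          show S.r ^ σ₁ = (1 / S.r) ^ (-σ₁) by
            rw [one_div, Real.inv_rpow S.r_pos.le, Real.rpow_neg S.r_pos.le, inv_inv],
          ← Real.rpow_add (by positivity), hζdef]
        congr 1
        field_simp
        ring
      rw [h6, mul_pow, ← Real.rpow_natCast (R ^ σ) i, ← Real.rpow_mul hR0.le, mul_comm σ,
        Real.rpow_mul hR0.le, Real.rpow_natCast]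
    calc (n (i + 1) : ℝ≥0∞) ^ σ * ∑ g ∈ A, P g (n i) ^ σ
        ≤ ENNReal.ofReal ((2 * R) ^ σ * (R ^ i) ^ σ) *
            ((S.B.card : ℝ≥0∞) ^ i * ENNReal.ofReal ((S.r ^ σ₁) ^ i) *
              ∑ g ∈ A, P g (n i) ^ σ) := by
          refine mul_le_mul' ?_ (le_mul_of_one_le_left zero_le hB)
          rw [← ENNReal.ofReal_natCast, ENNReal.ofReal_rpow_of_nonneg (Nat.cast_nonneg _) hσ0.le,
            ← Real.mul_rpow (by positivity) (by positivity)]
          refine ENNReal.ofReal_le_ofReal (Real.rpow_le_rpow (Nat.cast_nonneg _) ?_ hσ0.le)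
          calc (n (i + 1) : ℝ) ≤ 2 * R ^ (i + 1) := (hn _).2
            _ = _ := by ring
      _ = ENNReal.ofReal ((2 * R) ^ σ) * ENNReal.ofReal ((R ^ ζ) ^ i) *
            ((S.B.card : ℝ≥0∞) ^ i * ∑ g ∈ A, P g (n i) ^ σ) := by
          rw [hRi, ENNReal.ofReal_mul (by positivity), ENNReal.ofReal_mul (by positivity)]
          ring
      _ ≤ ENNReal.ofReal ((2 * R) ^ σ) * ENNReal.ofReal ((R ^ ζ) ^ i) *
            (T * ((ENNReal.ofReal (1 / 2))⁻¹ ^ σ + 1)) := mul_le_mul_right h5 _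
      _ = _ := by simp only [D]; ring
  calc ∑ g ∈ A, ((n i₀ : ℝ≥0∞) * P g 1
          + ∑ i ∈ Finset.Ico i₀ I, (n (i + 1) : ℝ≥0∞) * P g (n i)) ^ σ
      ≤ ∑ g ∈ A, (((n i₀ : ℝ≥0∞) * P g 1) ^ σ
          + ∑ i ∈ Finset.Ico i₀ I, ((n (i + 1) : ℝ≥0∞) * P g (n i)) ^ σ) :=
        Finset.sum_le_sum fun g _ => (ENNReal.rpow_add_le_add_rpow _ _ hσ0.le hσ1).trans
          (add_le_add le_rfl (rpow_sum_le _ _ hσ0 hσ1))
    _ ≤ P₁ * T + ∑ i ∈ Finset.Ico i₀ I, D * T * ENNReal.ofReal ((R ^ ζ) ^ i) := by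
        rw [Finset.sum_add_distrib, Finset.sum_comm]
        exact add_le_add h1 (Finset.sum_le_sum hstep)
    _ ≤ P₁ * T * ENNReal.ofReal (N ^ ζ) + D * T * ENNReal.ofReal (G * N ^ ζ) := by
        refine add_le_add (le_mul_of_one_le_right zero_le
          (ENNReal.one_le_ofReal.2 (Real.one_le_rpow hN hζ0.le))) ?_
        rw [← Finset.mul_sum, ← ENNReal.ofReal_sum_of_nonneg fun i _ => by positivity]
        refine mul_le_mul_right (ENNReal.ofReal_le_ofReal ?_) _
        have hρ : 1 < R ^ ζ := Real.one_lt_rpow hR1 hζ0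
        calc ∑ i ∈ Finset.Ico i₀ I, (R ^ ζ) ^ i ≤ ∑ i ∈ Finset.range I, (R ^ ζ) ^ i :=
              Finset.sum_le_sum_of_subset_of_nonneg
                (fun i hi => Finset.mem_range.2 (Finset.mem_Ico.1 hi).2) fun i _ _ => by positivity
          _ ≤ (R ^ ζ) ^ I / (R ^ ζ - 1) := by
              rw [geom_sum_eq hρ.ne']
              gcongr
              linarith
          _ ≤ G * N ^ ζ := by
              simp only [G]
              rw [div_mul_eq_mul_div, ← Real.mul_rpow (by positivity) (by linarith),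
                ← Real.rpow_natCast (R ^ ζ) I, ← Real.rpow_mul hR0.le, mul_comm ζ,
                Real.rpow_mul hR0.le, Real.rpow_natCast]
              gcongr
    _ = _ := by
        rw [ENNReal.ofReal_mul (div_nonneg (by positivity)
          (by linarith [Real.one_lt_rpow hR1 hζ0]))]
        ring

end Vale.Agent.P165.Large
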