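import Mathlib
import Vale.Agent.P165.Large.Levels

/-!
Sums of expected port counts over families of half-trees.
-/

namespace Vale.Agent.P165.Large

open MeasureTheory
open scoped ENNReal

variable {Γ ι : Type} [Group Γ] (f : Frame Γ ι)

/-- The representative of a class at a half-tree. -/
def Frame.rep (c : F2 × ι) (g : Half) : Γ × ι := (f.sec (g.base * c.1), c.2)

lemma Frame.kerAct_eq_iff {z : Γ × ι} {ν μ : f.π.ker}
    (h : f.kerAct ν z = f.kerAct μ z) : ν = μ :=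
  Subtype.ext (mul_right_cancel (congrArg Prod.fst h))

/-- Over any family the second moments add up to a multiple of that of the cluster. -/
lemma Frame.sum_classSq {q : unitInterval} {X : ℝ≥0∞}
    (hX : ∀ x, ∑' y, f.tau q f.H x y ≤ X) (x : Γ × ι) (A : Finset Half) (c : F2 × ι) :
    ∑ g ∈ A, f.classSq q x (f.rep c g) ≤ Fintype.card Letter * X ^ 3 := by
  classical
  have h1 : ∀ g, f.classSq q x (f.rep c g) ≤
      ∑' ν : f.π.ker, ∑' y', f.two q x (f.kerAct ν (f.rep c g)) y' := fun g =>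
    ENNReal.tsum_le_tsum fun ν =>
      ENNReal.tsum_comp_le_tsum_of_injective (fun μ μ' h => f.kerAct_eq_iff h)
        (fun y' => f.two q x (f.kerAct ν (f.rep c g)) y')
  refine (Finset.sum_le_sum fun g _ => h1 g).trans ?_
  rw [← Finset.sum_fiberwise A (fun g => g.dir)]
  refine (Finset.sum_le_card_nsmul _ _ (X ^ 3) fun ℓ _ => ?_).trans
    (le_of_eq (by rw [Finset.card_univ, nsmul_eq_mul]))
  set A' := A.filter fun g => g.dir = ℓ
  rw [← Finset.sum_coe_sort A', ← tsum_fintype (L := SummationFilter.unconditional _),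
    ← ENNReal.tsum_prod]
  refine le_trans (ENNReal.tsum_comp_le_tsum_of_injective
    (f := fun a : A' × f.π.ker => f.kerAct a.2 (f.rep c a.1)) ?_
    (fun y => ∑' y', f.two q x y y')) (f.tsum_two_le hX x)
  rintro ⟨g, ν⟩ ⟨g', μ⟩ h
  have hb : (g : Half).base = (g' : Half).base := by
    have := congrArg f.pr h
    simp only [f.kerAct_apply, f.pr_act, f.π_ker, one_mul, Frame.rep] at this
    simpa [Frame.pr, f.π_sec] using this
  have hgg : g = g' := Subtype.ext (Half.ext hb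
    ((Finset.mem_filter.1 g.2).2.trans (Finset.mem_filter.1 g'.2).2.symm))
  subst hgg
  exact Prod.ext rfl (f.kerAct_eq_iff h)

open Classical in
/-- The port count is at most the sum over the classes. -/
lemma Frame.Y_le_classes {C : Finset (F2 × ι)}
    (hC : ∀ g, ∀ v ∈ f.port g, ∃ c ∈ C, v ∈ f.sameClass (f.sec (g.base * c.1), c.2))
    (q : unitInterval) (x : Γ × ι) (g : Half) :
    f.Y q x g ≤ ∑ c ∈ C, if f.rep c g ∈ f.port g then f.classY q x g (f.rep c g) else 0 := by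
  classical
  have hv : ∀ v : f.port g, ∃ p : C × f.π.ker,
      f.rep p.1.1 g ∈ f.port g ∧ f.kerAct p.2 (f.rep p.1.1 g) = v.1 := by
    intro v
    obtain ⟨c, hc, hvc⟩ := hC g v v.2
    obtain ⟨ν, hν, he⟩ := f.eq_act_of_sameClass hvc
    exact ⟨(⟨c, hc⟩, ⟨ν, hν⟩), f.sameClass_port v.2 ⟨hvc.1.symm, hvc.2.symm⟩, he⟩
  choose φ hφ using hv
  let G : C × f.π.ker → ℝ≥0∞ := fun p =>
    if f.rep p.1.1 g ∈ f.port g then f.tau q (f.avoid g) x (f.kerAct p.2 (f.rep p.1.1 g)) else 0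
  have he : ∀ v : f.port g, f.tau q (f.avoid g) x v.1 = G (φ v) := fun v => by
    simp only [G, if_pos (hφ v).1, (hφ v).2]
  have hinj : Function.Injective φ := fun v v' h =>
    Subtype.ext ((hφ v).2.symm.trans (h ▸ (hφ v').2))
  rw [Frame.Y, tsum_congr he]
  refine (ENNReal.tsum_comp_le_tsum_of_injective hinj G).trans (le_of_eq ?_)
  rw [ENNReal.tsum_prod', tsum_fintype]
  rw [← Finset.sum_coe_sort C]
  refine Finset.sum_congr rfl fun c _ => ?_
  by_cases h : f.rep c.1 g ∈ f.port g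
  · simp [G, h, Frame.classY]
  · simp [G, h]

variable {f} {σ₁ : ℝ} (S : Seed f σ₁)

/-- The sums of port counts over a family seen from one vertex. -/
theorem Seed.port_sums [Finite ι] {σ e a : ℝ} (hσ0 : 0 < σ) (hσ1 : σ ≤ 1) (he : 0 < e)
    (hζ : σ₁ < σ * (1 + e)) (ha : 0 < a) :
    ∃ C : ℝ≥0∞, C ≠ ⊤ ∧ ∀ q : unitInterval, (S.q₀ : ℝ) ≤ q → a ≤ q →
      ∀ X : ℝ≥0∞, (∀ x, ∑' y, f.tau q f.H x y ≤ X) →
      ∀ (x : Γ × ι) (A : Finset Half) (w : Half → F2), (∀ g ∈ A, f.pr x ∉ g.side) →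
        (∀ g ∈ A, ∀ g' ∈ A, g ≠ g' → ∀ u ∈ g.side, u ∈ g'.side →
          S.entryR < lcp (g.base⁻¹ * u).toWord (w g).toWord ∨
            S.entryR < lcp (g'.base⁻¹ * u).toWord (w g').toWord) →
        ∀ N : ℝ, 1 ≤ N →
          (∑ g ∈ A, f.Y q x g ^ σ ≤ C * (f.reach q σ x *
              ENNReal.ofReal (N ^ ((σ * (1 + e) - σ₁) / (1 + e))) +
              A.card * (X ^ 3 / ENNReal.ofReal N) ^ σ)) ∧
          ∑ g ∈ A, f.Y q x g ≤ C * ((f.reach q σ x *
              ENNReal.ofReal (N ^ ((σ * (1 + e) - σ₁) / (1 + e)))) ^ (1 / σ) +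
              X ^ 3 / ENNReal.ofReal N) := by
  classical
  obtain ⟨Cl, hClt, hlev⟩ := S.levels hσ0 hσ1 he hζ ha
  obtain ⟨Cs, hCs⟩ := f.exists_classes
  set L4 : ℝ≥0∞ := (Fintype.card Letter : ℝ≥0∞)
  set C : ℝ≥0∞ := (Cs.card : ℝ≥0∞) * (Cl + L4 ^ σ + Cl ^ (1 / σ) + L4) with hC
  refine ⟨C, ?_, fun q hq haq X hX x A w hx hsep N hN => ?_⟩
  · refine ENNReal.mul_ne_top (ENNReal.natCast_ne_top _) ?_
    simp only [ne_eq, ENNReal.add_eq_top, not_or]
    exact ⟨⟨⟨hClt, ENNReal.rpow_ne_top_of_nonneg hσ0.le (ENNReal.natCast_ne_top _)⟩,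
      ENNReal.rpow_ne_top_of_nonneg (by positivity) hClt⟩, ENNReal.natCast_ne_top _⟩
  set ζ := (σ * (1 + e) - σ₁) / (1 + e)
  set T := f.reach q σ x * ENNReal.ofReal (N ^ ζ)
  set iN : ℝ≥0∞ := ENNReal.ofReal N
  let Ac : F2 × ι → Finset Half := fun c => A.filter fun g => f.rep c g ∈ f.port g
  have hL : ∀ c, ∃ Lev : Half → ℝ≥0∞,
      (∀ g ∈ Ac c, f.classY q x g (f.rep c g) ≤ Lev g + f.classSq q x (f.rep c g) / iN) ∧
        ∑ g ∈ Ac c, Lev g ^ σ ≤ Cl * T := by
    intro c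
    obtain ⟨Lev, h1, h2⟩ := hlev q hq haq x (Ac c) (f.rep c) (f.reach q σ x)
      (fun i n b hb0 hbt hs => (S.tail hσ0.le (Ac c) (f.rep c) w
        (fun g hg => (Finset.mem_filter.1 hg).2) (fun g hg => hx g (Finset.mem_filter.1 hg).1)
        (fun g hg g' hg' => hsep g (Finset.mem_filter.1 hg).1 g' (Finset.mem_filter.1 hg').1)
        hb0 hbt hs).trans (by rw [mul_comm]; exact mul_le_mul_right le_self_add _)) N hN
    exact ⟨Lev, h1, h2.trans_eq (mul_assoc _ _ _)⟩
  choose Lev hLev hLevsum using hL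
  have hY : ∀ g ∈ A, f.Y q x g ≤ ∑ c ∈ Cs, if f.rep c g ∈ f.port g then
      Lev c g + f.classSq q x (f.rep c g) / iN else 0 := fun g hg =>
    (f.Y_le_classes hCs q x g).trans (Finset.sum_le_sum fun c _ => by
      split_ifs with h
      · exact hLev c g (Finset.mem_filter.2 ⟨hg, h⟩)
      · exact le_rfl)
  have hcard : ∀ c, (Ac c).card ≤ A.card := fun c => Finset.card_filter_le _ _
  constructor
  · calc ∑ g ∈ A, f.Y q x g ^ σ
        ≤ ∑ g ∈ A, ∑ c ∈ Cs, (if f.rep c g ∈ f.port g then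
            Lev c g ^ σ + (f.classSq q x (f.rep c g) / iN) ^ σ else 0) := by
          refine Finset.sum_le_sum fun g hg => (ENNReal.rpow_le_rpow (hY g hg) hσ0.le).trans
            ((rpow_sum_le _ _ hσ0 hσ1).trans (Finset.sum_le_sum fun c _ => ?_))
          split_ifs
          · exact ENNReal.rpow_add_le_add_rpow _ _ hσ0.le hσ1
          · simp [ENNReal.zero_rpow_of_pos hσ0]
      _ = ∑ c ∈ Cs, ∑ g ∈ Ac c, (Lev c g ^ σ + (f.classSq q x (f.rep c g) / iN) ^ σ) := by
          rw [Finset.sum_comm]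
          exact Finset.sum_congr rfl fun c _ => (Finset.sum_filter _ _).symm
      _ ≤ ∑ c ∈ Cs, (Cl * T + L4 ^ σ * (A.card * (X ^ 3 / iN) ^ σ)) := by
          refine Finset.sum_le_sum fun c _ => ?_
          rw [Finset.sum_add_distrib]
          refine add_le_add (hLevsum c) ?_
          calc ∑ g ∈ Ac c, (f.classSq q x (f.rep c g) / iN) ^ σ
              ≤ ∑ _g ∈ Ac c, (L4 * X ^ 3 / iN) ^ σ := by
                refine Finset.sum_le_sum fun g hg => ENNReal.rpow_le_rpow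
                  (ENNReal.div_le_div_right ?_ _) hσ0.le
                exact (Finset.single_le_sum (f := fun g => f.classSq q x (f.rep c g))
                  (fun _ _ => zero_le) hg).trans (f.sum_classSq hX x (Ac c) c)
            _ ≤ (A.card : ℝ≥0∞) * (L4 * X ^ 3 / iN) ^ σ := by
                rw [Finset.sum_const, nsmul_eq_mul]
                exact mul_le_mul_left (Nat.cast_le.2 (hcard c)) _
            _ = _ := by
                rw [mul_div_assoc, ENNReal.mul_rpow_of_nonneg _ _ hσ0.le]; ring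
      _ ≤ _ := by
          rw [Finset.sum_const, nsmul_eq_mul, hC, mul_assoc]
          refine mul_le_mul_right ?_ _
          rw [mul_add (_ + _ + _ + _)]
          exact add_le_add (mul_le_mul_left (le_add_right (le_add_right le_self_add)) _)
            (mul_le_mul_left (le_add_right (le_add_right le_add_self)) _)
  · calc ∑ g ∈ A, f.Y q x g
        ≤ ∑ g ∈ A, ∑ c ∈ Cs, (if f.rep c g ∈ f.port g then
            Lev c g + f.classSq q x (f.rep c g) / iN else 0) := Finset.sum_le_sum hY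
      _ = ∑ c ∈ Cs, ∑ g ∈ Ac c, (Lev c g + f.classSq q x (f.rep c g) / iN) := by
          rw [Finset.sum_comm]
          exact Finset.sum_congr rfl fun c _ => (Finset.sum_filter _ _).symm
      _ ≤ ∑ c ∈ Cs, (Cl ^ (1 / σ) * T ^ (1 / σ) + L4 * (X ^ 3 / iN)) := by
          refine Finset.sum_le_sum fun c _ => ?_
          rw [Finset.sum_add_distrib]
          refine add_le_add ?_ ?_
          · rw [← ENNReal.mul_rpow_of_nonneg _ _ (by positivity : (0 : ℝ) ≤ 1 / σ)]
            calc ∑ g ∈ Ac c, Lev c g = ((∑ g ∈ Ac c, Lev c g) ^ σ) ^ (1 / σ) := by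
                  rw [← ENNReal.rpow_mul, mul_one_div_cancel hσ0.ne', ENNReal.rpow_one]
              _ ≤ _ := ENNReal.rpow_le_rpow ((rpow_sum_le _ _ hσ0 hσ1).trans (hLevsum c))
                  (by positivity)
          · rw [← mul_div_assoc]
            simp only [div_eq_mul_inv, ← Finset.sum_mul]
            exact mul_le_mul_left (f.sum_classSq hX x (Ac c) c) _
      _ ≤ _ := by
          rw [Finset.sum_const, nsmul_eq_mul, hC, mul_assoc]
          refine mul_le_mul_right ?_ _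
          rw [mul_add (_ + _ + _ + _)]
          exact add_le_add (mul_le_mul_left (le_add_right le_add_self) _)
            (mul_le_mul_left le_add_self _)

/-- The port count from a port point of the half-tree itself. -/
theorem Seed.port_self [Finite ι] {σ e a : ℝ} (hσ0 : 0 < σ) (hσ1 : σ ≤ 1) (he : 0 < e)
    (hζ : σ₁ < σ * (1 + e)) (ha : 0 < a) {K : ℝ≥0∞} (hK : K ≠ ⊤) :
    ∃ C : ℝ≥0∞, C ≠ ⊤ ∧ ∀ q : unitInterval, (S.q₀ : ℝ) ≤ q → a ≤ q → f.growth q σ ≤ K →
      ∀ X : ℝ≥0∞, (∀ x, ∑' y, f.tau q f.H x y ≤ X) →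
      ∀ (g : Half), ∀ y ∈ f.port g, ∀ N : ℝ, 1 ≤ N →
        f.Y q y g ≤ C * (ENNReal.ofReal (N ^ ((σ * (1 + e) - σ₁) / (1 + e))) ^ (1 / σ) +
          X ^ 3 / ENNReal.ofReal N) := by
  classical
  obtain ⟨Cl, hClt, hlev⟩ := S.levels hσ0 hσ1 he hζ ha
  obtain ⟨Ct, hCtt, htail⟩ := S.tail_port ha hσ0.le hσ1 hK
  obtain ⟨Cs, hCs⟩ := f.exists_classes
  set L4 : ℝ≥0∞ := (Fintype.card Letter : ℝ≥0∞)
  refine ⟨(Cs.card : ℝ≥0∞) * ((Cl * Ct) ^ (1 / σ) + L4), ?_,
    fun q hq haq hgrow X hX g y hy N hN => ?_⟩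
  · exact ENNReal.mul_ne_top (ENNReal.natCast_ne_top _) (ENNReal.add_ne_top.2
      ⟨ENNReal.rpow_ne_top_of_nonneg (by positivity) (ENNReal.mul_ne_top hClt hCtt),
        ENNReal.natCast_ne_top _⟩)
  set ζ := (σ * (1 + e) - σ₁) / (1 + e)
  refine (f.Y_le_classes hCs q y g).trans ((Finset.sum_le_card_nsmul _ _
    (((Cl * Ct) ^ (1 / σ) + L4) * (ENNReal.ofReal (N ^ ζ) ^ (1 / σ) + X ^ 3 / ENNReal.ofReal N))
    fun c _ => ?_).trans (le_of_eq (by rw [nsmul_eq_mul, mul_assoc])))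
  split_ifs with hz
  swap
  · exact zero_le
  obtain ⟨Lev, h1, h2⟩ := hlev q hq haq y {g} (fun _ => f.rep c g) Ct
    (fun i n b hb0 hbt hs => by
      simpa using htail q hq haq hgrow g y hy _ hz i n b hb0 hbt hs) N hN
  rw [Finset.sum_singleton] at h2
  refine (h1 g (Finset.mem_singleton_self g)).trans ?_
  rw [mul_add]
  refine add_le_add ?_ ?_
  · calc Lev g = (Lev g ^ σ) ^ (1 / σ) := by
          rw [← ENNReal.rpow_mul, mul_one_div_cancel hσ0.ne', ENNReal.rpow_one]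
      _ ≤ (Cl * Ct * ENNReal.ofReal (N ^ ζ)) ^ (1 / σ) := ENNReal.rpow_le_rpow h2 (by positivity)
      _ = (Cl * Ct) ^ (1 / σ) * ENNReal.ofReal (N ^ ζ) ^ (1 / σ) :=
          ENNReal.mul_rpow_of_nonneg _ _ (by positivity)
      _ ≤ _ := mul_le_mul_left le_self_add _
  · refine le_trans ?_ (mul_le_mul_left le_add_self _)
    rw [← mul_div_assoc]
    refine ENNReal.div_le_div_right (le_trans ?_ (f.sum_classSq hX y {g} c)) _
    rw [Finset.sum_singleton]

end Vale.Agent.P165.Large
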