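import Mathlib
import Vale.Agent.P165.Large.Geo

/-!
Splitting a connection at its top level towards the end of a word, and averaging over words.
-/

namespace Vale.Agent.P165.Large

open MeasureTheory
open P151 (openOcc)
open scoped ENNReal

variable {W : Type} {p : unitInterval}

/-- The edge sets of walks of length at most `n` from `x` to a vertex of `T`. -/
def witUpTo (K : SimpleGraph W) (x : W) (T : Set W) (n : ℕ) : Set (Finset (Sym2 W)) :=
  {E | ∃ y ∈ T, ∃ q : K.Walk x y, q.length ≤ n ∧ ∀ e, e ∈ E ↔ e ∈ q.edges}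

/-- Connections are the limit of connections by bounded walks. -/
lemma perc_joins_eq_iSup (K : SimpleGraph W) (x : W) (T : Set W) :
    perc W p (joins K x T) = ⨆ n, perc W p (openOcc (witUpTo K x T n)) := by
  rw [← Monotone.measure_iUnion]
  · congr 1
    ext ω
    simp only [Set.mem_iUnion]
    constructor
    · rintro ⟨E, ⟨y, hy, q, hq⟩, ho⟩
      exact ⟨q.length, E, ⟨y, hy, q, le_rfl, hq⟩, ho⟩
    · rintro ⟨n, E, ⟨y, hy, q, -, hq⟩, ho⟩
      exact ⟨E, ⟨y, hy, q, hq⟩, ho⟩
  · rintro a b hab ω ⟨E, ⟨y, hy, q, hl, hq⟩, ho⟩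
    exact ⟨E, ⟨y, hy, q, hl.trans hab, hq⟩, ho⟩

/-- Cut a walk at its first visit to `S`. -/
lemma cut_first {G : SimpleGraph W} (S : Set W) : ∀ {a b : W} (q : G.Walk a b), a ∉ S →
    (∃ v ∈ q.support, v ∈ S) →
      ∃ y c, ∃ r : G.Walk a y, ∃ hc : G.Adj y c, ∃ r' : G.Walk c b,
        c ∈ S ∧ q = r.append (.cons hc r') ∧ ∀ u ∈ r.support, u ∉ S := by
  intro a b q
  induction q with
  | nil =>
    rintro ha ⟨v, hv, hvS⟩
    simp only [SimpleGraph.Walk.support_nil, List.mem_singleton] at hv
    exact absurd (hv ▸ hvS) ha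
  | @cons a c b h q ih =>
    rintro ha ⟨v, hv, hvS⟩
    by_cases hc : c ∈ S
    · exact ⟨a, c, .nil, h, q, hc, rfl, by simpa using ha⟩
    · rcases List.mem_cons.1 (by simpa using hv) with rfl | hv'
      · exact absurd hvS ha
      · obtain ⟨y, c', r, hc', r', h1, h2, h3⟩ := ih hc ⟨v, hv', hvS⟩
        exact ⟨y, c', .cons h r, hc', r', h1, by rw [h2]; rfl, by simpa [ha] using h3⟩

variable {Γ ι : Type} [Group Γ] (f : Frame Γ ι)

/-- The oriented edge at height `t` of a word read from the projection of `x`. -/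
def Frame.nodeAt (x : Γ × ι) (w : List Letter) (t : ℕ) : Half := (node w t).shift (f.pr x)

lemma Frame.nodeAt_take (x : Γ × ι) (u : List Letter) {t n : ℕ} (h : t < n) :
    f.nodeAt x (u.take n) t = f.nodeAt x u t := by
  unfold Frame.nodeAt node
  rw [List.take_take, min_eq_left h.le, List.getD_eq_getElem?_getD, List.getD_eq_getElem?_getD,
    List.getElem?_take_of_lt h]

lemma Frame.mem_nodeAt {x : Γ × ι} {w : List Letter} (hw : FreeGroup.IsReduced w) {t : ℕ}
    (ht : t < w.length) {g : F2} :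
    g ∈ (f.nodeAt x w t).side ↔ t + 1 ≤ lcp ((f.pr x)⁻¹ * g).toWord w := by
  rw [← node_side_iff_lcp hw ht, Frame.nodeAt, ← shift_mem_side (g := f.pr x)
    (h := node w t) (u := (f.pr x)⁻¹ * g), mul_inv_cancel_left]

lemma Frame.nodeAt_len {x : Γ × ι} {w : List Letter} (hw : FreeGroup.IsReduced w) {t : ℕ}
    (ht : t < w.length) {g : F2} (hg : g ∈ (f.nodeAt x w t).side) :
    len ((f.nodeAt x w t).base⁻¹ * g) = ((f.pr x)⁻¹ * g).toWord.length - t := by
  have h1 : (f.pr x)⁻¹ * g ∈ (node w t).side := by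
    rw [← shift_mem_side (g := f.pr x)]
    simpa [Frame.nodeAt] using hg
  rw [← node_len hw ht h1]
  simp [Frame.nodeAt, Half.shift, mul_assoc]

lemma Frame.notMem_nodeAt {x : Γ × ι} {w : List Letter} (hw : FreeGroup.IsReduced w) {t : ℕ}
    (ht : t < w.length) : f.pr x ∉ (f.nodeAt x w t).side := by
  rw [f.mem_nodeAt hw ht, inv_mul_cancel]
  simp [lcp]

/-- A connection splits at its top level towards the end of a reduced word. -/
theorem Frame.split {q : unitInterval} {K : SimpleGraph (Γ × ι)} (hK : K ≤ f.H) (x : Γ × ι)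
    (T : Set (Γ × ι)) (n : ℕ) {u : List Letter} (hu : FreeGroup.IsReduced u)
    (hlen : f.L * n + f.depth + 1 < u.length) :
    perc (Γ × ι) q (openOcc (witUpTo K x T n)) ≤
      perc (Γ × ι) q (joins (K ⊓ f.avoidSide (f.nodeAt x u (f.depth + 1))) x T) +
      ∑ j ∈ Finset.range (u.length - f.depth - 2),
        ∑' y : f.port (f.nodeAt x u (j + 1)),
          f.tau q (f.avoid (f.nodeAt x u (j + 1))) x y *
            perc (Γ × ι) q
              (joins (K ⊓ f.avoidSide (f.nodeAt x u (j + f.depth + 2))) (y : Γ × ι) T) := by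
  classical
  have := f.countable
  let m : ℕ → Half := fun j => f.nodeAt x u (j + 1)
  let A : ℕ → Set (Sym2 (Γ × ι) → Bool) := fun j => {ω | ∃ y ∈ f.port (m j), ∃ z ∈ T,
    ∃ r : (f.avoid (m j)).Walk x y,
      ∃ r' : (K ⊓ f.avoidSide (f.nodeAt x u (j + f.depth + 2))).Walk y z,
      (∀ e ∈ r.edges, ω e = true) ∧ (∀ e ∈ r'.edges, ω e = true) ∧ ∀ e ∈ r.edges, e ∉ r'.edges}
  have hsub : openOcc (witUpTo K x T n) ⊆
      joins (K ⊓ f.avoidSide (f.nodeAt x u (f.depth + 1))) x T ∪
        ⋃ j ∈ Finset.range (u.length - f.depth - 2), A j := by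
    rintro ω ⟨E, ⟨z, hz, q₀, hlq, hE⟩, ho⟩
    let q := q₀.bypass
    have hqe : ∀ e ∈ q.edges, ω e = true :=
      fun e he => ho e ((hE e).2 (q₀.edges_bypass_subset_edges he))
    have hnd : q.edges.Nodup := q₀.bypass_isPath.isTrail.edges_nodup
    let lv : Γ × ι → ℕ := fun v => lcp ((f.pr x)⁻¹ * f.pr v).toWord u
    obtain ⟨v₀, hv₀, hmax⟩ := q.support.toFinset.exists_max_image lv
      ⟨x, List.mem_toFinset.2 q.start_mem_support⟩
    rw [List.mem_toFinset] at hv₀
    have hM : ∀ v ∈ q.support, lv v ≤ lv v₀ := fun v hv => hmax v (List.mem_toFinset.2 hv)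
    have hMn : lv v₀ ≤ f.L * n := by
      have h1 := f.walk_len (q.mapLe hK) v₀
        (by rwa [SimpleGraph.Walk.support_mapLe_eq_support])
      have h2 := lcp_le_left ((f.pr x)⁻¹ * f.pr v₀).toWord u
      have h3 : f.L * (q.mapLe hK).length ≤ f.L * n :=
        Nat.mul_le_mul_left _ (by
          simpa [SimpleGraph.Walk.mapLe] using q₀.length_bypass_le_length.trans hlq)
      exact h2.trans (h1.trans h3)
    have houts : ∀ t, lv v₀ ≤ t → t < u.length → ∀ v ∈ q.support,
        f.pr v ∉ (f.nodeAt x u t).side := by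
      intro t ht htu v hv hs
      have := (f.mem_nodeAt hu htu).1 hs
      have h2 := hM v hv
      simp only [lv] at h2 ht
      omega
    by_cases hsmall : lv v₀ ≤ f.depth + 1
    · left
      refine mem_joins.2 ⟨z, hz, reachable_openGraph_of_walk (q.transfer _ fun e he => ?_)
        fun e he => hqe e (by simpa using he)⟩
      induction e using Sym2.ind with
      | _ a b =>
        exact ⟨q.adj_of_mem_edges he, hK (q.adj_of_mem_edges he),
          houts _ hsmall (by omega) a (q.fst_mem_support_of_mem_edges he),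
          houts _ hsmall (by omega) b (q.snd_mem_support_of_mem_edges he)⟩
    · right
      obtain ⟨j, hj⟩ : ∃ j, lv v₀ = j + f.depth + 2 := ⟨lv v₀ - f.depth - 2, by omega⟩
      refine Set.mem_iUnion₂.2 ⟨j, Finset.mem_range.2 (by omega), ?_⟩
      have hju : j + 1 < u.length := by omega
      have hx : x ∉ f.Vs (m j) := fun h => f.notMem_nodeAt hu hju h.1
      have hv₀' : v₀ ∈ f.Vs (m j) := by
        have hs : f.pr v₀ ∈ (m j).side := (f.mem_nodeAt hu hju).2 (by simp only [lv] at hj; omega)
        refine f.deep_mem_Vs hs ?_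
        rw [f.nodeAt_len hu hju hs]
        have := lcp_le_left ((f.pr x)⁻¹ * f.pr v₀).toWord u
        simp only [lv] at hj
        omega
      obtain ⟨a, c, r, hac, r', hc, hq, hr⟩ := cut_first (f.Vs (m j)) q hx ⟨v₀, hv₀, hv₀'⟩
      have ha : a ∉ f.Vs (m j) := hr a r.end_mem_support
      have hsupp : ∀ v ∈ r'.support, v ∈ q.support := fun v hv => by
        rw [hq, SimpleGraph.Walk.mem_support_append_iff]
        exact Or.inr (by simp [hv])
      have hedges : q.edges = r.edges ++ s(a, c) :: r'.edges := by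
        rw [hq, SimpleGraph.Walk.edges_append, SimpleGraph.Walk.edges_cons]
      have hadj : f.H.Adj a c := hK hac
      refine ⟨c, ⟨hc, a, hadj.symm, ha⟩, z, hz,
        (r.concat hac).transfer _ (fun e he => ?_), r'.transfer _ (fun e he => ?_),
        fun e he => ?_, fun e he => ?_, fun e he he' => ?_⟩
      · simp only [SimpleGraph.Walk.edges_concat, List.concat_eq_append, List.mem_append,
          List.mem_singleton] at he
        rcases he with he | rfl
        · induction e using Sym2.ind with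
          | _ v w => exact ⟨hK (r.adj_of_mem_edges he),
              fun hh => hr v (r.fst_mem_support_of_mem_edges he) hh.1⟩
        · exact ⟨hadj, fun hh => ha hh.1⟩
      · induction e using Sym2.ind with
        | _ v w =>
          exact ⟨r'.adj_of_mem_edges he, hK (r'.adj_of_mem_edges he),
            houts _ hj.le (by omega) v (hsupp v (r'.fst_mem_support_of_mem_edges he)),
            houts _ hj.le (by omega) w (hsupp w (r'.snd_mem_support_of_mem_edges he))⟩
      · simp only [SimpleGraph.Walk.edges_transfer, SimpleGraph.Walk.edges_concat,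
          List.concat_eq_append, List.mem_append, List.mem_singleton] at he
        exact hqe e (by rw [hedges]; simp only [List.mem_append, List.mem_cons]; tauto)
      · rw [SimpleGraph.Walk.edges_transfer] at he
        exact hqe e (by rw [hedges]; simp [he])
      · simp only [SimpleGraph.Walk.edges_transfer, SimpleGraph.Walk.edges_concat,
          List.concat_eq_append, List.mem_append, List.mem_singleton] at he he'
        rw [hedges, List.nodup_append, List.nodup_cons] at hnd
        rcases he with he | rfl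
        · exact hnd.2.2 e he e (List.mem_cons_of_mem _ he') rfl
        · exact hnd.2.1.1 he'
  refine (measure_mono hsub).trans ((measure_union_le _ _).trans (add_le_add le_rfl ?_))
  refine (measure_biUnion_finset_le _ _).trans (Finset.sum_le_sum fun j _ => ?_)
  exact bk_split fun ω hω => hω

/-- Averaging over the words of a length a function of their first letters. -/
lemma avg_take {M : Type} [AddCommMonoid M] {T k : ℕ} (hk : 1 ≤ k) (hkT : k ≤ T)
    (F : List Letter → M) :
    ∑ u ∈ sphere T, F (u.take k) = 3 ^ (T - k) • ∑ w ∈ sphere k, F w := by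
  classical
  have hmem : ∀ u ∈ sphere T, u.take k ∈ sphere k := fun u hu => by
    obtain ⟨h1, h2⟩ := mem_sphere.1 hu
    exact mem_sphere.2 ⟨isReduced_take h1 _, by simp; omega⟩
  rw [← Finset.sum_fiberwise_of_maps_to hmem, Finset.smul_sum]
  refine Finset.sum_congr rfl fun w hw => ?_
  obtain ⟨hw1, hw2⟩ := mem_sphere.1 hw
  have hfilt : (sphere T).filter (fun u => u.take k = w) = (sphere T).filter fun u => w <+: u := by
    refine Finset.filter_congr fun u hu => ?_
    rw [List.prefix_iff_eq_take, hw2]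
    exact eq_comm
  rw [Finset.sum_congr rfl (g := fun _ => F w) (fun u hu => by
      rw [(Finset.mem_filter.1 hu).2]), Finset.sum_const, hfilt,
    card_extensions hw1 (hw2 ▸ hk) (hw2 ▸ hkT), hw2]

lemma card_sphere_pos {T : ℕ} : (sphere (T + 1)).card = 4 * 3 ^ T := by
  have h := avg_take (M := ℕ) le_rfl (Nat.succ_le_succ (Nat.zero_le T)) fun _ => 1
  simp only [Finset.sum_const, smul_eq_mul, mul_one, card_sphere_one] at h
  simpa [mul_comm] using h

/-- The decomposition averaged over all ends. -/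
theorem Frame.split_avg {q : unitInterval} {K : SimpleGraph (Γ × ι)} (hK : K ≤ f.H) (x : Γ × ι)
    (T : Set (Γ × ι)) :
    perc (Γ × ι) q (joins K x T) ≤
      ∑ w ∈ sphere (f.depth + 2),
        perc (Γ × ι) q (joins (K ⊓ f.avoidSide (f.nodeAt x w (f.depth + 1))) x T) +
      ∑' j : ℕ, (3⁻¹ : ℝ≥0∞) ^ (j + f.depth + 2) * ∑ w ∈ sphere (j + f.depth + 3),
        ∑' y : f.port (f.nodeAt x w (j + 1)),
          f.tau q (f.avoid (f.nodeAt x w (j + 1))) x y *
            perc (Γ × ι) q
              (joins (K ⊓ f.avoidSide (f.nodeAt x w (j + f.depth + 2))) (y : Γ × ι) T) := by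
  classical
  rw [perc_joins_eq_iSup]
  refine iSup_le fun n => ?_
  set N := f.L * n + f.depth + 2 with hN
  set F₀ : List Letter → ℝ≥0∞ := fun w =>
    perc (Γ × ι) q (joins (K ⊓ f.avoidSide (f.nodeAt x w (f.depth + 1))) x T) with hF₀
  set F₁ : ℕ → List Letter → ℝ≥0∞ := fun j w =>
    ∑' y : f.port (f.nodeAt x w (j + 1)),
      f.tau q (f.avoid (f.nodeAt x w (j + 1))) x y * perc (Γ × ι) q
        (joins (K ⊓ f.avoidSide (f.nodeAt x w (j + f.depth + 2))) (y : Γ × ι) T) with hF₁
  set P := perc (Γ × ι) q (openOcc (witUpTo K x T n))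
  have hpt : ∀ u ∈ sphere N, P ≤ F₀ (u.take (f.depth + 2)) +
      ∑ j ∈ Finset.range (N - f.depth - 2), F₁ j (u.take (j + f.depth + 3)) := by
    intro u hu
    obtain ⟨hu1, hu2⟩ := mem_sphere.1 hu
    have h := f.split (q := q) hK x T n hu1 (by omega)
    rw [hu2] at h
    refine h.trans (le_of_eq ?_)
    simp only [hF₀, hF₁]
    rw [f.nodeAt_take x u (by omega : f.depth + 1 < f.depth + 2)]
    congr 1
    refine Finset.sum_congr rfl fun j _ => ?_
    rw [f.nodeAt_take x u (by omega : j + 1 < j + f.depth + 3),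
      f.nodeAt_take x u (by omega : j + f.depth + 2 < j + f.depth + 3)]
  have hsum := Finset.sum_le_sum hpt
  rw [Finset.sum_const, Finset.sum_add_distrib, Finset.sum_comm,
    avg_take (by omega) (by omega), nsmul_eq_mul] at hsum
  obtain ⟨N', hN'⟩ : ∃ N', N = N' + 1 := ⟨f.L * n + f.depth + 1, by omega⟩
  have hcard : ((sphere N).card : ℝ≥0∞) = 4 * 3 ^ N' := by
    rw [hN', card_sphere_pos]; push_cast; rfl
  have hS0 : ((sphere N).card : ℝ≥0∞) ≠ 0 := by rw [hcard]; simp
  have hSt : ((sphere N).card : ℝ≥0∞) ≠ ⊤ := ENNReal.natCast_ne_top _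
  refine (ENNReal.mul_le_mul_iff_right hS0 hSt).1 (hsum.trans ?_)
  rw [mul_add]
  refine add_le_add ?_ ?_
  · rw [nsmul_eq_mul, hcard]
    refine mul_le_mul_left ?_ _
    push_cast
    calc (3 : ℝ≥0∞) ^ (N - (f.depth + 2)) ≤ 3 ^ N' := pow_le_pow_right₀ (by norm_num) (by omega)
      _ ≤ 4 * 3 ^ N' := le_mul_of_one_le_left zero_le (by norm_num)
  · refine le_trans ?_ (mul_le_mul_right (ENNReal.sum_le_tsum (Finset.range (N - f.depth - 2))) _)
    rw [Finset.mul_sum]
    refine Finset.sum_le_sum fun j hj => ?_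
    have hj' := Finset.mem_range.1 hj
    rw [avg_take (by omega) (by omega), nsmul_eq_mul, ← mul_assoc, hcard]
    refine mul_le_mul_left ?_ _
    push_cast
    have h3 : (3 : ℝ≥0∞) ^ (j + f.depth + 2) * (3⁻¹ : ℝ≥0∞) ^ (j + f.depth + 2) = 1 := by
      rw [← mul_pow, ENNReal.mul_inv_cancel (by norm_num) (by norm_num), one_pow]
    calc (3 : ℝ≥0∞) ^ (N - (j + f.depth + 3))
        = 3 ^ (N - (j + f.depth + 3)) *
            ((3 : ℝ≥0∞) ^ (j + f.depth + 2) * (3⁻¹ : ℝ≥0∞) ^ (j + f.depth + 2)) := by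
          rw [h3, mul_one]
      _ = 3 ^ N' * (3⁻¹ : ℝ≥0∞) ^ (j + f.depth + 2) := by
          rw [← mul_assoc, ← pow_add]; congr 2; omega
      _ ≤ _ := mul_le_mul_left (le_mul_of_one_le_left zero_le (by norm_num)) _

end Vale.Agent.P165.Large
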