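import Mathlib
import Vale.Agent.P165.Large.Ports
import Vale.Agent.P165.Large.Split

/-!
Connections that leave a root are summable over codes, and the reach of a vertex is finite.
-/

namespace Vale.Agent.P165.Large

open MeasureTheory
open scoped ENNReal

variable {Γ ι : Type} [Group Γ] (f : Frame Γ ι)

/-- The vertices within distance `R` of the base of `h`, outside its side. -/
def Frame.near (h : Half) (R : ℕ) : Set (Γ × ι) :=
  {y | f.pr y ∉ h.side ∧ len (h.base⁻¹ * f.pr y) ≤ R}

lemma Frame.notMem_of_conn {h : Half} {K : SimpleGraph (Γ × ι)} (hK : K ≤ f.avoidSide h)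
    {z y : Γ × ι} {ω : Sym2 (Γ × ι) → Bool} (hc : ω ∈ conn K z y) (hz : f.pr z ∉ h.side) :
    f.pr y ∉ h.side := by
  classical
  obtain ⟨p, -, -⟩ := exists_path_of_mem_conn hc
  clear hc
  induction p with
  | nil => exact hz
  | cons ha _ ih => exact ih (hK ha).2.2

/-- From a vertex near a root the crossings of a code are summable. -/
theorem Frame.root_sum [Finite ι] {a : ℝ} (ha : 0 < a) (R : ℕ) :
    ∃ C : ℝ≥0∞, C ≠ ⊤ ∧ ∀ q : unitInterval, a ≤ q → ∀ σ : ℝ, 0 ≤ σ → σ ≤ 1 →
      ∀ (h : Half), ∀ y ∈ f.near h R, ∀ A : Finset Half, RootCode h A →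
        ∑ g ∈ A, f.meet q h g y (f.port g) ^ σ ≤ C * (1 + f.growth q σ) := by
  classical
  have := f.countable
  set M := f.rad * (R + f.depth + 2)
  obtain ⟨B, hB⟩ := mem_ballFin (R + f.L * M)
  set c : ℝ≥0∞ := ENNReal.ofReal (a ^ M)
  have hc0 : c ≠ 0 := by simp [c, pow_pos ha M]
  refine ⟨B.card + c⁻¹, by simp [hc0], fun q haq σ hσ hσ1 h y hy A hA => ?_⟩
  rw [mul_add, mul_one,
    ← Finset.sum_filter_add_sum_filter_not A (fun g => ¬Far g h.base (R + f.L * M))]
  refine add_le_add ?_ ?_
  · refine le_trans (Finset.sum_le_sum fun g _ => ENNReal.rpow_le_one (f.meet_le_one ..) hσ) ?_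
    rw [Finset.sum_const, nsmul_one]
    refine le_trans ?_ le_self_add
    exact_mod_cast card_not_far hA.1 fun u hu => (hB u).2 hu
  · obtain ⟨y', hy', r, hr⟩ := f.out_port h y fun hv => hy.1 hv.1
    have hrM : r.length ≤ M := hr.trans (Nat.mul_le_mul_left _ (by have := hy.2; omega))
    simp only [not_not]
    set A₁ := A.filter fun g => Far g h.base (R + f.L * M) with hA₁
    have hkey : ∀ g ∈ A₁, f.meet q h g y (f.port g) ^ σ ≤
        c⁻¹ * f.meet q h g y' (f.port g) ^ σ := by
      intro g hg
      have hfar := (Finset.mem_filter.1 hg).2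
      have hedge : ∀ e ∈ r.reverse.edges, e ∈ (f.avoid h ⊓ f.avoid g).edgeSet := by
        intro e he
        rw [SimpleGraph.Walk.edges_reverse, List.mem_reverse] at he
        have h1 := r.edges_subset_edgeSet he
        have h2 := f.edges_avoid (f.avoid_le h) r hfar (fun u hu => by
          have h3 := f.walk_len (r.mapLe (f.avoid_le h)) u
            (by rwa [SimpleGraph.Walk.support_mapLe_eq_support])
          have h4 := len_dist_le h.base (f.pr y) (f.pr u)
          have h5 : f.L * (r.mapLe (f.avoid_le h)).length ≤ f.L * M :=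
            Nat.mul_le_mul_left _ (by simpa [SimpleGraph.Walk.mapLe] using hrM)
          have h6 := hy.2
          omega) e he
        induction e using Sym2.ind with
        | _ u v => exact ⟨h1, h2⟩
      have hw : c * f.meet q h g y (f.port g) ≤ f.meet q h g y' (f.port g) :=
        le_trans (mul_le_mul_left
          (ENNReal.ofReal_le_ofReal (pow_le_pow_left₀ ha.le haq M)) _)
          (walk_joins (r.reverse.transfer _ hedge) (by simpa using hrM) _)
      calc f.meet q h g y (f.port g) ^ σ ≤ (c⁻¹ * f.meet q h g y' (f.port g)) ^ σ := by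
            refine ENNReal.rpow_le_rpow ?_ hσ
            rw [← ENNReal.div_eq_inv_mul, ENNReal.le_div_iff_mul_le (Or.inl hc0)
              (Or.inl ENNReal.ofReal_ne_top), mul_comm]
            exact hw
        _ ≤ _ := by
            rw [ENNReal.mul_rpow_of_nonneg _ _ hσ]
            refine mul_le_mul_left (le_trans (ENNReal.rpow_le_rpow_of_exponent_le ?_ hσ1)
              (ENNReal.rpow_one _).le) _
            rw [ENNReal.one_le_inv]
            exact ENNReal.ofReal_le_one.2 (pow_le_one₀ ha.le (haq.trans q.2.2))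
    refine (Finset.sum_le_sum hkey).trans ?_
    rw [← Finset.mul_sum]
    exact mul_le_mul' le_add_self (f.le_growth q σ hy' (hA.subset (Finset.filter_subset _ _)))

/-- The part of a connection after its top level is summable over codes. -/
theorem Frame.rest [Finite ι] {a : ℝ} (ha : 0 < a) (R : ℕ) :
    ∃ C : ℝ≥0∞, C ≠ ⊤ ∧ ∀ q : unitInterval, a ≤ q → ∀ σ : ℝ, 0 < σ → σ ≤ 1 →
      ∀ (h : Half) (A : Finset Half), (A : Set Half).PairwiseDisjoint Half.side →
        ∑ g ∈ A, (⨆ y ∈ f.near h R, perc (Γ × ι) q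
          (joins (f.avoid g ⊓ f.avoidSide h) y (f.port g))) ^ σ ≤ C * (1 + f.growth q σ) := by
  classical
  have := Fintype.ofFinite ι
  obtain ⟨C₀, hC₀, hroot⟩ := f.root_sum ha R
  obtain ⟨B₁, hB₁⟩ := mem_ballFin 1
  obtain ⟨B, hB⟩ := mem_ballFin R
  set S : Finset (F2 × ι) := B ×ˢ Finset.univ
  refine ⟨B₁.card + S.card * C₀, by
    exact ENNReal.add_ne_top.2 ⟨ENNReal.natCast_ne_top _,
      ENNReal.mul_ne_top (ENNReal.natCast_ne_top _) hC₀⟩, fun q haq σ hσ hσ1 h A hA => ?_⟩
  set φ : Half → ℝ≥0∞ := fun g => ⨆ y ∈ f.near h R, perc (Γ × ι) q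
    (joins (f.avoid g ⊓ f.avoidSide h) y (f.port g))
  rw [add_mul, ← Finset.sum_filter_add_sum_filter_not A (fun g => ¬Far g h.base 1)]
  refine add_le_add ?_ ?_
  · refine le_trans (Finset.sum_le_sum fun g _ => ENNReal.rpow_le_one
      (iSup₂_le fun _ _ => prob_le_one) hσ.le) ?_
    rw [Finset.sum_const, nsmul_one]
    exact le_trans (Nat.cast_le.2 (card_not_far hA fun u hu => (hB₁ u).2 hu))
      (le_mul_of_one_le_right zero_le le_self_add)
  · simp only [not_not]
    set A₁ := A.filter fun g => Far g h.base 1 ∧ Disjoint g.side h.side with hA₁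
    have hzero : ∀ g ∈ A.filter (fun g => Far g h.base 1), g ∉ A₁ → φ g ^ σ = 0 := by
      intro g hg hg1
      obtain ⟨hgA, hfar⟩ := Finset.mem_filter.1 hg
      have hb : h.base ∉ g.side := fun hh => by
        have := hfar _ hh
        simp [len_one] at this
      have hh : h.base * letter h.dir ∉ g.side := fun hh => by
        have := hfar _ hh
        simp [len_letter] at this
      have hsub : g.side ⊆ h.side := (trichotomy hb hh).resolve_right fun hd =>
        hg1 (Finset.mem_filter.2 ⟨hgA, hfar, hd⟩)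
      have : φ g = 0 := by
        simp only [φ, ENNReal.iSup_eq_zero]
        intro y hy
        rw [show joins (f.avoid g ⊓ f.avoidSide h) y (f.port g) = ∅ from ?_, measure_empty]
        refine Set.eq_empty_of_forall_notMem fun ω hω => ?_
        obtain ⟨v, hv, hc⟩ := mem_joins.1 hω
        exact f.notMem_of_conn inf_le_right hc hy.1 (hsub hv.1.1)
      rw [this, ENNReal.zero_rpow_of_pos hσ]
    rw [← Finset.sum_subset (s₁ := A₁) (fun g hg => Finset.mem_filter.2
      ⟨(Finset.mem_filter.1 hg).1, (Finset.mem_filter.1 hg).2.1⟩) hzero]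
    have hbound : ∀ g ∈ A₁, φ g ^ σ ≤ ∑ c ∈ S, if f.rep c h ∈ f.near h R then
        f.meet q h g (f.rep c h) (f.port g) ^ σ else 0 := by
      intro g _
      have h1 : φ g ≤ ∑ c ∈ S, if f.rep c h ∈ f.near h R then
          f.meet q h g (f.rep c h) (f.port g) else 0 := by
        refine iSup₂_le fun y hy => ?_
        set c : F2 × ι := (h.base⁻¹ * f.pr y, y.2)
        have hc : c ∈ S := Finset.mem_product.2 ⟨(hB _).2 hy.2, Finset.mem_univ _⟩
        have hpr : f.pr (f.rep c h) = f.pr y := by simp [c, Frame.rep, Frame.pr, f.π_sec]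
        refine le_trans ?_ (Finset.single_le_sum (fun _ _ => zero_le) hc)
        rw [if_pos ⟨by rw [hpr]; exact hy.1, by rw [hpr]; exact hy.2⟩,
          ← f.meet_class (y := f.rep c h) (y' := y) ⟨hpr.symm, rfl⟩]
        refine measure_mono (joins_mono ?_ _ subset_rfl)
        exact le_inf (inf_le_right.trans (f.avoidSide_le_avoid h)) inf_le_left
      refine (ENNReal.rpow_le_rpow h1 hσ.le).trans ((rpow_sum_le _ _ hσ hσ1).trans
        (le_of_eq (Finset.sum_congr rfl fun c _ => ?_)))
      split_ifs
      · rfl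
      · exact ENNReal.zero_rpow_of_pos hσ
    refine (Finset.sum_le_sum hbound).trans ?_
    rw [Finset.sum_comm, mul_assoc, ← nsmul_eq_mul]
    refine Finset.sum_le_card_nsmul _ _ _ fun c _ => ?_
    by_cases hc : f.rep c h ∈ f.near h R
    · simp only [if_pos hc]
      exact hroot q haq σ hσ.le hσ1 h _ hc A₁
        ⟨hA.subset (Finset.coe_subset.2 (Finset.filter_subset _ _)),
          fun g hg => (Finset.mem_filter.1 hg).2.2⟩
    · simp [hc]

/-- The reach of every vertex is finite below the critical point. -/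
theorem Frame.reach_ne_top [Finite ι] {q : unitInterval} (hq0 : 0 < (q : ℝ))
    (hqc : (q : ℝ) < pc f.H) {σ : ℝ} (hσ : 0 < σ) (hσ1 : σ ≤ 1) (hg : f.growth q σ ≠ ⊤)
    (x : Γ × ι) : f.reach q σ x ≠ ⊤ := by
  classical
  have := f.countable
  obtain ⟨X, hX, hsusc⟩ := f.susc_finite hqc
  obtain ⟨C₀, hC₀, hroot⟩ := f.root_sum hq0 0
  obtain ⟨Cs, hCs⟩ := f.exists_classes
  set D : ℝ≥0∞ := C₀ * (1 + f.growth q σ) + X ^ σ * (Cs.card * f.growth q σ) with hD
  have hDt : D ≠ ⊤ := ENNReal.add_ne_top.2 ⟨ENNReal.mul_ne_top hC₀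
    (ENNReal.add_ne_top.2 ⟨ENNReal.one_ne_top, hg⟩), ENNReal.mul_ne_top
    (ENNReal.rpow_ne_top_of_nonneg hσ.le hX) (ENNReal.mul_ne_top (ENNReal.natCast_ne_top _) hg)⟩
  obtain ⟨ℓ₁, ℓ₂, hℓ⟩ : ∃ ℓ₁ ℓ₂ : Letter, ℓ₁ ≠ ℓ₂ := ⟨(0, true), (1, true), by decide⟩
  have hone : ∀ (h : Half), h.base = f.pr x → ∀ A : Finset Half, RootCode h A →
      ∑ g ∈ A, perc (Γ × ι) q (joins (f.avoid g) x (f.port g)) ^ σ ≤ D := by
    intro h hb A hA
    have hx : x ∈ f.near h 0 := ⟨hb ▸ h.base_notMem, by simp [hb, len_one]⟩
    have hbk : ∀ g ∈ A, perc (Γ × ι) q (joins (f.avoid g) x (f.port g)) ≤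
        f.meet q h g x (f.port g) + X * ∑ c ∈ Cs, if f.rep c h ∈ f.port h then
          f.meet q h g (f.rep c h) (f.port g) else 0 := by
      intro g hgA
      let E : Set (Sym2 (Γ × ι) → Bool) := {ω | ∃ c ∈ f.port h, ∃ z ∈ f.port g,
        ∃ r : f.H.Walk x c, ∃ r' : (f.avoid h ⊓ f.avoid g).Walk c z,
        (∀ e ∈ r.edges, ω e = true) ∧ (∀ e ∈ r'.edges, ω e = true) ∧ ∀ e ∈ r.edges, e ∉ r'.edges}
      have hsub : joins (f.avoid g) x (f.port g) ⊆
          joins (f.avoid h ⊓ f.avoid g) x (f.port g) ∪ E := by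
        intro ω hω
        obtain ⟨z, hz, hc⟩ := mem_joins.1 hω
        obtain ⟨p, hp, hpo⟩ := exists_path_of_mem_conn hc
        by_cases hv : ∃ v ∈ p.reverse.support, v ∈ f.Vs h
        · right
          obtain ⟨b, c, r, hbc, r', hc', hq, hr⟩ :=
            cut_first (f.Vs h) p.reverse (f.Vs_disjoint (hA.2 g hgA) hz.1) hv
          have hbv : b ∉ f.Vs h := hr b r.end_mem_support
          have hedges : p.reverse.edges = r.edges ++ s(b, c) :: r'.edges := by
            rw [hq, SimpleGraph.Walk.edges_append, SimpleGraph.Walk.edges_cons]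
          have hopen : ∀ e ∈ r.edges ++ s(b, c) :: r'.edges, ω e = true := fun e he =>
            hpo e (List.mem_toFinset.2 (by simpa [← hedges] using he))
          have hnd : (r.edges ++ s(b, c) :: r'.edges).Nodup := by
            rw [← hedges, SimpleGraph.Walk.edges_reverse, List.nodup_reverse]
            exact hp.isTrail.edges_nodup
          refine ⟨c, ⟨hc', b, hbc.1.symm, hbv⟩, z, hz, (r'.mapLe (f.avoid_le g)).reverse,
            ((r.concat hbc).transfer _ fun e he => ?_).reverse, fun e he => ?_, fun e he => ?_,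
            fun e he he' => ?_⟩
          · simp only [SimpleGraph.Walk.edges_concat, List.concat_eq_append, List.mem_append,
              List.mem_singleton] at he
            rcases he with he | rfl
            · induction e using Sym2.ind with
              | _ v w => exact ⟨⟨(r.adj_of_mem_edges he).1,
                  fun hh => hr v (r.fst_mem_support_of_mem_edges he) hh.1⟩, r.adj_of_mem_edges he⟩
            · exact ⟨⟨hbc.1, fun hh => hbv hh.1⟩, hbc⟩
          · exact hopen e (by simp at he; simp [he])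
          · refine hopen e ?_
            simp only [SimpleGraph.Walk.edges_reverse, List.mem_reverse,
              SimpleGraph.Walk.edges_transfer, SimpleGraph.Walk.edges_concat,
              List.concat_eq_append, List.mem_append, List.mem_singleton] at he
            simp only [List.mem_append, List.mem_cons]
            tauto
          · simp only [SimpleGraph.Walk.edges_reverse, List.mem_reverse,
              SimpleGraph.Walk.edges_transfer, SimpleGraph.Walk.edges_concat,
              List.concat_eq_append, List.mem_append, List.mem_singleton,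
              SimpleGraph.Walk.edges_mapLe_eq_edges] at he he'
            rw [List.nodup_append, List.nodup_cons] at hnd
            rcases he' with he' | rfl
            · exact hnd.2.2 e he' e (List.mem_cons_of_mem _ he) rfl
            · exact hnd.2.1.1 he
        · left
          push Not at hv
          refine mem_joins.2 ⟨z, hz, reachable_openGraph_of_walk (p.transfer _ fun e he => ?_)
            fun e he => hpo e (by simpa using he)⟩
          induction e using Sym2.ind with
          | _ v w =>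
            exact ⟨⟨(p.adj_of_mem_edges he).1, fun hh => hv v
              (by simpa using p.fst_mem_support_of_mem_edges he) hh.1⟩, p.adj_of_mem_edges he⟩
      refine (measure_mono hsub).trans ((measure_union_le _ _).trans (add_le_add le_rfl ?_))
      refine (bk_split (fun ω hω => hω)).trans ?_
      calc ∑' c : f.port h, perc (Γ × ι) q (conn f.H x c) *
            perc (Γ × ι) q (joins (f.avoid h ⊓ f.avoid g) (c : Γ × ι) (f.port g))
          ≤ ∑' c : f.port h, f.tau q f.H x c * ∑ d ∈ Cs, (if f.rep d h ∈ f.port h then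
              f.meet q h g (f.rep d h) (f.port g) else 0) := by
            refine ENNReal.tsum_le_tsum fun c => mul_le_mul_right ?_ _
            obtain ⟨d, hd, hcd⟩ := hCs h c c.2
            refine le_trans ?_ (Finset.single_le_sum (fun _ _ => zero_le) hd)
            have hcd' : (c : Γ × ι) ∈ f.sameClass (f.rep d h) := hcd
            rw [if_pos (f.sameClass_port c.2 ⟨hcd'.1.symm, hcd'.2.symm⟩),
              ← f.meet_class (y := f.rep d h) (y' := (c : Γ × ι)) hcd']
            exact le_rfl
        _ ≤ _ := by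
            rw [ENNReal.tsum_mul_right]
            exact mul_le_mul_left ((ENNReal.tsum_comp_le_tsum_of_injective
              Subtype.val_injective fun y => f.tau q f.H x y).trans (hsusc x)) _
    have hpow : ∀ g ∈ A, perc (Γ × ι) q (joins (f.avoid g) x (f.port g)) ^ σ ≤
        f.meet q h g x (f.port g) ^ σ + X ^ σ * ∑ c ∈ Cs, (if f.rep c h ∈ f.port h then
          f.meet q h g (f.rep c h) (f.port g) ^ σ else 0) := by
      intro g hgA
      refine (ENNReal.rpow_le_rpow (hbk g hgA) hσ.le).trans
        ((ENNReal.rpow_add_le_add_rpow _ _ hσ.le hσ1).trans (add_le_add le_rfl ?_))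
      rw [ENNReal.mul_rpow_of_nonneg _ _ hσ.le]
      refine mul_le_mul_right ((rpow_sum_le _ _ hσ hσ1).trans
        (le_of_eq (Finset.sum_congr rfl fun c _ => ?_))) _
      split_ifs
      · rfl
      · exact ENNReal.zero_rpow_of_pos hσ
    refine (Finset.sum_le_sum hpow).trans ?_
    rw [Finset.sum_add_distrib, ← Finset.mul_sum, Finset.sum_comm, hD, ← nsmul_eq_mul]
    refine add_le_add (hroot q le_rfl σ hσ.le hσ1 h x hx A hA)
      (mul_le_mul_right (Finset.sum_le_card_nsmul _ _ _ fun c _ => ?_) _)
    by_cases hc : f.rep c h ∈ f.port h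
    · simp only [if_pos hc]; exact f.le_growth q σ hc hA
    · simp [hc]
  refine ne_top_of_le_ne_top (ENNReal.add_ne_top.2 ⟨hDt, hDt⟩) (iSup₂_le fun A hA => ?_)
  rw [← Finset.sum_filter_add_sum_filter_not A (fun g => Disjoint g.side (Half.side ⟨f.pr x, ℓ₁⟩))]
  refine add_le_add (hone ⟨f.pr x, ℓ₁⟩ rfl _
    ⟨hA.1.subset (Finset.coe_subset.2 (Finset.filter_subset _ _)),
      fun g hg => (Finset.mem_filter.1 hg).2⟩)
    (hone ⟨f.pr x, ℓ₂⟩ rfl _
    ⟨hA.1.subset (Finset.coe_subset.2 (Finset.filter_subset _ _)), fun g hg => ?_⟩)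
  obtain ⟨hgA, hgnd⟩ := Finset.mem_filter.1 hg
  obtain ⟨u, hu, hu1⟩ := Set.not_disjoint_iff.1 hgnd
  refine Set.disjoint_left.2 fun u' hu' hu2 => hℓ ?_
  have key : ∀ v ∈ g.side, (((f.pr x)⁻¹ * v).toWord).head? =
      (((f.pr x)⁻¹ * g.base).toWord ++ [g.dir]).head? := by
    intro v hv
    rw [toWord_nested (h := ⟨f.pr x, ℓ₁⟩) (hA.2 g hgA) hv, List.head?_append, List.head?_append,
      mem_side.1 hv]
    rfl
  exact Option.some_inj.1 ((mem_side.1 hu1).symm.trans
    ((key u hu).trans ((key u' hu').symm.trans (mem_side.1 hu2))))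

end Vale.Agent.P165.Large
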