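import Mathlib
import Vale.Agent.P165.Large.Rest

/-!
The recursion: the reach of a vertex is at most a small power of the susceptibility.
-/

namespace Vale.Agent.P165.Large

open MeasureTheory
open scoped ENNReal

lemma node_base_dist {w : List Letter} (hw : FreeGroup.IsReduced w) {t t' : ℕ} (htt : t ≤ t')
    (ht' : t' ≤ w.length) : len ((node w t').base⁻¹ * (node w t).base) = t' - t := by
  have h := len_inv_mul (node w t).base (node w t').base
  rw [node_base_toWord hw, node_base_toWord hw,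
    lcp_of_prefix (List.take_prefix_take_left htt), List.length_take] at h
  have h1 : len (node w t).base = t := by rw [len, node_base_toWord hw]; simp; omega
  have h2 : len (node w t').base = t' := by rw [len, node_base_toWord hw]; simp; omega
  rw [len_dist_comm]
  omega

lemma rpow_tsum_le {α : Type} (v : α → ℝ≥0∞) {σ : ℝ} (h0 : 0 < σ) (h1 : σ ≤ 1) :
    (∑' a, v a) ^ σ ≤ ∑' a, v a ^ σ := by
  have h : ∑' a, v a ≤ (∑' a, v a ^ σ) ^ (1 / σ) := by
    rw [ENNReal.tsum_eq_iSup_sum]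
    refine iSup_le fun s => ?_
    calc ∑ a ∈ s, v a = ((∑ a ∈ s, v a) ^ σ) ^ (1 / σ) := by
          rw [← ENNReal.rpow_mul, mul_one_div_cancel h0.ne', ENNReal.rpow_one]
      _ ≤ _ := ENNReal.rpow_le_rpow ((rpow_sum_le s v h0 h1).trans (ENNReal.sum_le_tsum s))
          (by positivity)
  refine (ENNReal.rpow_le_rpow h h0.le).trans (le_of_eq ?_)
  rw [← ENNReal.rpow_mul, one_div_mul_cancel h0.ne', ENNReal.rpow_one]

lemma le_two_mul_of_le_add_half {r A : ℝ≥0∞} (hr : r ≠ ⊤) (h : r ≤ A + r / 2) : r ≤ 2 * A := by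
  have h2 : r / 2 ≠ ⊤ := ENNReal.div_ne_top hr two_ne_zero
  have h3 : r / 2 ≤ A := by
    refine ENNReal.le_of_add_le_add_right h2 ?_
    rwa [ENNReal.add_halves]
  calc r = r / 2 + r / 2 := (ENNReal.add_halves r).symm
    _ ≤ A + A := add_le_add h3 h3
    _ = _ := (two_mul A).symm

variable {Γ ι : Type} [Group Γ] (f : Frame Γ ι)

lemma Frame.nodeAt_base_dist (x : Γ × ι) {w : List Letter} (hw : FreeGroup.IsReduced w) {t t' : ℕ}
    (htt : t ≤ t') (ht' : t' ≤ w.length) :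
    len ((f.nodeAt x w t').base⁻¹ * (f.nodeAt x w t).base) = t' - t := by
  rw [← node_base_dist hw htt ht']
  exact dist_mul_left (f.pr x) (node w t').base (node w t).base

lemma Frame.nodeAt_self_dist (x : Γ × ι) {w : List Letter} (hw : FreeGroup.IsReduced w) {t : ℕ}
    (ht : t ≤ w.length) : len ((f.nodeAt x w t).base⁻¹ * f.pr x) = t := by
  have h := f.nodeAt_base_dist x hw (Nat.zero_le t) ht
  simpa [Frame.nodeAt, node, Half.shift, ← FreeGroup.one_eq_mk] using h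

lemma Frame.le_depth : f.L ≤ f.depth :=
  le_trans (Nat.le_succ _) (Nat.le_mul_of_pos_left _ (Nat.succ_pos _))

lemma Frame.port_near (x : Γ × ι) {w : List Letter} (hw : FreeGroup.IsReduced w) {j : ℕ}
    (hj : j + f.depth + 2 < w.length) {y : Γ × ι} (hy : y ∈ f.port (f.nodeAt x w (j + 1))) :
    y ∈ f.near (f.nodeAt x w (j + f.depth + 2)) (f.L + f.depth + 1) := by
  have hl := f.port_len hy
  have hd := f.le_depth
  refine ⟨fun hs => ?_, ?_⟩
  · have h1 := (f.mem_nodeAt hw hj).1 hs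
    have h2 := lcp_le_left ((f.pr x)⁻¹ * f.pr y).toWord w
    rw [f.nodeAt_len hw (by omega) hy.1.1] at hl
    omega
  · have h1 := f.nodeAt_base_dist x hw (t := j + 1) (t' := j + f.depth + 2) (by omega) hj.le
    have h2 := len_dist_le (f.nodeAt x w (j + f.depth + 2)).base (f.nodeAt x w (j + 1)).base
      (f.pr y)
    omega

lemma Frame.nodeAt_disjoint (x : Γ × ι) {k : ℕ} {v v' : List Letter} (hv : v ∈ sphere (k + 1))
    (hv' : v' ∈ sphere (k + 1)) (hne : v ≠ v') :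
    Disjoint (f.nodeAt x v k).side (f.nodeAt x v' k).side := by
  obtain ⟨hv, hl⟩ := mem_sphere.1 hv
  obtain ⟨hv', hl'⟩ := mem_sphere.1 hv'
  refine Set.disjoint_left.2 fun u hu hu' => hne ?_
  obtain ⟨-, -, h1⟩ := le_lcp_iff.1 ((f.mem_nodeAt hv (by omega)).1 hu)
  obtain ⟨-, -, h2⟩ := le_lcp_iff.1 ((f.mem_nodeAt hv' (by omega)).1 hu')
  have e1 : v.take (k + 1) = v := List.take_of_length_le hl.le
  have e2 : v'.take (k + 1) = v' := List.take_of_length_le hl'.le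
  rw [← e1, ← e2, ← h1, h2]

lemma Frame.nodeAt_injOn (x : Γ × ι) (k : ℕ) :
    Set.InjOn (fun v => f.nodeAt x v k) (sphere (k + 1) : Finset (List Letter)) := by
  intro v hv v' hv' he
  by_contra hne
  have hd := f.nodeAt_disjoint x hv hv' hne
  simp only at he
  rw [he] at hd
  exact Set.disjoint_left.1 hd (Half.head_mem _) (Half.head_mem _)

/-- The sum of powers of the port counts over a level of the tree seen from `x`. -/
noncomputable def Frame.levelSum (q : unitInterval) (σ : ℝ) (x : Γ × ι) (k : ℕ) : ℝ≥0∞ :=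
  ∑ v ∈ sphere (k + 1), f.Y q x (f.nodeAt x v k) ^ σ

/-- A far half-tree is seen from `x` at most as from one of its port points, at an exponential
cost. -/
lemma Frame.Y_le_port (q : unitInterval) (x : Γ × ι) {v : List Letter}
    (hv : FreeGroup.IsReduced v) {k : ℕ} (hk : k < v.length) :
    ∃ y ∈ f.port (f.nodeAt x v k), ENNReal.ofReal ((q : ℝ) ^ (f.rad * (k + f.depth + 2))) *
      f.Y q x (f.nodeAt x v k) ≤ f.Y q y (f.nodeAt x v k) := by
  classical
  have := f.countable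
  obtain ⟨y, hy, r, hr⟩ := f.out_port (f.nodeAt x v k) x fun h => f.notMem_nodeAt hv hk h.1
  refine ⟨y, hy, ?_⟩
  rw [f.nodeAt_self_dist x hv hk.le] at hr
  rw [Frame.Y, Frame.Y, ← ENNReal.tsum_mul_left]
  refine ENNReal.tsum_le_tsum fun z => ?_
  have h := walk_joins (p := q) r.reverse (M := f.rad * (k + f.depth + 2)) (by simpa using hr)
    {(z : Γ × ι)}
  rw [joins_singleton, joins_singleton] at h
  exact h

/-- One step of the recursion. -/
theorem Frame.reach_step [Finite ι] {a : ℝ} (ha : 0 < a) {σ : ℝ} (hσ : 0 < σ) (hσ1 : σ ≤ 1)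
    {K : ℝ≥0∞} (hK : K ≠ ⊤) :
    ∃ C : ℝ≥0∞, C ≠ ⊤ ∧ ∀ q : unitInterval, a ≤ q → f.growth q σ ≤ K → ∀ x : Γ × ι,
      f.reach q σ x ≤
        C * (1 + ∑' j : ℕ, ((3⁻¹ : ℝ≥0∞) ^ σ) ^ j * f.levelSum q σ x (j + 1)) := by
  classical
  have := f.countable
  obtain ⟨Cr, hCr, hrest⟩ := f.rest ha (f.L + f.depth + 1)
  set P : ℝ≥0∞ := 3 ^ (f.depth + 1) + (sphere (f.depth + 2)).card
  refine ⟨P * (Cr * (1 + K)), ENNReal.mul_ne_top (by simp [P]) (ENNReal.mul_ne_top hCr
    (ENNReal.add_ne_top.2 ⟨ENNReal.one_ne_top, hK⟩)), fun q haq hg x => iSup₂_le fun A hA => ?_⟩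
  set B := Cr * (1 + K)
  let φ : Half → Half → ℝ≥0∞ := fun h g => ⨆ y ∈ f.near h (f.L + f.depth + 1),
    perc (Γ × ι) q (joins (f.avoid g ⊓ f.avoidSide h) y (f.port g))
  have hφ : ∀ h, ∑ g ∈ A, φ h g ^ σ ≤ B := fun h =>
    (hrest q haq σ hσ hσ1 h A hA.1).trans (mul_le_mul_right (add_le_add le_rfl hg) _)
  let r : ℝ≥0∞ := (3⁻¹ : ℝ≥0∞) ^ σ
  have hpt : ∀ g ∈ A, perc (Γ × ι) q (joins (f.avoid g) x (f.port g)) ^ σ ≤
      ∑ w ∈ sphere (f.depth + 2), φ (f.nodeAt x w (f.depth + 1)) g ^ σ +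
      ∑' j : ℕ, r ^ j * ∑ w ∈ sphere (j + f.depth + 3),
        f.Y q x (f.nodeAt x w (j + 1)) ^ σ * φ (f.nodeAt x w (j + f.depth + 2)) g ^ σ := by
    intro g _
    refine (ENNReal.rpow_le_rpow (f.split_avg (f.avoid_le g) x (f.port g)) hσ.le).trans
      ((ENNReal.rpow_add_le_add_rpow _ _ hσ.le hσ1).trans (add_le_add ?_ ?_))
    · refine (rpow_sum_le _ _ hσ hσ1).trans (Finset.sum_le_sum fun w hw => ?_)
      obtain ⟨hw1, hw2⟩ := mem_sphere.1 hw
      refine ENNReal.rpow_le_rpow (le_iSup₂_of_le x ⟨f.notMem_nodeAt hw1 (by omega), ?_⟩ le_rfl)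
        hσ.le
      rw [f.nodeAt_self_dist x hw1 (by omega)]
      omega
    · refine (rpow_tsum_le _ hσ hσ1).trans (ENNReal.tsum_le_tsum fun j => ?_)
      rw [ENNReal.mul_rpow_of_nonneg _ _ hσ.le]
      refine mul_le_mul' ?_ ((rpow_sum_le _ _ hσ hσ1).trans (Finset.sum_le_sum fun w hw => ?_))
      · calc ((3⁻¹ : ℝ≥0∞) ^ (j + f.depth + 2)) ^ σ ≤ ((3⁻¹ : ℝ≥0∞) ^ j) ^ σ :=
              ENNReal.rpow_le_rpow (pow_le_pow_right_of_le_one' (by simp) (by omega)) hσ.le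
          _ = r ^ j := by
              rw [← ENNReal.rpow_natCast_mul, mul_comm, ENNReal.rpow_mul_natCast]
      · obtain ⟨hw1, hw2⟩ := mem_sphere.1 hw
        rw [← ENNReal.mul_rpow_of_nonneg _ _ hσ.le]
        refine ENNReal.rpow_le_rpow ?_ hσ.le
        rw [Frame.Y, ← ENNReal.tsum_mul_right]
        refine ENNReal.tsum_le_tsum fun y => mul_le_mul_right ?_ _
        exact le_iSup₂_of_le (y : Γ × ι) (f.port_near x hw1 (by omega) y.2) le_rfl
  refine (Finset.sum_le_sum hpt).trans ?_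
  rw [Finset.sum_add_distrib, ← Summable.tsum_finsetSum fun _ _ => ENNReal.summable, mul_add,
    mul_one, ← ENNReal.tsum_mul_left]
  refine add_le_add ?_ (ENNReal.tsum_le_tsum fun j => ?_)
  · rw [Finset.sum_comm]
    refine le_trans (Finset.sum_le_card_nsmul _ _ _ fun w _ => hφ _) ?_
    rw [nsmul_eq_mul]
    exact mul_le_mul_left le_add_self _
  · rw [← Finset.mul_sum, mul_left_comm]
    refine mul_le_mul_right ?_ _
    rw [Finset.sum_comm]
    simp only [← Finset.mul_sum]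
    refine le_trans (Finset.sum_le_sum fun w _ => mul_le_mul_right (hφ _) _) ?_
    rw [← Finset.sum_mul]
    have e : ∑ w ∈ sphere (j + f.depth + 3), f.Y q x (f.nodeAt x w (j + 1)) ^ σ
        = (3 : ℝ≥0∞) ^ (f.depth + 1) * f.levelSum q σ x (j + 1) := by
      have h := avg_take (M := ℝ≥0∞) (T := j + f.depth + 3) (k := j + 2) (by omega) (by omega)
        fun v => f.Y q x (f.nodeAt x v (j + 1)) ^ σ
      simp only [f.nodeAt_take x _ (by omega : j + 1 < j + 2)] at h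
      rw [h, nsmul_eq_mul, Frame.levelSum, Nat.cast_pow, Nat.cast_ofNat]
      congr 2
      omega
    rw [e, mul_right_comm]
    exact mul_le_mul_left (mul_le_mul_left le_self_add _) _

variable {f} {σ₁ : ℝ} (S : Seed f σ₁)

/-- A level costs a small power of the reach, the susceptibility and the cut-off. -/
theorem Seed.level_le [Finite ι] {σ e a : ℝ} (hσ0 : 0 < σ) (hσ1 : σ ≤ 1) (he : 0 < e)
    (hζ : σ₁ < σ * (1 + e)) (ha : 0 < a) :
    ∃ C : ℝ≥0∞, C ≠ ⊤ ∧ ∀ q : unitInterval, (S.q₀ : ℝ) ≤ q → a ≤ q →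
      ∀ X : ℝ≥0∞, (∀ x, ∑' y, f.tau q f.H x y ≤ X) → ∀ (x : Γ × ι) (k : ℕ), ∀ N : ℝ, 1 ≤ N →
        (f.levelSum q σ x k ≤ C * (f.reach q σ x *
            ENNReal.ofReal (N ^ ((σ * (1 + e) - σ₁) / (1 + e))) +
            (4 * 3 ^ k : ℕ) * (X ^ 3 / ENNReal.ofReal N) ^ σ)) ∧
        ∑ v ∈ sphere (k + 1), f.Y q x (f.nodeAt x v k) ≤ C * ((f.reach q σ x *
            ENNReal.ofReal (N ^ ((σ * (1 + e) - σ₁) / (1 + e)))) ^ (1 / σ) +
            X ^ 3 / ENNReal.ofReal N) := by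
  classical
  obtain ⟨C, hC, hsum⟩ := S.port_sums hσ0 hσ1 he hζ ha
  refine ⟨C, hC, fun q hq haq X hX x k N hN => ?_⟩
  set A := (sphere (k + 1)).image fun v => f.nodeAt x v k
  have hA : ∀ g ∈ A, f.pr x ∉ g.side := by
    intro g hg
    obtain ⟨v, hv, rfl⟩ := Finset.mem_image.1 hg
    obtain ⟨h1, h2⟩ := mem_sphere.1 hv
    exact f.notMem_nodeAt h1 (by omega)
  obtain ⟨h1, h2⟩ := hsum q hq haq X hX x A (fun _ => 1) hA (fun g hg g' hg' hne u hu hu' => by
    obtain ⟨v, hv, rfl⟩ := Finset.mem_image.1 hg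
    obtain ⟨v', hv', rfl⟩ := Finset.mem_image.1 hg'
    exact absurd hu' (Set.disjoint_left.1
      (f.nodeAt_disjoint x hv hv' fun h => hne (h ▸ rfl)) hu)) N hN
  rw [Finset.sum_image (f.nodeAt_injOn x k)] at h1 h2
  rw [Finset.card_image_of_injOn (f.nodeAt_injOn x k), card_sphere_pos] at h1
  exact ⟨h1, h2⟩

/-- A level close to `x` costs exponentially in its distance. -/
theorem Seed.level_crude [Finite ι] {σ e a : ℝ} (hσ0 : 0 < σ) (hσ1 : σ ≤ 1) (he : 0 < e)
    (hζ : σ₁ < σ * (1 + e)) (ha : 0 < a) {K : ℝ≥0∞} (hK : K ≠ ⊤) :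
    ∃ C : ℝ≥0∞, C ≠ ⊤ ∧ ∀ q : unitInterval, (S.q₀ : ℝ) ≤ q → a ≤ q → f.growth q σ ≤ K →
      ∀ X : ℝ, 1 ≤ X → (∀ x, ∑' y, f.tau q f.H x y ≤ ENNReal.ofReal X) →
      ∀ (x : Γ × ι) (k : ℕ), f.levelSum q σ x k ≤
        C * ENNReal.ofReal ((3 / a ^ f.rad) ^ k *
          (X ^ 3) ^ ((σ * (1 + e) - σ₁) / (1 + e))) := by
  classical
  obtain ⟨C, hC, hself⟩ := S.port_self hσ0 hσ1 he hζ ha hK
  set ζ := (σ * (1 + e) - σ₁) / (1 + e)
  have hζ0 : 0 ≤ ζ := div_nonneg (by linarith) (by linarith)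
  set α : ℝ≥0∞ := (ENNReal.ofReal (a ^ f.rad))⁻¹ with hα
  set E : ℝ≥0∞ := α ^ (f.depth + 2) * (2 * C) + 1 with hE
  have hαt : α ≠ ⊤ := by simp [hα, pow_pos ha f.rad]
  refine ⟨4 * E, ENNReal.mul_ne_top (by simp) (ENNReal.add_ne_top.2
    ⟨ENNReal.mul_ne_top (ENNReal.pow_ne_top hαt) (ENNReal.mul_ne_top (by simp) hC),
      ENNReal.one_ne_top⟩), fun q hq haq hg X hX hsusc x k => ?_⟩
  have ha1 : a ≤ 1 := haq.trans q.2.2
  have hα1 : 1 ≤ α := by
    rw [hα, ENNReal.one_le_inv]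
    exact ENNReal.ofReal_le_one.2 (pow_le_one₀ ha.le ha1)
  have hU : 1 ≤ ENNReal.ofReal ((X ^ 3) ^ ζ) :=
    ENNReal.one_le_ofReal.2 (Real.one_le_rpow (one_le_pow₀ hX) hζ0)
  have hpt : ∀ v ∈ sphere (k + 1), f.Y q x (f.nodeAt x v k) ^ σ ≤
      α ^ k * E * ENNReal.ofReal ((X ^ 3) ^ ζ) := by
    intro v hv
    obtain ⟨hv1, hv2⟩ := mem_sphere.1 hv
    obtain ⟨y, hy, hle⟩ := f.Y_le_port q x hv1 (k := k) (by omega)
    have h1 : f.Y q y (f.nodeAt x v k) ≤ C * (2 * ENNReal.ofReal ((X ^ 3) ^ ζ) ^ (1 / σ)) := by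
      refine (hself q hq haq hg _ hsusc _ y hy (X ^ 3) (one_le_pow₀ hX)).trans
        (mul_le_mul_right ?_ _)
      rw [two_mul, ← ENNReal.ofReal_pow (by linarith), ENNReal.div_self
        (by simpa using pow_pos (show (0 : ℝ) < X by linarith) 3) ENNReal.ofReal_ne_top]
      exact add_le_add le_rfl (ENNReal.one_le_rpow hU (by positivity))
    have h2 : f.Y q x (f.nodeAt x v k) ≤
        α ^ k * (α ^ (f.depth + 2) * (2 * C)) * ENNReal.ofReal ((X ^ 3) ^ ζ) ^ (1 / σ) := by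
      have h3 : ENNReal.ofReal (a ^ (f.rad * (k + f.depth + 2))) * f.Y q x (f.nodeAt x v k) ≤
          C * (2 * ENNReal.ofReal ((X ^ 3) ^ ζ) ^ (1 / σ)) :=
        le_trans (mul_le_mul_left (ENNReal.ofReal_le_ofReal (pow_le_pow_left₀ ha.le haq _)) _)
          (hle.trans h1)
      rw [mul_comm, ← ENNReal.le_div_iff_mul_le (Or.inl (by simp [pow_pos ha _]))
        (Or.inl ENNReal.ofReal_ne_top)] at h3
      refine h3.trans (le_of_eq ?_)
      rw [← mul_assoc (α ^ k), ← pow_add, hα, pow_mul, ENNReal.ofReal_pow (by positivity),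
        div_eq_mul_inv, ENNReal.inv_pow, add_assoc]
      ring
    refine (ENNReal.rpow_le_rpow h2 hσ0.le).trans ?_
    rw [ENNReal.mul_rpow_of_nonneg _ _ hσ0.le, ENNReal.mul_rpow_of_nonneg _ _ hσ0.le,
      ← ENNReal.rpow_mul, one_div_mul_cancel hσ0.ne', ENNReal.rpow_one]
    refine mul_le_mul_left (mul_le_mul' ?_ ?_) _
    · exact (ENNReal.rpow_le_rpow_of_exponent_le (one_le_pow₀ hα1) hσ1).trans
        (ENNReal.rpow_one _).le
    · exact (ENNReal.rpow_le_rpow le_self_add hσ0.le).trans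
        ((ENNReal.rpow_le_rpow_of_exponent_le le_add_self hσ1).trans (ENNReal.rpow_one _).le)
  refine (Finset.sum_le_sum hpt).trans (le_of_eq ?_)
  rw [Finset.sum_const, card_sphere_pos, nsmul_eq_mul, ENNReal.ofReal_mul (by positivity),
    ENNReal.ofReal_pow (by positivity), ENNReal.ofReal_div_of_pos (pow_pos ha _),
    ENNReal.ofReal_ofNat, div_eq_mul_inv, mul_pow, ← hα]
  push_cast
  ring

lemma sum_geom_le {b : ℝ} (hb : 2 ≤ b) (L : ℕ) :
    ∑ j ∈ Finset.range L, b ^ (j + 1) ≤ b * b ^ L := by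
  induction L with
  | zero => simp; linarith
  | succ L ih =>
    rw [Finset.sum_range_succ]
    have h1 : 0 ≤ b ^ (L + 1) := pow_nonneg (by linarith) _
    have h2 : b * b ^ L = b ^ (L + 1) := (pow_succ' b L).symm
    nlinarith

/-- The least exponent above a threshold overshoots by at most one factor. -/
lemma exists_pow_window {β Z : ℝ} (hβ : 1 < β) (hZ : 1 ≤ Z) :
    ∃ L : ℕ, Z ≤ β ^ L ∧ β ^ L ≤ β * Z := by
  classical
  have hex : ∃ L : ℕ, Z ≤ β ^ L := ⟨_, (pow_unbounded_of_one_lt Z hβ).choose_spec.le⟩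
  refine ⟨Nat.find hex, Nat.find_spec hex, ?_⟩
  rcases Nat.eq_zero_or_pos (Nat.find hex) with h | h
  · rw [h, pow_zero]
    nlinarith
  · have h1 := not_le.1 (Nat.find_min hex (Nat.sub_lt h one_pos))
    calc β ^ Nat.find hex = β * β ^ (Nat.find hex - 1) := by
          rw [← pow_succ']; congr 1; omega
      _ ≤ β * Z := mul_le_mul_of_nonneg_left h1.le (by linarith)

/-- The reach is at most a power of the susceptibility proportional to the gap `ζ`. -/
theorem Seed.reach_bound [Finite ι] {σ e a ζ : ℝ} (hσ0 : 0 < σ) (hσ1 : σ ≤ 1) (he : 0 < e)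
    (hgap : σ₁ < σ * (1 + e)) (hζ : ζ = (σ * (1 + e) - σ₁) / (1 + e)) (hζσ : ζ ≤ σ ^ 2 / 2)
    (ha : 0 < a) {m : ℕ} (hm0 : 0 < m) (hm : 3 / a ^ f.rad ≤ 3 ^ m) {K : ℝ≥0∞} (hK : K ≠ ⊤) :
    ∃ C : ℝ≥0∞, C ≠ ⊤ ∧ ∀ q : unitInterval, (S.q₀ : ℝ) ≤ q → a ≤ q → (q : ℝ) < pc f.H →
      f.growth q σ ≤ K → ∀ X : ℝ, 1 ≤ X →
      (∀ x, ∑' y, f.tau q f.H x y ≤ ENNReal.ofReal X) → ∀ x : Γ × ι,
        f.reach q σ x ≤ C * ENNReal.ofReal ((X ^ 3) ^ (ζ * (1 + 2 * m / σ))) := by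
  classical
  obtain ⟨C₁, hC₁, hstep⟩ := f.reach_step ha hσ0 hσ1 hK
  obtain ⟨C₂, hC₂, hlev⟩ := S.level_le hσ0 hσ1 he hgap ha
  obtain ⟨C₄, hC₄, hcrude⟩ := S.level_crude hσ0 hσ1 he hgap ha hK
  rw [← hζ] at hlev hcrude
  have hζ0 : 0 ≤ ζ := hζ ▸ div_nonneg (by linarith) (by linarith)
  set β : ℝ := (3 : ℝ) ^ (σ / 2) with hβdef
  have hβ : 1 < β := Real.one_lt_rpow (by norm_num) (by linarith)
  set θ : ℝ := β⁻¹
  have hθ0 : 0 ≤ θ := inv_nonneg.2 (by linarith)
  have hθ1 : θ < 1 := inv_lt_one_of_one_lt₀ hβ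
  set rr : ℝ := (1 / 3 : ℝ) ^ σ with hrrdef
  have hrr0 : 0 ≤ rr := Real.rpow_nonneg (by norm_num) _
  have hrr1 : rr < 1 := Real.rpow_lt_one (by norm_num) (by norm_num) hσ0
  set ρ : ℝ := (3 : ℝ) ^ (ζ / σ) with hρdef
  have hρ0 : 0 ≤ ρ := Real.rpow_nonneg (by norm_num) _
  have hζσ' : ζ / σ ≤ σ / 2 := by
    rw [div_le_iff₀ hσ0]; nlinarith
  have hρ9 : ρ ^ 2 ≤ 9 := by
    have : ρ ≤ 3 := (Real.rpow_le_rpow_of_exponent_le (by norm_num) (by linarith)).trans
      (Real.rpow_one _).le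
    nlinarith
  have hrρ : rr * ρ ≤ θ := by
    simp only [θ, hβdef, hrrdef, hρdef]
    rw [one_div, Real.inv_rpow (by norm_num), ← Real.rpow_neg (by norm_num),
      ← Real.rpow_neg (by norm_num), ← Real.rpow_add (by norm_num)]
    exact Real.rpow_le_rpow_of_exponent_le (by norm_num) (by linarith)
  set G : ℝ := (C₁ * C₂).toReal + 1 with hG
  have hG1 : 1 ≤ G := le_add_of_nonneg_left ENNReal.toReal_nonneg
  set Z₀ : ℝ := 18 * G / (1 - θ) with hZ₀
  have hZ₀1 : 1 ≤ Z₀ := by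
    rw [hZ₀, le_div_iff₀ (by linarith)]; linarith
  set b : ℝ := (3 : ℝ) ^ m with hbdef
  set Q : ℝ := b * (β * Z₀) ^ ((2 * m : ℝ) / σ) with hQ
  refine ⟨2 * (C₁ + C₁ * C₄ * ENNReal.ofReal Q + C₁ * C₂ * 4 * ENNReal.ofReal (1 / (1 - rr))),
    ?_, fun q hq haq hqc hg X hX hsusc x => ?_⟩
  · finiteness
  set w : ℝ := (X ^ 3) ^ ζ with hw
  have hw1 : 1 ≤ w := Real.one_le_rpow (one_le_pow₀ hX) hζ0
  obtain ⟨L, hL1, hL2⟩ := exists_pow_window hβ (one_le_mul_of_one_le_of_one_le hZ₀1 hw1)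
  set R := f.reach q σ x
  have hR : R ≠ ⊤ := f.reach_ne_top (lt_of_lt_of_le ha haq) hqc hσ0 hσ1
    (ne_top_of_le_ne_top hK hg) x
  set U : ℝ := (X ^ 3) ^ (ζ * (1 + 2 * m / σ))
  have hU : 1 ≤ U := Real.one_le_rpow (one_le_pow₀ hX) (by positivity)
  have hrE : (3⁻¹ : ℝ≥0∞) ^ σ = ENNReal.ofReal rr := by
    rw [hrrdef, ← ENNReal.ofReal_rpow_of_pos (by norm_num), ENNReal.ofReal_div_of_pos (by norm_num)]
    simp
  have hT : ∀ j : ℕ, ENNReal.ofReal rr ^ j * f.levelSum q σ x (j + 1) ≤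
      C₂ * (R * ENNReal.ofReal (9 * w * θ ^ j) + 4 * ENNReal.ofReal (rr ^ j)) := by
    intro j
    set N : ℝ := X ^ 3 * ((3 : ℝ) ^ (1 / σ)) ^ (j + 2) with hN
    have hN1 : 1 ≤ N := one_le_mul_of_one_le_of_one_le (one_le_pow₀ hX)
      (one_le_pow₀ (Real.one_le_rpow (by norm_num) (by positivity)))
    refine le_trans (mul_le_mul_right (hlev q hq haq _ hsusc x (j + 1) N hN1).1 _) ?_
    rw [mul_left_comm, mul_add]
    refine mul_le_mul_right (add_le_add ?_ ?_) _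
    · rw [mul_left_comm, ← ENNReal.ofReal_pow hrr0, ← ENNReal.ofReal_mul (by positivity)]
      refine mul_le_mul_right (ENNReal.ofReal_le_ofReal ?_) _
      have hNζ : N ^ ζ = w * ρ ^ (j + 2) := by
        rw [hN, Real.mul_rpow (by positivity) (by positivity), hw, hρdef,
          ← Real.rpow_natCast ((3 : ℝ) ^ (ζ / σ)), ← Real.rpow_mul (by positivity),
          ← Real.rpow_natCast ((3 : ℝ) ^ (1 / σ)), ← Real.rpow_mul (by positivity),
          ← Real.rpow_mul (by positivity)]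
        congr 2
        ring
      rw [hNζ]
      calc rr ^ j * (w * ρ ^ (j + 2)) = ρ ^ 2 * w * (rr * ρ) ^ j := by ring
        _ ≤ 9 * w * θ ^ j := by gcongr
    · rw [mul_comm, ← ENNReal.ofReal_pow hrr0]
      refine mul_le_mul_left ?_ _
      rw [← ENNReal.ofReal_pow (by linarith), ← ENNReal.ofReal_div_of_pos (by linarith),
        ENNReal.ofReal_rpow_of_nonneg (by positivity) hσ0.le, ← ENNReal.ofReal_natCast,
        ← ENNReal.ofReal_mul (by positivity)]
      refine (ENNReal.ofReal_le_ofReal ?_).trans (ENNReal.ofReal_ofNat 4).le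
      have e : (X ^ 3 / N) ^ σ = ((3 : ℝ) ^ (j + 2))⁻¹ := by
        have hX3 : X ^ 3 ≠ 0 := pow_ne_zero _ (by linarith)
        rw [hN, div_mul_eq_div_div, div_self hX3, one_div, Real.inv_rpow (by positivity)]
        congr 1
        rw [← Real.rpow_natCast_mul (by positivity), mul_comm,
          Real.rpow_mul_natCast (by positivity), ← Real.rpow_mul (by norm_num),
          one_div_mul_cancel hσ0.ne', Real.rpow_one]
      rw [e, ← div_eq_mul_inv, div_le_iff₀ (by positivity)]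
      push_cast
      rw [pow_succ (3 : ℝ) (j + 1)]
      nlinarith [pow_pos (show (0 : ℝ) < 3 by norm_num) (j + 1)]
  have hlow : ∑ j ∈ Finset.range L, ENNReal.ofReal rr ^ j * f.levelSum q σ x (j + 1) ≤
      C₄ * ENNReal.ofReal (Q * U) := by
    refine (Finset.sum_le_sum (g := fun j => C₄ * ENNReal.ofReal (b ^ (j + 1) * w))
      fun j _ => ?_).trans ?_
    · refine le_trans (mul_le_mul' (pow_le_one' (ENNReal.ofReal_le_one.2 hrr1.le) j) le_rfl) ?_
      rw [one_mul]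
      refine (hcrude q hq haq hg X hX hsusc x (j + 1)).trans
        (mul_le_mul_right (ENNReal.ofReal_le_ofReal ?_) _)
      exact mul_le_mul_of_nonneg_right (pow_le_pow_left₀ (by positivity) hm _) (by positivity)
    · rw [← Finset.mul_sum, ← ENNReal.ofReal_sum_of_nonneg fun j _ => by positivity]
      refine mul_le_mul_right (ENNReal.ofReal_le_ofReal ?_) _
      rw [← Finset.sum_mul]
      have hb2 : 2 ≤ b := le_trans (by norm_num) (le_self_pow₀ (a := (3 : ℝ)) (by norm_num) hm0.ne')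
      refine le_trans (mul_le_mul_of_nonneg_right (sum_geom_le hb2 L) (by linarith)) ?_
      have hbL : b ^ L ≤ (β * Z₀) ^ ((2 * m : ℝ) / σ) * w ^ ((2 * m : ℝ) / σ) := by
        rw [← Real.mul_rpow (by positivity) (by linarith)]
        have e : b ^ L = (β ^ L) ^ ((2 * m : ℝ) / σ) := by
          rw [hbdef, hβdef, ← Real.rpow_natCast_mul (by positivity), ← Real.rpow_mul (by norm_num),
            ← pow_mul, ← Real.rpow_natCast]
          congr 1
          push_cast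
          field_simp
        rw [e]
        exact Real.rpow_le_rpow (by positivity) (hL2.trans (le_of_eq (mul_assoc _ _ _).symm))
          (by positivity)
      have hwU : w ^ ((2 * m : ℝ) / σ) * w = U := by
        simp only [U, hw]
        rw [← Real.rpow_mul (by positivity), ← Real.rpow_add (by positivity)]
        congr 1
        ring
      calc b * b ^ L * w ≤ b * ((β * Z₀) ^ ((2 * m : ℝ) / σ) * w ^ ((2 * m : ℝ) / σ)) * w := by
            gcongr
        _ = Q * U := by rw [hQ, ← hwU]; ring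
  have hhigh : C₁ * ∑' i : ℕ, ENNReal.ofReal rr ^ (i + L) * f.levelSum q σ x (i + L + 1) ≤
      R / 2 + C₁ * C₂ * 4 * ENNReal.ofReal (1 / (1 - rr)) := by
    refine le_trans (mul_le_mul_right (ENNReal.tsum_le_tsum fun i => hT (i + L)) _) ?_
    rw [ENNReal.tsum_mul_left, ENNReal.tsum_add, ENNReal.tsum_mul_left, ENNReal.tsum_mul_left,
      ← mul_assoc, mul_add]
    refine add_le_add ?_ ?_
    · rw [mul_left_comm, div_eq_mul_inv]
      refine mul_le_mul_right ?_ _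
      have hs : HasSum (fun i : ℕ => 9 * w * θ ^ (i + L)) (9 * w * θ ^ L * (1 - θ)⁻¹) := by
        have := (hasSum_geometric_of_lt_one hθ0 hθ1).mul_left (9 * w * θ ^ L)
        refine this.congr_fun fun i => ?_
        rw [pow_add]; ring
      rw [← ENNReal.ofReal_tsum_of_nonneg (fun i => by positivity) hs.summable, hs.tsum_eq]
      calc C₁ * C₂ * ENNReal.ofReal (9 * w * θ ^ L * (1 - θ)⁻¹)
          ≤ ENNReal.ofReal G * ENNReal.ofReal (9 * w * θ ^ L * (1 - θ)⁻¹) := by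
            refine mul_le_mul_left ?_ _
            rw [ENNReal.le_ofReal_iff_toReal_le (ENNReal.mul_ne_top hC₁ hC₂) (by linarith), hG]
            linarith
        _ ≤ ENNReal.ofReal 2⁻¹ := by
            rw [← ENNReal.ofReal_mul (by linarith)]
            refine ENNReal.ofReal_le_ofReal ?_
            have h1 : θ ^ L * β ^ L = 1 := by
              rw [← mul_pow, inv_mul_cancel₀ (by linarith), one_pow]
            have h2 : θ ^ L * (Z₀ * w) ≤ 1 :=
              h1 ▸ mul_le_mul_of_nonneg_left hL1 (pow_nonneg hθ0 L)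
            rw [hZ₀, div_eq_mul_inv] at h2
            linarith [show G * (9 * w * θ ^ L * (1 - θ)⁻¹) * 2 =
              θ ^ L * (18 * G * (1 - θ)⁻¹ * w) by ring]
        _ = 2⁻¹ := by rw [ENNReal.ofReal_inv_of_pos two_pos, ENNReal.ofReal_ofNat]
    · rw [← mul_assoc]
      refine mul_le_mul_right ?_ _
      have hs := (hasSum_geometric_of_lt_one hrr0 hrr1)
      rw [one_div, ← hs.tsum_eq, ENNReal.ofReal_tsum_of_nonneg (fun i => by positivity) hs.summable]
      exact ENNReal.tsum_comp_le_tsum_of_injective (add_left_injective L)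
        fun i => ENNReal.ofReal (rr ^ i)
  have hmain : R ≤ (C₁ + C₁ * C₄ * ENNReal.ofReal (Q * U) +
      C₁ * C₂ * 4 * ENNReal.ofReal (1 / (1 - rr))) + R / 2 := by
    refine (hstep q haq hg x).trans ?_
    rw [hrE, ← Summable.sum_add_tsum_nat_add' (k := L) ENNReal.summable, mul_add, mul_add, mul_one,
      mul_assoc C₁ C₄]
    refine le_trans (add_le_add le_rfl (add_le_add (mul_le_mul_right hlow _) hhigh)) (le_of_eq ?_)
    ring
  refine (le_two_mul_of_le_add_half hR hmain).trans ?_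
  have hUE : 1 ≤ ENNReal.ofReal U := ENNReal.one_le_ofReal.2 hU
  rw [ENNReal.ofReal_mul (by positivity), mul_assoc 2]
  refine mul_le_mul_right ?_ _
  rw [add_mul, add_mul, mul_assoc _ (ENNReal.ofReal Q)]
  exact add_le_add (add_le_add (le_mul_of_one_le_right zero_le hUE) le_rfl)
    (le_mul_of_one_le_right zero_le hUE)

/-- Some power of three dominates the cost of a step of a walk. -/
lemma exists_cost (a : ℝ) (n : ℕ) : ∃ m : ℕ, 0 < m ∧ 3 / a ^ n ≤ (3 : ℝ) ^ m := by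
  obtain ⟨m, hm⟩ := pow_unbounded_of_one_lt (3 / a ^ n) (by norm_num : (1 : ℝ) < 3)
  exact ⟨m + 1, m.succ_pos, hm.le.trans (pow_le_pow_right₀ (by norm_num) m.le_succ)⟩

end Vale.Agent.P165.Large
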