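import Mathlib
import Vale.Agent.P165.Large.Act

/-!
From a free cofinite action of a group mapping onto the free group to a frame, the invariance of
the critical parameters under graph isomorphism, and the example of Cayley graphs.
-/

namespace Vale.Agent.P165

open MeasureTheory

variable {W W' : Type} {H : SimpleGraph W} {H' : SimpleGraph W'}

/-- The change of configurations induced by a bijection of the vertices. -/
def relabel (e : W ≃ W') : (Sym2 W' → Bool) ≃ᵐ (Sym2 W → Bool) where
  toFun ω := fun a => ω (Sym2.map e a)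
  invFun ω := fun a => ω (Sym2.map e.symm a)
  left_inv ω := by
    funext a
    simp [Sym2.map_map]
  right_inv ω := by
    funext a
    simp [Sym2.map_map]
  measurable_toFun := measurable_pi_lambda _ fun _ => measurable_pi_apply _
  measurable_invFun := measurable_pi_lambda _ fun _ => measurable_pi_apply _

lemma perc_relabel (e : W ≃ W') (p : unitInterval) (A : Set (Sym2 W → Bool)) :
    perc W p A = perc W' p (relabel e ⁻¹' A) := by
  rw [← MeasurableEquiv.map_apply]
  have h : (perc W' p).map (fun ω a => ω (Sym2.map e a)) = perc W p :=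
    MeasureTheory.Measure.map_infinitePi_infinitePi_of_inj (Sym2.map.injective e.injective)
  exact (congrArg (fun μ => μ A) h).symm

/-- An isomorphism of graphs gives one of the open subgraphs. -/
def openIso (φ : H ≃g H') (ω : Sym2 W' → Bool) :
    openGraph H (relabel φ.toEquiv ω) ≃g openGraph H' ω where
  toEquiv := φ.toEquiv
  map_rel_iff' := by
    intro a b
    simp [openGraph, relabel, φ.map_adj_iff]

lemma exists_infinite_relabel (φ : H ≃g H') (ω : Sym2 W' → Bool) :
    (∃ x, {y | (openGraph H (relabel φ.toEquiv ω)).Reachable x y}.Infinite) ↔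
      ∃ x, {y | (openGraph H' ω).Reachable x y}.Infinite := by
  have key : ∀ x, {y | (openGraph H (relabel φ.toEquiv ω)).Reachable x y} =
      (openIso φ ω) ⁻¹' {y | (openGraph H' ω).Reachable (openIso φ ω x) y} := fun x => by
    ext y
    exact (SimpleGraph.Iso.reachable_iff (φ := openIso φ ω)).symm
  constructor
  · rintro ⟨x, hx⟩
    refine ⟨openIso φ ω x, ?_⟩
    rw [key x] at hx
    exact (hx.image (openIso φ ω).injective.injOn).mono (Set.image_preimage_subset _ _)
  · rintro ⟨x, hx⟩
    refine ⟨(openIso φ ω).symm x, ?_⟩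
    rw [key, RelIso.apply_symm_apply]
    exact hx.preimage (by simp [(openIso φ ω).surjective.range_eq])

lemma unique_infinite_relabel (φ : H ≃g H') (ω : Sym2 W' → Bool) :
    (∃! C : (openGraph H (relabel φ.toEquiv ω)).ConnectedComponent, C.supp.Infinite) ↔
      ∃! C : (openGraph H' ω).ConnectedComponent, C.supp.Infinite := by
  refine Equiv.existsUnique_congr (openIso φ ω).connectedComponentEquiv ?_
  intro C
  rw [← Set.infinite_coe_iff, ← Set.infinite_coe_iff]
  exact (SimpleGraph.ConnectedComponent.isoEquivSupp (openIso φ ω) C).infinite_iff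

theorem pc_iso (φ : H ≃g H') : pc H = pc H' := by
  have h : ∀ p : unitInterval,
      perc W p {ω | ∃ x, {y | (openGraph H ω).Reachable x y}.Infinite} =
        perc W' p {ω | ∃ x, {y | (openGraph H' ω).Reachable x y}.Infinite} := fun p => by
    rw [perc_relabel φ.toEquiv]
    exact congrArg _ (Set.ext fun ω => exists_infinite_relabel φ ω)
  unfold pc
  simp only [h]

theorem pu_iso (φ : H ≃g H') : pu H = pu H' := by
  have h : ∀ p : unitInterval,
      perc W p {ω | ∃! C : (openGraph H ω).ConnectedComponent, C.supp.Infinite} =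
        perc W' p {ω | ∃! C : (openGraph H' ω).ConnectedComponent, C.supp.Infinite} := fun p => by
    rw [perc_relabel φ.toEquiv]
    exact congrArg _ (Set.ext fun ω => unique_infinite_relabel φ ω)
  unfold pu
  simp only [h]

namespace Large

/-- A connected locally finite graph with a free action with finitely many orbits of a group that
maps onto the free group on two letters is isomorphic to the graph of a frame. -/
theorem exists_frame {V Γ : Type} (H : SimpleGraph V) [H.LocallyFinite] (hconn : H.Connected)
    [Group Γ] [MulAction Γ V] (hadj : ∀ (g : Γ) (u v : V), H.Adj u v → H.Adj (g • u) (g • v))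
    (hfree : ∀ (g : Γ) (v : V), g • v = v → g = 1)
    (horb : ∃ O : Finset V, ∀ v, ∃ o ∈ O, ∃ g : Γ, g • o = v)
    (π : Γ →* FreeGroup (Fin 2)) (hπ : Function.Surjective π) :
    ∃ (ι : Type) (_ : Fintype ι) (_ : Nonempty ι) (f : Frame Γ ι),
      f.π = π ∧ Nonempty (f.H ≃g H) := by
  classical
  obtain ⟨O, hO⟩ := horb
  let ι : Type := Quotient (MulAction.orbitRel Γ V)
  have : Finite ι := by
    refine Finite.of_surjective (fun o : O => (⟦(o : V)⟧ : ι)) fun i => ?_
    obtain ⟨o, ho, g, hg⟩ := hO i.out
    refine ⟨⟨o, ho⟩, ?_⟩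
    conv_rhs => rw [← Quotient.out_eq i]
    exact (Quotient.sound (MulAction.orbitRel_apply.2 ⟨g, hg⟩)).symm
  have : Fintype ι := Fintype.ofFinite ι
  have : Nonempty ι := hconn.nonempty.map fun v => ⟦v⟧
  let j : Γ × ι → V := fun v => v.1 • v.2.out
  have hinj : Function.Injective j := by
    rintro ⟨g, i⟩ ⟨g', i'⟩ h
    simp only [j] at h
    obtain rfl : i = i' := by
      rw [← Quotient.out_eq i, ← Quotient.out_eq i']
      exact Quotient.sound (MulAction.orbitRel_apply.2
        ⟨g⁻¹ * g', show (g⁻¹ * g') • i'.out = i.out by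
          rw [mul_smul, ← h, inv_smul_smul]⟩)
    have h1 : g⁻¹ * g' = 1 := hfree _ i.out (by rw [mul_smul, ← h, inv_smul_smul])
    rw [inv_mul_eq_one] at h1
    rw [h1]
  have hsurj : Function.Surjective j := fun v => by
    obtain ⟨g, hg⟩ := MulAction.orbitRel_apply.1 (Quotient.mk_out (s := MulAction.orbitRel Γ V) v)
    simp only at hg
    exact ⟨(g⁻¹, ⟦v⟧), by simp only [j]; rw [← hg, inv_smul_smul]⟩
  let e : Γ × ι ≃ V := Equiv.ofBijective j ⟨hinj, hsurj⟩
  let K : SimpleGraph (Γ × ι) := H.comap e
  have hK : K.Connected := ((SimpleGraph.Iso.comap e H).connected_iff).2 hconn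
  have hinv : ∀ (g : Γ) (u v : Γ × ι), K.Adj u v → K.Adj (g * u.1, u.2) (g * v.1, v.2) := by
    intro g u v h
    have h' : H.Adj (u.1 • u.2.out) (v.1 • v.2.out) := h
    show H.Adj ((g * u.1) • u.2.out) ((g * v.1) • v.2.out)
    rw [mul_smul, mul_smul]
    exact hadj g _ _ h'
  have hfin : ∀ v, (K.neighborSet v).Finite := fun v =>
    (Set.toFinite (H.neighborSet (e v))).preimage e.injective.injOn
  let lf : K.LocallyFinite := fun v => (hfin v).fintype
  let nb : ι → Finset (Γ × ι) := fun i => (hfin (1, i)).toFinset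
  choose γ hγ using fun l : Letter => hπ (letter l)
  let L : ℕ := Finset.univ.sup fun i => (nb i).sup fun w => len (π w.1)
  let r₁ : ℕ := Finset.univ.sup fun a : ι × Letter => K.dist (1, a.1) (γ a.2, a.1)
  let r₂ : ℕ := Finset.univ.sup fun a : ι × ι => K.dist (1, a.1) (1, a.2)
  let move : Γ → (K →g K) := fun g =>
    { toFun := fun v => (g * v.1, v.2), map_rel' := fun {u v} h => hinv g u v h }
  refine ⟨ι, inferInstance, inferInstance,
    { π := π
      H := K
      locFin := lf
      connected := hK
      inv := hinv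
      L := L
      hL := ?_
      γ := γ
      hγ := hγ
      rad := r₁ + r₂
      lift := ?_
      swap := ?_ }, rfl, ⟨SimpleGraph.Iso.comap e H⟩⟩
  · intro u v h
    have h1 := hinv u.1⁻¹ u v h
    rw [inv_mul_cancel] at h1
    have h2 : len (π (u.1⁻¹ * v.1)) ≤ (nb u.2).sup fun w => len (π w.1) :=
      Finset.le_sup (f := fun w : Γ × ι => len (π w.1))
        ((hfin (1, u.2)).mem_toFinset.2 h1)
    rw [map_mul, map_inv] at h2
    exact h2.trans
      (Finset.le_sup (f := fun i => (nb i).sup fun w => len (π w.1)) (Finset.mem_univ u.2))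
  · intro v l
    obtain ⟨q, hq⟩ := hK.exists_walk_length_eq_dist (1, v.2) (γ l, v.2)
    refine ⟨(q.map (move v.1)).copy (by simp [move]) rfl, ?_⟩
    have hle : K.dist (1, v.2) (γ l, v.2) ≤ r₁ :=
      Finset.le_sup (f := fun a : ι × Letter => K.dist (1, a.1) (γ a.2, a.1))
        (Finset.mem_univ (v.2, l))
    simp only [SimpleGraph.Walk.length_copy, SimpleGraph.Walk.length_map]
    omega
  · intro v i
    obtain ⟨q, hq⟩ := hK.exists_walk_length_eq_dist (1, v.2) (1, i)
    refine ⟨(q.map (move v.1)).copy (by simp [move]) (by simp [move]), ?_⟩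
    have hle : K.dist (1, v.2) (1, i) ≤ r₂ :=
      Finset.le_sup (f := fun a : ι × ι => K.dist (1, a.1) (1, a.2))
        (Finset.mem_univ (v.2, i))
    simp only [SimpleGraph.Walk.length_copy, SimpleGraph.Walk.length_map]
    omega

/-- The Cayley graph of a finite generating set is connected. -/
theorem cayley_connected {G : Type} [Group G] (S : Finset G)
    (hS : Subgroup.closure (S : Set G) = ⊤) : (SimpleGraph.mulCayley (S : Set G)).Connected := by
  have key : ∀ g : G, (SimpleGraph.mulCayley (S : Set G)).Reachable 1 g := by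
    intro g
    have hg : g ∈ Subgroup.closure (S : Set G) := hS ▸ Subgroup.mem_top g
    have shift : ∀ (a : G) {u v : G}, (SimpleGraph.mulCayley (S : Set G)).Reachable u v →
        (SimpleGraph.mulCayley (S : Set G)).Reachable (a * u) (a * v) := fun a u v h =>
      h.map (⟨(a * ·), fun h => SimpleGraph.mulCayley_adj_mul_iff_right.2 h⟩ :
        SimpleGraph.mulCayley (S : Set G) →g SimpleGraph.mulCayley (S : Set G))
    induction hg using Subgroup.closure_induction with
    | mem x hx =>
      by_cases h1 : x = 1
      · rw [h1]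
      · refine SimpleGraph.Adj.reachable ?_
        rw [SimpleGraph.mulCayley_adj]
        exact ⟨Ne.symm h1, Or.inl (by simpa using hx)⟩
    | one => exact SimpleGraph.Reachable.refl _
    | mul x y _ _ hx hy => exact hx.trans (by simpa using shift x hy)
    | inv x _ hx =>
      have h1 := shift x⁻¹ hx
      rw [mul_one, inv_mul_cancel] at h1
      exact h1.symm
  have : Nonempty G := ⟨1⟩
  exact ⟨fun u v => (key u).symm.trans (key v)⟩

/-- The Cayley graph of a finite set is locally finite. -/
theorem cayley_finite {G : Type} [Group G] (S : Finset G) (v : G) :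
    ((SimpleGraph.mulCayley (S : Set G)).neighborSet v).Finite :=
  Set.Finite.subset ((S.finite_toSet.image (v * ·)).union (S.finite_toSet.image (v * ·⁻¹)))
    fun w hw => by
      rcases ((SimpleGraph.mulCayley_adj _ v w).1 hw).2 with h | h
      · exact Or.inl ⟨_, h, by simp⟩
      · exact Or.inr ⟨_, h, by simp⟩

/-- A subgroup of finite index acts freely with finitely many orbits on every Cayley graph. -/
theorem cayley_action {G : Type} [Group G] (S : Finset G) (Δ : Subgroup G) [Δ.FiniteIndex] :
    (∀ (g : Δ) (u v : G), (SimpleGraph.mulCayley (S : Set G)).Adj u v →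
        (SimpleGraph.mulCayley (S : Set G)).Adj (g • u) (g • v)) ∧
      (∀ (g : Δ) (v : G), g • v = v → g = 1) ∧
      ∃ O : Finset G, ∀ v, ∃ o ∈ O, ∃ g : Δ, g • o = v := by
  classical
  refine ⟨fun g u v h => ?_, fun g v h => ?_, ?_⟩
  · exact SimpleGraph.mulCayley_adj_mul_iff_right.2 h
  · exact Subtype.ext (mul_eq_right.1 h)
  · have : Fintype (G ⧸ Δ) := Fintype.ofFinite _
    refine ⟨Finset.univ.image fun c : G ⧸ Δ => c.out⁻¹, fun v => ?_⟩
    obtain ⟨h, hh⟩ := QuotientGroup.mk_out_eq_mul Δ v⁻¹
    refine ⟨_, Finset.mem_image.2 ⟨_, Finset.mem_univ ((v⁻¹ : G) : G ⧸ Δ), rfl⟩, h, ?_⟩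
    show (h : G) * _ = v
    rw [hh, mul_inv_rev, inv_inv, mul_inv_cancel_left]

/-- A frame for the Cayley graphs of a group with a subgroup of finite index that maps onto the
free group on two letters. -/
theorem exists_frame_cayley {G : Type} [Group G] (S : Finset G)
    (hS : Subgroup.closure (S : Set G) = ⊤) (Δ : Subgroup G) [Δ.FiniteIndex]
    (π : Δ →* FreeGroup (Fin 2)) (hπ : Function.Surjective π) :
    ∃ (ι : Type) (_ : Fintype ι) (_ : Nonempty ι) (f : Frame Δ ι),
      f.π = π ∧ Nonempty (f.H ≃g SimpleGraph.mulCayley (S : Set G)) := by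
  let : (SimpleGraph.mulCayley (S : Set G)).LocallyFinite := fun v => (cayley_finite S v).fintype
  obtain ⟨h1, h2, h3⟩ := cayley_action S Δ
  exact exists_frame _ (cayley_connected S hS) h1 h2 h3 π hπ

end Large

end Vale.Agent.P165
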