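import Mathlib
import Vale.Agent.P165.Large.Recursion

/-!
Sums of port counts over levels and along rays of the tree.
-/

namespace Vale.Agent.P165.Large

open MeasureTheory
open scoped ENNReal

lemma exists_extension {w : List Letter} (hw : FreeGroup.IsReduced w) {n : ℕ}
    (hn : w.length ≤ n) : ∃ u : List Letter, FreeGroup.IsReduced u ∧ u.length = n ∧ w <+: u := by
  induction n, hn using Nat.le_induction with
  | base => exact ⟨w, hw, rfl, List.prefix_refl w⟩
  | succ n _ ih =>
    obtain ⟨u, hu, hlen, hp⟩ := ih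
    obtain ⟨l, hl, -⟩ := exists_letter_ne (linv (u.getLast?.getD default)) default
    refine ⟨u ++ [l], isReduced_concat.2 ⟨hu, fun h => hl ?_⟩, by simp [hlen],
      hp.trans (List.prefix_append _ _)⟩
    rw [h]
    simp [linv_linv]

variable {Γ ι : Type} [Group Γ] (f : Frame Γ ι)

/-- An oriented edge between a vertex and a point of the tree lies on the ray between them. -/
lemma Frame.nodeAt_of_mem {c : Γ × ι} {g : Half} {e : F2} (hc : f.pr c ∉ g.side) (he : e ∈ g.side) :
    len ((f.pr c)⁻¹ * g.base) < ((f.pr c)⁻¹ * e).toWord.length ∧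
      f.nodeAt c ((f.pr c)⁻¹ * e).toWord (len ((f.pr c)⁻¹ * g.base)) = g := by
  have hw := toWord_nested (h := ⟨f.pr c, default⟩) hc he
  change ((f.pr c)⁻¹ * e).toWord = _ at hw
  have hd := mem_side.1 he
  cases hz : (g.base⁻¹ * e).toWord with
  | nil => simp [hz] at hd
  | cons a r =>
    simp only [hz, List.head?_cons, Option.some.injEq] at hd
    rw [hz, hd] at hw
    refine ⟨by rw [hw, List.length_append, List.length_cons]; simp [len], ?_⟩
    rw [hw]
    simp [Frame.nodeAt, node, Half.shift, len, List.getD_eq_getElem?_getD, FreeGroup.mk_toWord]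

lemma Frame.end_mem_nodeAt (x : Γ × ι) {u : List Letter} (hu : FreeGroup.IsReduced u) {t : ℕ}
    (ht : t < u.length) : f.pr x * FreeGroup.mk u ∈ (f.nodeAt x u t).side := by
  rw [f.mem_nodeAt hu ht, inv_mul_cancel_left, toWord_mk_of_reduced hu, lcp_self]
  omega

lemma Frame.nodeAt_deeper (x : Γ × ι) {u : List Letter} (hu : FreeGroup.IsReduced u) {i j : ℕ}
    (hij : i < j) (hj : j < u.length) :
    (f.nodeAt x u j).base ∈ (f.nodeAt x u i).side ∧
      (f.nodeAt x u i).base ∉ (f.nodeAt x u j).side ∧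
      Deeper (f.nodeAt x u j) (f.nodeAt x u i) := by
  obtain ⟨h1, h2, -⟩ := node_nested hu hij hj
  have e1 : (f.nodeAt x u j).base ∈ (f.nodeAt x u i).side := by
    simpa [Frame.nodeAt, Half.shift] using (shift_mem_side (g := f.pr x)).2 h1
  have e2 : (f.nodeAt x u i).base ∉ (f.nodeAt x u j).side := fun h => h2 (by
    rw [← shift_mem_side (g := f.pr x)]
    simpa [Frame.nodeAt, Half.shift] using h)
  exact ⟨e1, e2, deeper_of_base e1 e2⟩

/-- Port counts are submultiplicative along nested half-trees. -/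
theorem Frame.Y_submult (q : unitInterval) {g m : Half} (hd : Deeper g m) {x : Γ × ι}
    (hx : x ∉ f.Vs m) :
    f.Y q x g ≤ ∑' c : f.port m, f.tau q (f.avoid m) x c * f.Y q (c : Γ × ι) g := by
  classical
  have := f.countable
  unfold Frame.Y
  simp only [← ENNReal.tsum_mul_left]
  rw [ENNReal.tsum_comm]
  refine ENNReal.tsum_le_tsum fun z => ?_
  refine (bk_split (A := conn (f.avoid g) x z) (K₁ := f.avoid m) (K₂ := f.avoid g) (x := x)
    (S := f.port m) (T := {(z : Γ × ι)}) fun ω hω => ?_).trans (le_of_eq ?_)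
  · obtain ⟨p, hp, hpo⟩ := exists_path_of_mem_conn hω
    obtain ⟨b, c, r, hbc, r', hc, hq, hr⟩ :=
      cut_first (f.Vs m) p hx ⟨z, p.end_mem_support, f.Vs_mono hd z.2.1⟩
    have hb : b ∉ f.Vs m := hr b r.end_mem_support
    have hedges : p.edges = r.edges ++ s(b, c) :: r'.edges := by
      rw [hq, SimpleGraph.Walk.edges_append, SimpleGraph.Walk.edges_cons]
    have hopen : ∀ e ∈ r.edges ++ s(b, c) :: r'.edges, ω e = true := fun e he =>
      hpo e (List.mem_toFinset.2 (by simpa [← hedges] using he))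
    have hnd : (r.edges ++ s(b, c) :: r'.edges).Nodup := by
      rw [← hedges]; exact hp.isTrail.edges_nodup
    refine ⟨c, ⟨hc, b, hbc.1.symm, hb⟩, z, rfl, (r.concat hbc).transfer _ (fun e he => ?_),
      r', fun e he => ?_, fun e he => hopen e (by simp [he]), fun e he he' => ?_⟩
    · simp only [SimpleGraph.Walk.edges_concat, List.concat_eq_append, List.mem_append,
        List.mem_singleton] at he
      rcases he with he | rfl
      · induction e using Sym2.ind with
        | _ v w => exact ⟨(r.adj_of_mem_edges he).1,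
            fun hh => hr v (r.fst_mem_support_of_mem_edges he) hh.1⟩
      · exact ⟨hbc.1, fun hh => hb hh.1⟩
    · simp only [SimpleGraph.Walk.edges_transfer, SimpleGraph.Walk.edges_concat,
        List.concat_eq_append, List.mem_append, List.mem_singleton] at he
      exact hopen e (by simp only [List.mem_append, List.mem_cons]; tauto)
    · simp only [SimpleGraph.Walk.edges_transfer, SimpleGraph.Walk.edges_concat,
        List.concat_eq_append, List.mem_append, List.mem_singleton] at he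
      rw [List.nodup_append, List.nodup_cons] at hnd
      rcases he with he | rfl
      · exact hnd.2.2 e he e (List.mem_cons_of_mem _ he') rfl
      · exact hnd.2.1.1 he'
  · simp only [joins_singleton]
    rfl

variable {f} {σ₁ : ℝ} (S : Seed f σ₁)

/-- The port counts along a ray add up to a small power. -/
theorem Seed.ray_le [Finite ι] {σ e a : ℝ} (hσ0 : 0 < σ) (hσ1 : σ ≤ 1) (he : 0 < e)
    (hζ : σ₁ < σ * (1 + e)) (ha : 0 < a) :
    ∃ C : ℝ≥0∞, C ≠ ⊤ ∧ ∀ q : unitInterval, (S.q₀ : ℝ) ≤ q → a ≤ q →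
      ∀ X : ℝ≥0∞, (∀ x, ∑' y, f.tau q f.H x y ≤ X) →
      ∀ (x : Γ × ι) (u : List Letter), FreeGroup.IsReduced u → ∀ N : ℝ, 1 ≤ N →
        ∑ t ∈ Finset.range u.length, f.Y q x (f.nodeAt x u t) ≤ C * ((f.reach q σ x *
            ENNReal.ofReal (N ^ ((σ * (1 + e) - σ₁) / (1 + e)))) ^ (1 / σ) +
            X ^ 3 / ENNReal.ofReal N) := by
  classical
  obtain ⟨C, hC, hsum⟩ := S.port_sums hσ0 hσ1 he hζ ha
  refine ⟨(S.entryR + 1 : ℕ) * C, ENNReal.mul_ne_top (ENNReal.natCast_ne_top _) hC,
    fun q hq haq X hX x u hu N hN => ?_⟩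
  have hmaps : ∀ t ∈ Finset.range u.length, t % (S.entryR + 1) ∈ Finset.range (S.entryR + 1) :=
    fun t _ => Finset.mem_range.2 (Nat.mod_lt _ (Nat.succ_pos _))
  rw [← Finset.sum_fiberwise_of_maps_to hmaps, mul_assoc, ← nsmul_eq_mul]
  refine (Finset.sum_le_card_nsmul _ _ _ fun r _ => ?_).trans_eq (by rw [Finset.card_range])
  set T := (Finset.range u.length).filter fun t => t % (S.entryR + 1) = r with hT
  have hlt : ∀ t ∈ T, t < u.length := fun t ht => Finset.mem_range.1 (Finset.mem_filter.1 ht).1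
  have hinj : Set.InjOn (fun t => f.nodeAt x u t) T := fun t ht t' ht' he' => by
    rw [← f.nodeAt_self_dist x hu (hlt t ht).le, ← f.nodeAt_self_dist x hu (hlt t' ht').le]
    exact congrArg (fun g : Half => len (g.base⁻¹ * f.pr x)) he'
  set e := f.pr x * FreeGroup.mk u with he'
  have hmem : ∀ g ∈ T.image fun t => f.nodeAt x u t, f.pr x ∉ g.side := fun g hg => by
    obtain ⟨t, ht, rfl⟩ := Finset.mem_image.1 hg
    exact f.notMem_nodeAt hu (hlt t ht)
  have key : ∀ t ∈ T, ∀ t' ∈ T, t < t' → ∀ z ∈ (f.nodeAt x u t').side,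
      S.entryR < lcp ((f.nodeAt x u t).base⁻¹ * z).toWord
        ((f.nodeAt x u t).base⁻¹ * e).toWord := by
    intro t ht t' ht' htt z hz
    have hgap : t + (S.entryR + 1) ≤ t' := by
      have h1 := (Finset.mem_filter.1 ht).2
      have h2 := (Finset.mem_filter.1 ht').2
      obtain ⟨k, hk⟩ := (Nat.modEq_iff_dvd' htt.le).1 (h1.trans h2.symm)
      rcases Nat.eq_zero_or_pos k with rfl | hk0
      · omega
      · have : S.entryR + 1 ≤ (S.entryR + 1) * k := Nat.le_mul_of_pos_right _ hk0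
        omega
    obtain ⟨h1, h2, -⟩ := f.nodeAt_deeper x hu htt (hlt t' ht')
    obtain ⟨p1, p2⟩ := prefix_of_nested h1 h2 hz
    obtain ⟨p3, -⟩ := prefix_of_nested h1 h2 (u := e) (f.end_mem_nodeAt x hu (hlt t' ht'))
    have h3 := le_lcp p1 p3
    have h4 := f.nodeAt_base_dist x hu htt.le (hlt t' ht').le
    rw [len_dist_comm] at h4
    change len _ ≤ _ at h3
    omega
  have h := (hsum q hq haq X hX x (T.image fun t => f.nodeAt x u t) (fun g => g.base⁻¹ * e) hmem
    (fun g hg g' hg' hne z hz hz' => by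
      obtain ⟨t, ht, rfl⟩ := Finset.mem_image.1 hg
      obtain ⟨t', ht', rfl⟩ := Finset.mem_image.1 hg'
      rcases lt_trichotomy t t' with h | h | h
      · exact Or.inl (key t ht t' ht' h z hz')
      · exact absurd (by rw [h]) hne
      · exact Or.inr (key t' ht' t ht h z hz)) N hN).2
  rwa [Finset.sum_image hinj] at h

variable (f)

/-- The largest weighted ray sum up to a length. -/
noncomputable def Frame.rayW (q : unitInterval) (t : ℝ≥0∞) (n : ℕ) : ℝ≥0∞ :=
  ⨆ (x : Γ × ι) (u : List Letter) (_ : FreeGroup.IsReduced u) (_ : u.length ≤ n),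
    ∑ i ∈ Finset.range u.length, t ^ i * f.Y q x (f.nodeAt x u i)

/-- A bound for ray sums gives the same bound, six times, for ray sums with growing weights. -/
theorem Frame.ray_weight {q : unitInterval} {V t : ℝ≥0∞} (hV : V ≠ ⊤) (ht : t ≠ ⊤) (ht1 : 1 ≤ t)
    (hray : ∀ (x : Γ × ι) (u : List Letter), FreeGroup.IsReduced u →
      ∑ i ∈ Finset.range u.length, f.Y q x (f.nodeAt x u i) ≤ V)
    {J : ℕ} (hJ0 : 0 < J) (hJ : 6 * V ≤ J) (htJ : t ^ (J + 2 * f.L + 1) ≤ 3)
    (x : Γ × ι) {u : List Letter} (hu : FreeGroup.IsReduced u) :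
    ∑ i ∈ Finset.range u.length, t ^ i * f.Y q x (f.nodeAt x u i) ≤ 6 * V := by
  classical
  set n := u.length
  set W := f.rayW q t n
  have hW : W ≠ ⊤ := by
    refine ne_top_of_le_ne_top (ENNReal.mul_ne_top (ENNReal.pow_ne_top ht (n := n)) hV)
      (iSup_le fun x => iSup_le fun u => iSup_le fun hu => iSup_le fun hlen => ?_)
    calc ∑ i ∈ Finset.range u.length, t ^ i * f.Y q x (f.nodeAt x u i)
        ≤ ∑ i ∈ Finset.range u.length, t ^ n * f.Y q x (f.nodeAt x u i) :=
          Finset.sum_le_sum fun i hi => mul_le_mul_left (pow_le_pow_right₀ ht1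
            ((Finset.mem_range.1 hi).le.trans hlen)) _
      _ ≤ _ := by rw [← Finset.mul_sum]; exact mul_le_mul_right (hray x u hu) _
  suffices h : W ≤ 3 * V + W / 2 by
    refine le_trans ?_ ((le_two_mul_of_le_add_half hW h).trans_eq (by ring))
    exact le_iSup_of_le x (le_iSup_of_le u (le_iSup₂_of_le hu le_rfl le_rfl))
  refine iSup_le fun x => iSup_le fun u => iSup_le fun hu => iSup_le fun hlen => ?_
  have ht3 : ∀ j, j ≤ J + 2 * f.L + 1 → t ^ j ≤ 3 := fun j hj =>
    (pow_le_pow_right₀ ht1 hj).trans htJ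
  have hhead : ∀ A ⊆ Finset.range u.length, (∀ j ∈ A, j ≤ J + 2 * f.L + 1) →
      ∑ j ∈ A, t ^ j * f.Y q x (f.nodeAt x u j) ≤ 3 * V := by
    intro A hA hAJ
    calc ∑ j ∈ A, t ^ j * f.Y q x (f.nodeAt x u j)
        ≤ ∑ j ∈ A, 3 * f.Y q x (f.nodeAt x u j) :=
          Finset.sum_le_sum fun j hj => mul_le_mul_left (ht3 j (hAJ j hj)) _
      _ ≤ _ := by
          rw [← Finset.mul_sum]
          exact mul_le_mul_right ((Finset.sum_le_sum_of_subset hA).trans (hray x u hu)) _
  by_cases hshort : u.length ≤ J + f.L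
  · exact (hhead _ subset_rfl fun j hj => by have := Finset.mem_range.1 hj; omega).trans
      le_self_add
  obtain ⟨i, hi, hmin⟩ := (Finset.Ico f.L (f.L + J)).exists_min_image
    (fun i => f.Y q x (f.nodeAt x u i)) ⟨f.L, Finset.mem_Ico.2 ⟨le_rfl, by omega⟩⟩
  obtain ⟨hi1, hi2⟩ := Finset.mem_Ico.1 hi
  have hiu : i < u.length := by omega
  have hYi : 6 * f.Y q x (f.nodeAt x u i) ≤ 1 := by
    have h1 : (J : ℝ≥0∞) * f.Y q x (f.nodeAt x u i) ≤ V := by
      calc (J : ℝ≥0∞) * f.Y q x (f.nodeAt x u i)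
          = ∑ _j ∈ Finset.Ico f.L (f.L + J), f.Y q x (f.nodeAt x u i) := by
            rw [Finset.sum_const, Nat.card_Ico, Nat.add_sub_cancel_left, nsmul_eq_mul]
        _ ≤ ∑ j ∈ Finset.Ico f.L (f.L + J), f.Y q x (f.nodeAt x u j) := Finset.sum_le_sum hmin
        _ ≤ _ := (Finset.sum_le_sum_of_subset fun j hj => Finset.mem_range.2 (by
              have := (Finset.mem_Ico.1 hj).2; omega)).trans (hray x u hu)
    have h2 : (J : ℝ≥0∞) * (6 * f.Y q x (f.nodeAt x u i)) ≤ (J : ℝ≥0∞) * 1 := by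
      rw [mul_left_comm, mul_one]
      exact (mul_le_mul_right h1 _).trans hJ
    exact (ENNReal.mul_le_mul_iff_right (by exact_mod_cast hJ0.ne')
      (ENNReal.natCast_ne_top _)).1 h2
  rw [← Finset.sum_filter_add_sum_filter_not (Finset.range u.length) (fun j => j ≤ i + f.L)]
  refine add_le_add (hhead _ (Finset.filter_subset _ _) fun j hj => ?_) ?_
  · have := (Finset.mem_filter.1 hj).2
    omega
  set A := (Finset.range u.length).filter fun j => ¬j ≤ i + f.L
  set m := f.nodeAt x u i with hm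
  set e := f.pr x * FreeGroup.mk u with he
  have hA : ∀ j ∈ A, i + f.L < j ∧ j < u.length := fun j hj =>
    ⟨not_le.1 (Finset.mem_filter.1 hj).2, Finset.mem_range.1 (Finset.mem_filter.1 hj).1⟩
  have hc : ∀ c : f.port m, ∑ j ∈ A, t ^ j * f.Y q (c : Γ × ι) (f.nodeAt x u j) ≤ 3 * W := by
    intro c
    have hcl := f.port_len c.2
    have hsidej : ∀ j ∈ A, f.pr (c : Γ × ι) ∉ (f.nodeAt x u j).side := by
      intro j hj hs
      have h1 := (f.mem_nodeAt hu (hA j hj).2).1 hs
      have h2 := lcp_le_left ((f.pr x)⁻¹ * f.pr (c : Γ × ι)).toWord u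
      rw [f.nodeAt_len hu hiu c.2.1.1] at hcl
      have := (hA j hj).1
      omega
    set v := ((f.pr (c : Γ × ι))⁻¹ * e).toWord
    let k : ℕ → ℕ := fun j => len ((f.pr (c : Γ × ι))⁻¹ * (f.nodeAt x u j).base)
    have hk : ∀ j ∈ A, k j < v.length ∧ f.nodeAt (c : Γ × ι) v (k j) = f.nodeAt x u j :=
      fun j hj => f.nodeAt_of_mem (hsidej j hj) (f.end_mem_nodeAt x hu (hA j hj).2)
    have hwt : ∀ j ∈ A, t ^ j ≤ 3 * t ^ k j := by
      intro j hj
      have h1 := f.nodeAt_self_dist x hu (hA j hj).2.le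
      have h2 : len (m.base⁻¹ * f.pr x) = i := f.nodeAt_self_dist x hu hiu.le
      have h3 := len_dist_le (f.pr x) m.base (f.nodeAt x u j).base
      have h4 := len_dist_le m.base (f.pr (c : Γ × ι)) (f.nodeAt x u j).base
      rw [len_dist_comm (f.pr x) m.base, len_dist_comm (f.pr x) (f.nodeAt x u j).base] at h3
      calc t ^ j ≤ t ^ (i + f.L + k j) := pow_le_pow_right₀ ht1 (by simp only [k]; omega)
        _ ≤ _ := by rw [pow_add]; exact mul_le_mul_left (ht3 _ (by omega)) _
    have hinj : Set.InjOn k A := fun j hj j' hj' hjj => by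
      rw [← f.nodeAt_self_dist x hu (hA j hj).2.le, ← f.nodeAt_self_dist x hu (hA j' hj').2.le,
        ← (hk j hj).2, ← (hk j' hj').2, hjj]
    have hvlen : v.length ≤ n := by
      have h2 := len_dist_le (f.pr (c : Γ × ι)) m.base e
      rw [len_dist_comm (f.pr (c : Γ × ι)) m.base] at h2
      have h3 : len (m.base⁻¹ * e) = u.length - i := by
        rw [f.nodeAt_len hu hiu (f.end_mem_nodeAt x hu hiu), inv_mul_cancel_left,
          toWord_mk_of_reduced hu]
      show len _ ≤ n
      omega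
    have hle : ∑ i ∈ Finset.range v.length, t ^ i * f.Y q (c : Γ × ι) (f.nodeAt (c : Γ × ι) v i) ≤ W :=
      le_iSup_of_le (c : Γ × ι) (le_iSup_of_le v (le_iSup_of_le FreeGroup.isReduced_toWord
        (le_iSup_of_le hvlen le_rfl)))
    calc ∑ j ∈ A, t ^ j * f.Y q (c : Γ × ι) (f.nodeAt x u j)
        ≤ ∑ j ∈ A, 3 * (t ^ k j * f.Y q (c : Γ × ι) (f.nodeAt (c : Γ × ι) v (k j))) :=
          Finset.sum_le_sum fun j hj => by
            rw [(hk j hj).2, ← mul_assoc]
            exact mul_le_mul_left (hwt j hj) _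
      _ ≤ _ := by
          rw [← Finset.mul_sum, ← Finset.sum_image (f := fun i =>
            t ^ i * f.Y q (c : Γ × ι) (f.nodeAt (c : Γ × ι) v i)) hinj]
          refine mul_le_mul_right ((Finset.sum_le_sum_of_subset fun a ha => ?_).trans hle) _
          obtain ⟨j, hj, rfl⟩ := Finset.mem_image.1 ha
          exact Finset.mem_range.2 (hk j hj).1
  calc ∑ j ∈ A, t ^ j * f.Y q x (f.nodeAt x u j)
      ≤ ∑ j ∈ A, t ^ j * ∑' c : f.port m, f.tau q (f.avoid m) x c *
          f.Y q (c : Γ × ι) (f.nodeAt x u j) :=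
        Finset.sum_le_sum fun j hj => mul_le_mul_right (f.Y_submult q
          (f.nodeAt_deeper x hu (by have := (hA j hj).1; omega) (hA j hj).2).2.2
          fun hh => f.notMem_nodeAt hu hiu hh.1) _
    _ = ∑' c : f.port m, f.tau q (f.avoid m) x c *
          ∑ j ∈ A, t ^ j * f.Y q (c : Γ × ι) (f.nodeAt x u j) := by
        simp only [← ENNReal.tsum_mul_left, Finset.mul_sum]
        rw [← Summable.tsum_finsetSum fun _ _ => ENNReal.summable]
        exact tsum_congr fun c => Finset.sum_congr rfl fun j _ => mul_left_comm _ _ _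
    _ ≤ ∑' c : f.port m, f.tau q (f.avoid m) x c * (3 * W) :=
        ENNReal.tsum_le_tsum fun c => mul_le_mul_right (hc c) _
    _ = W / 2 * (6 * f.Y q x m) := by
        rw [ENNReal.tsum_mul_right, Frame.Y, div_eq_mul_inv,
          show (6 : ℝ≥0∞) = 2 * 3 by norm_num]
        calc _ = (2⁻¹ * 2) * ((∑' c : f.port m, f.tau q (f.avoid m) x c) * (3 * W)) := by
              rw [ENNReal.inv_mul_cancel two_ne_zero (by norm_num), one_mul]
          _ = _ := by ring
    _ ≤ W / 2 * 1 := mul_le_mul_right hYi _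
    _ = W / 2 := mul_one _

end Vale.Agent.P165.Large
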