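import Mathlib
import Vale.Agent.P165.Large.Sums

/-!
The tilted susceptibility is at most a small power of the susceptibility.
-/

namespace Vale.Agent.P165.Large

open MeasureTheory
open P151 (openOcc)
open scoped ENNReal

variable {Γ ι : Type} [Group Γ] (f : Frame Γ ι)

lemma Frame.avoidSide_inv (ν : f.π.ker) (h : Half) (u v : Γ × ι) :
    (f.avoidSide h).Adj (f.kerAct ν u) (f.kerAct ν v) ↔ (f.avoidSide h).Adj u v := by
  refine and_congr (f.adj_act (ν : Γ)) ?_
  simp only [f.kerAct_apply, f.pr_act, f.π_ker, one_mul]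

/-- The vertices as projections, labels and kernel elements. -/
noncomputable def Frame.coords : (F2 × ι) × f.π.ker ≃ Γ × ι where
  toFun p := ((p.2 : Γ) * f.sec p.1.1, p.1.2)
  invFun v := ((f.π v.1, v.2), ⟨v.1 * (f.sec (f.π v.1))⁻¹,
    by simp [MonoidHom.mem_ker, f.π_sec]⟩)
  left_inv := by
    rintro ⟨⟨g, i⟩, ⟨ν, hν⟩⟩
    have e : f.π (ν * f.sec g) = g := by
      rw [map_mul, f.π_sec, MonoidHom.mem_ker.1 hν, one_mul]
    simp [e]
  right_inv v := by simp

/-- The connections inside the complement of a half-tree to a whole class, seen through its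
port. -/
theorem Frame.fibre_le [Finite ι] {a : ℝ} (ha : 0 < a) (R : ℕ) :
    ∃ C : ℝ≥0∞, C ≠ ⊤ ∧ ∀ q : unitInterval, a ≤ q → ∀ h : Half, ∀ z ∈ f.near h R,
      ∀ y₀ : Γ × ι, ∑' ν : f.π.ker, f.tau q (f.avoidSide h) z (f.kerAct ν y₀)
        ≤ C * f.Y q y₀ h := by
  classical
  have := f.countable
  set M := f.rad * (R + f.depth + 2)
  set c : ℝ≥0∞ := ENNReal.ofReal (a ^ M)
  have hc0 : c ≠ 0 := by simp [c, pow_pos ha M]
  refine ⟨c⁻¹, by simp [hc0], fun q haq h z hz y₀ => ?_⟩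
  obtain ⟨y', hy', r, hr⟩ := f.out_port h z fun hv => hz.1 hv.1
  have hrM : r.length ≤ M := hr.trans (Nat.mul_le_mul_left _ (by have := hz.2; omega))
  have h1 : ∀ ν : f.π.ker, f.tau q (f.avoidSide h) z (f.kerAct ν y₀) =
      f.tau q (f.avoidSide h) y₀ (f.kerAct ν⁻¹ z) := by
    intro ν
    rw [← f.tau_map (K' := f.avoidSide h) ((ν⁻¹ : f.π.ker) : Γ)
      (f.avoidSide_inv ν⁻¹ h) z (f.kerAct ν y₀), f.tau_comm]
    congr 1
    show f.kerAct ν⁻¹ (f.kerAct ν y₀) = y₀
    rw [← Equiv.Perm.mul_apply, ← map_mul, inv_mul_cancel, map_one, Equiv.Perm.one_apply]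
  rw [tsum_congr h1]
  refine le_of_eq_of_le ((Equiv.inv f.π.ker).tsum_eq
    fun μ => f.tau q (f.avoidSide h) y₀ (f.kerAct μ z)) ?_
  rw [← ENNReal.div_eq_inv_mul, ENNReal.le_div_iff_mul_le (Or.inl hc0)
    (Or.inl ENNReal.ofReal_ne_top), ← ENNReal.tsum_mul_right]
  have hport : ∀ μ : f.π.ker, f.kerAct μ y' ∈ f.port h := fun μ =>
    f.sameClass_port hy' ⟨by simp [f.kerAct_apply, f.pr_act, f.π_ker], rfl⟩
  refine le_trans (ENNReal.tsum_le_tsum fun μ => ?_)
    (ENNReal.tsum_comp_le_tsum_of_injective (f := fun μ : f.π.ker =>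
      (⟨f.kerAct μ y', hport μ⟩ : f.port h))
      (fun μ μ' he => f.kerAct_eq_iff (congrArg Subtype.val he))
      fun v => f.tau q (f.avoid h) y₀ v)
  let φ : f.avoid h →g f.avoid h :=
    { toFun := f.kerAct μ
      map_rel' := fun {u v} huv => (f.avoid_inv μ h u v).2 huv }
  have h2 := walk_joins (p := q) (r.map φ).reverse (M := M) (by simpa using hrM) {y₀}
  rw [joins_singleton, joins_singleton] at h2
  calc f.tau q (f.avoidSide h) y₀ (f.kerAct μ z) * c
      ≤ ENNReal.ofReal ((q : ℝ) ^ M) * f.tau q (f.avoid h) (f.kerAct μ z) y₀ := by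
        rw [mul_comm, f.tau_comm (f.avoid h) _ y₀]
        exact mul_le_mul' (ENNReal.ofReal_le_ofReal (pow_le_pow_left₀ ha.le haq _))
          (f.tau_mono (f.avoidSide_le_avoid h) _ _)
    _ ≤ f.tau q (f.avoid h) y₀ (f.kerAct μ y') := h2.trans (f.tau_comm _ _ _).le

/-- The part after the top level, weighted by the distance to its root. -/
theorem Frame.lower_le [Fintype ι] {a : ℝ} (ha : 0 < a) (R : ℕ) :
    ∃ C : ℝ≥0∞, C ≠ ⊤ ∧ ∀ q : unitInterval, a ≤ q → ∀ U θ : ℝ≥0∞,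
      (∀ (x : Γ × ι) (k : ℕ), ∑ v ∈ sphere (k + 1), f.Y q x (f.nodeAt x v k) ≤ U) →
      ∀ h : Half, ∀ z ∈ f.near h R,
        ∑' y, f.tau q (f.avoidSide h) z y * θ ^ len (h.base⁻¹ * f.pr y) ≤
          C * (Fintype.card ι * U * (1 - θ)⁻¹) := by
  classical
  obtain ⟨C, hC, hfib⟩ := f.fibre_le ha R
  refine ⟨C, hC, fun q haq U θ hU h z hz => ?_⟩
  rw [← (f.coords).tsum_eq, ENNReal.tsum_prod']
  let H : F2 × ι → ℝ≥0∞ := fun p =>
    if p.1 ∈ h.side then 0 else θ ^ len (h.base⁻¹ * p.1) * f.Y q ((1 : Γ), p.2) (h.shift p.1⁻¹)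
  have hpt : ∀ p : F2 × ι, ∑' ν : f.π.ker, f.tau q (f.avoidSide h) z (f.coords (p, ν)) *
      θ ^ len (h.base⁻¹ * f.pr (f.coords (p, ν))) ≤ C * H p := by
    rintro ⟨g, i⟩
    have hpr : ∀ ν : f.π.ker, f.pr (f.coords ((g, i), ν)) = g := fun ν => by
      show f.π ((ν : Γ) * f.sec g) = g
      rw [map_mul, f.π_ker, f.π_sec, one_mul]
    simp only [hpr]
    by_cases hg : g ∈ h.side
    · refine le_of_eq_of_le (ENNReal.tsum_eq_zero.2 fun ν => ?_) zero_le
      rw [show f.tau q (f.avoidSide h) z (f.coords ((g, i), ν)) = 0 from ?_, zero_mul]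
      unfold Frame.tau
      rw [show conn (f.avoidSide h) z (f.coords ((g, i), ν)) = ∅ from ?_, measure_empty]
      refine Set.eq_empty_of_forall_notMem fun ω hω => ?_
      exact f.notMem_of_conn le_rfl hω hz.1 (by rw [hpr]; exact hg)
    · simp only [H, if_neg hg]
      rw [ENNReal.tsum_mul_right, mul_comm (θ ^ _), ← mul_assoc]
      refine mul_le_mul_left ((hfib q haq h z hz (f.sec g, i)).trans (le_of_eq ?_)) _
      rw [← f.Y_act (q := q) (f.sec g)⁻¹ (f.sec g, i) h, map_inv, f.π_sec]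
      simp [Frame.act]
  refine (ENNReal.tsum_le_tsum hpt).trans ?_
  rw [ENNReal.tsum_mul_left]
  refine mul_le_mul_right ?_ _
  rw [ENNReal.tsum_eq_iSup_sum]
  refine iSup_le fun T => ?_
  let d : F2 × ι → ℕ × ι := fun p => (len (h.base⁻¹ * p.1), p.2)
  rw [← Finset.sum_fiberwise_of_maps_to (g := d) (t := T.image d)
    fun p hp => Finset.mem_image_of_mem _ hp]
  refine (Finset.sum_le_sum (g := fun di => θ ^ di.1 * U) fun di _ => ?_).trans ?_
  · obtain ⟨k, i⟩ := di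
    let word : F2 × ι → List Letter := fun p => (p.1⁻¹ * h.base).toWord ++ [h.dir]
    set F := (T.filter fun p => d p = (k, i)).filter fun p => p.1 ∉ h.side
    have hF : ∀ p ∈ F, p.1 ∉ h.side ∧ len (h.base⁻¹ * p.1) = k ∧ p.2 = i := fun p hp => by
      simp only [F, d, Finset.mem_filter, Prod.mk.injEq] at hp
      exact ⟨hp.2, hp.1.2.1, hp.1.2.2⟩
    have hword : ∀ p ∈ F, word p ∈ sphere (k + 1) := fun p hp => by
      obtain ⟨h1, h2, -⟩ := hF p hp
      refine mem_sphere.2 ⟨isReduced_concat.2 ⟨FreeGroup.isReduced_toWord, fun hl => h1 ?_⟩, ?_⟩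
      · have e : h.base⁻¹ * p.1 = (p.1⁻¹ * h.base)⁻¹ := by group
        rw [mem_side, e, FreeGroup.toWord_inv, invRev_head?, hl]
        simp [linv_linv]
      · simp only [word, List.length_append, List.length_singleton]
        rw [len_dist_comm] at h2
        exact congrArg (· + 1) h2
    have hinj : Set.InjOn word F := fun p hp p' hp' he => by
      refine Prod.ext ?_ ((hF p hp).2.2.trans (hF p' hp').2.2.symm)
      exact inv_injective (mul_right_cancel
        (FreeGroup.toWord_injective (List.append_cancel_right he)))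
    calc ∑ p ∈ T.filter (fun p => d p = (k, i)), H p
        = ∑ p ∈ F, H p := by
          refine (Finset.sum_filter_of_ne fun p _ hne => ?_).symm
          intro hs
          exact hne (if_pos hs)
      _ = ∑ p ∈ F, θ ^ k * f.Y q ((1 : Γ), i) (f.nodeAt ((1 : Γ), i) (word p) k) := by
          refine Finset.sum_congr rfl fun p hp => ?_
          obtain ⟨h1, h2, h3⟩ := hF p hp
          simp only [H, if_neg h1, h2, h3]
          congr 2
          rw [len_dist_comm] at h2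
          simp [Frame.nodeAt, node, Half.shift, Frame.pr, word, ← h2, len,
            List.getD_eq_getElem?_getD, FreeGroup.mk_toWord]
      _ ≤ θ ^ k * U := by
          rw [← Finset.mul_sum, ← Finset.sum_image
            (f := fun v => f.Y q ((1 : Γ), i) (f.nodeAt ((1 : Γ), i) v k)) hinj]
          refine mul_le_mul_right ((Finset.sum_le_sum_of_subset fun v hv => ?_).trans (hU _ k)) _
          obtain ⟨p, hp, rfl⟩ := Finset.mem_image.1 hv
          exact hword p hp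
  · refine (ENNReal.sum_le_tsum _).trans (le_of_eq ?_)
    rw [ENNReal.tsum_prod']
    simp only [tsum_fintype, Finset.sum_const, Finset.card_univ, nsmul_eq_mul]
    rw [ENNReal.tsum_mul_left, ENNReal.tsum_mul_right, ENNReal.tsum_geometric]
    ring

/-- Past the root of the lower part the height is what remains after the distance to it. -/
lemma Frame.ht_le_sub (P : F2) (x : Γ × ι) {u : List Letter} (hu : FreeGroup.IsReduced u)
    (hP : ((f.pr x)⁻¹ * P).toWord <+: u) {J : ℕ} (hJ : J < u.length) {y : Γ × ι}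
    (hy : f.pr y ∉ (f.nodeAt x u J).side) :
    ht P (f.pr y) - ht P (f.pr x) ≤ (J : ℤ) - len ((f.nodeAt x u J).base⁻¹ * f.pr y) := by
  set e := f.pr x * FreeGroup.mk u with he
  set b := (f.nodeAt x u J).base
  have he_mem : e ∈ (f.nodeAt x u J).side := f.end_mem_nodeAt x hu hJ
  have h1 : len (b⁻¹ * e) = u.length - J := by
    rw [f.nodeAt_len hu hJ he_mem, he, inv_mul_cancel_left, toWord_mk_of_reduced hu]
  have h2 := cross_eq he_mem hy
  rw [len_dist_comm e] at h2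
  change _ = len (b⁻¹ * e) + len (b⁻¹ * f.pr y) at h2
  have h3 : len (P⁻¹ * e) = u.length - len ((f.pr x)⁻¹ * P) := by
    have h := len_inv_mul ((f.pr x)⁻¹ * P) (FreeGroup.mk u)
    rw [toWord_mk_of_reduced hu, lcp_of_prefix hP, len_mk hu] at h
    rw [show ((f.pr x)⁻¹ * P)⁻¹ * FreeGroup.mk u = P⁻¹ * e by rw [he]; group] at h
    have := hP.length_le
    unfold len at h ⊢
    omega
  have h4 := len_dist_le (f.pr y) P e
  have h5 : len ((f.pr x)⁻¹ * P) ≤ u.length := hP.length_le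
  simp only [ht]
  omega

/-- The tilted susceptibility through sums of port counts. -/
theorem Frame.tilt_sum [Fintype ι] {a : ℝ} (ha : 0 < a) :
    ∃ C : ℝ≥0∞, C ≠ ⊤ ∧ ∀ q : unitInterval, a ≤ q → ∀ t : ℝ, 1 < t → ∀ U V : ℝ≥0∞,
      (∀ (x : Γ × ι) (k : ℕ), ∑ v ∈ sphere (k + 1), f.Y q x (f.nodeAt x v k) ≤ U) →
      (∀ (x : Γ × ι) (u : List Letter), FreeGroup.IsReduced u →
        ∑ i ∈ Finset.range u.length, ENNReal.ofReal t ^ i * f.Y q x (f.nodeAt x u i) ≤ V) →
      ∀ (P : F2) (x : Γ × ι) (T : Finset (Γ × ι)),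
        ∑ y ∈ T, f.tau q f.H x y * ENNReal.ofReal (t ^ (ht P (f.pr y) - ht P (f.pr x))) ≤
          C * ENNReal.ofReal (t ^ (f.depth + 1)) *
            (Fintype.card ι * U * (1 - ENNReal.ofReal t⁻¹)⁻¹) * (1 + V) := by
  classical
  have := f.countable
  obtain ⟨C, hC, hlow⟩ := f.lower_le ha (f.L + f.depth + 1)
  refine ⟨C, hC, fun q haq t ht1 U V hU hV P x T => ?_⟩
  set θ := ENNReal.ofReal t⁻¹
  set B := C * (Fintype.card ι * U * (1 - θ)⁻¹)
  set ω : Γ × ι → ℝ≥0∞ := fun y => ENNReal.ofReal (t ^ (ht P (f.pr y) - ht P (f.pr x))) with hω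
  have hiSup : ∀ y, f.tau q f.H x y * ω y =
      ⨆ n, perc (Γ × ι) q (openOcc (witUpTo f.H x {y} n)) * ω y := fun y => by
    rw [← ENNReal.iSup_mul, ← perc_joins_eq_iSup, joins_singleton]
    rfl
  simp only [hω] at hiSup ⊢
  rw [Finset.sum_congr rfl fun y _ => hiSup y, ENNReal.finsetSum_iSup_of_monotone]
  swap
  · intro y n m hnm
    refine mul_le_mul_left (measure_mono ?_) _
    rintro ξ ⟨E, ⟨v, hv, p, hl, hp⟩, ho⟩
    exact ⟨E, ⟨v, hv, p, hl.trans hnm, hp⟩, ho⟩
  refine iSup_le fun n => ?_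
  obtain ⟨u, hu, hlen, hpre⟩ := exists_extension (w := ((f.pr x)⁻¹ * P).toWord)
    FreeGroup.isReduced_toWord (Nat.le_add_right _ (f.L * n + f.depth + 2))
  have hlow' : ∀ J < u.length, ∀ z ∈ f.near (f.nodeAt x u J) (f.L + f.depth + 1),
      ∑ y ∈ T, f.tau q (f.avoidSide (f.nodeAt x u J)) z y * ω y ≤ ENNReal.ofReal (t ^ J) * B := by
    intro J hJ z hz
    refine le_trans (le_trans (Finset.sum_le_sum fun y _ => ?_) (ENNReal.sum_le_tsum T))
      (le_of_eq_of_le ENNReal.tsum_mul_left (mul_le_mul_right (hlow q haq U θ hU _ z hz) _))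
    by_cases hy : f.pr y ∈ (f.nodeAt x u J).side
    · refine le_of_eq_of_le ?_ zero_le
      unfold Frame.tau
      rw [show conn (f.avoidSide (f.nodeAt x u J)) z y = ∅ from
        Set.eq_empty_of_forall_notMem fun ξ hξ => f.notMem_of_conn le_rfl hξ hz.1 hy,
        measure_empty, zero_mul]
    · rw [mul_left_comm]
      refine mul_le_mul_right ?_ _
      rw [← ENNReal.ofReal_pow (by positivity), ← ENNReal.ofReal_mul (by positivity)]
      refine ENNReal.ofReal_le_ofReal ?_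
      calc t ^ (ht P (f.pr y) - ht P (f.pr x))
          ≤ t ^ ((J : ℤ) - len ((f.nodeAt x u J).base⁻¹ * f.pr y)) :=
            zpow_le_zpow_right₀ ht1.le (f.ht_le_sub P x hu hpre hJ hy)
        _ = _ := by rw [zpow_sub₀ (by linarith), zpow_natCast, zpow_natCast, div_eq_mul_inv, inv_pow]
  have hx : x ∈ f.near (f.nodeAt x u (f.depth + 1)) (f.L + f.depth + 1) :=
    ⟨f.notMem_nodeAt hu (by omega), by rw [f.nodeAt_self_dist x hu (by omega)]; omega⟩
  set D := f.depth + 1 with hD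
  calc ∑ y ∈ T, perc (Γ × ι) q (openOcc (witUpTo f.H x {y} n)) * ω y
      ≤ ∑ y ∈ T, (f.tau q (f.avoidSide (f.nodeAt x u D)) x y * ω y +
          ∑ j ∈ Finset.range (u.length - f.depth - 2), ∑' z : f.port (f.nodeAt x u (j + 1)),
            f.tau q (f.avoid (f.nodeAt x u (j + 1))) x z *
              (f.tau q (f.avoidSide (f.nodeAt x u (j + f.depth + 2))) z y * ω y)) := by
        refine Finset.sum_le_sum fun y _ => ?_
        refine le_trans (mul_le_mul_left (f.split le_rfl x {y} n hu (by omega)) _) ?_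
        rw [add_mul, Finset.sum_mul]
        refine add_le_add (mul_le_mul_left ?_ _) (Finset.sum_le_sum fun j _ => ?_)
        · rw [Frame.tau, ← joins_singleton]
          exact measure_mono (joins_mono inf_le_right _ subset_rfl)
        · rw [← ENNReal.tsum_mul_right]
          refine ENNReal.tsum_le_tsum fun z => ?_
          rw [mul_assoc]
          refine mul_le_mul_right (mul_le_mul_left ?_ _) _
          rw [Frame.tau, ← joins_singleton]
          exact measure_mono (joins_mono inf_le_right _ subset_rfl)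
    _ = ∑ y ∈ T, f.tau q (f.avoidSide (f.nodeAt x u D)) x y * ω y +
          ∑ j ∈ Finset.range (u.length - f.depth - 2), ∑' z : f.port (f.nodeAt x u (j + 1)),
            f.tau q (f.avoid (f.nodeAt x u (j + 1))) x z *
              ∑ y ∈ T, f.tau q (f.avoidSide (f.nodeAt x u (j + f.depth + 2))) z y * ω y := by
        rw [Finset.sum_add_distrib, Finset.sum_comm]
        congr 1
        refine Finset.sum_congr rfl fun j _ => ?_
        rw [← Summable.tsum_finsetSum fun _ _ => ENNReal.summable]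
        exact tsum_congr fun z => (Finset.mul_sum _ _ _).symm
    _ ≤ ENNReal.ofReal (t ^ D) * B + ∑ j ∈ Finset.range (u.length - f.depth - 2),
          ∑' z : f.port (f.nodeAt x u (j + 1)), f.tau q (f.avoid (f.nodeAt x u (j + 1))) x z *
            (ENNReal.ofReal (t ^ (j + f.depth + 2)) * B) := by
        refine add_le_add (hlow' D (by omega) x hx) (Finset.sum_le_sum fun j hj => ?_)
        have hj' := Finset.mem_range.1 hj
        exact ENNReal.tsum_le_tsum fun z => mul_le_mul_right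
          (hlow' _ (by omega) z (f.port_near x hu (by omega) z.2)) _
    _ = ENNReal.ofReal (t ^ D) * B + ENNReal.ofReal (t ^ D) * B *
          ∑ j ∈ Finset.range (u.length - f.depth - 2),
            ENNReal.ofReal t ^ (j + 1) * f.Y q x (f.nodeAt x u (j + 1)) := by
        rw [Finset.mul_sum]
        congr 1
        refine Finset.sum_congr rfl fun j _ => ?_
        rw [ENNReal.tsum_mul_right, Frame.Y, ← ENNReal.ofReal_pow (by positivity),
          show j + f.depth + 2 = D + (j + 1) by omega, pow_add, ENNReal.ofReal_mul (by positivity)]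
        ring
    _ ≤ ENNReal.ofReal (t ^ D) * B + ENNReal.ofReal (t ^ D) * B * V := by
        refine add_le_add le_rfl (mul_le_mul_right (le_trans ?_ (hV x u hu)) _)
        rw [← Finset.sum_image (f := fun i => ENNReal.ofReal t ^ i * f.Y q x (f.nodeAt x u i))
          (g := fun j => j + 1) (add_left_injective 1).injOn]
        refine Finset.sum_le_sum_of_subset fun i hi => ?_
        obtain ⟨j, hj, rfl⟩ := Finset.mem_image.1 hi
        have := Finset.mem_range.1 hj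
        exact Finset.mem_range.2 (by omega)
    _ = _ := by simp only [B]; ring

/-- Larger parameters have larger two-point functions. -/
lemma Frame.tau_le_tau {q q' : unitInterval} (h : (q : ℝ) ≤ q') (K : SimpleGraph (Γ × ι))
    (x y : Γ × ι) : f.tau q K x y ≤ f.tau q' K x y := by
  have := f.countable
  unfold Frame.tau
  rw [← joins_singleton]
  exact perc_mono h (up_openOcc _) (measurableSet_joins _ _ _)

variable {f} {σ₁ : ℝ} (S : Seed f σ₁)

/-- The estimate at the parameters above the seed. -/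
theorem Seed.tilt_le [Fintype ι] [Nonempty ι] {σ e a ζ : ℝ} (hσ0 : 0 < σ) (hσ1 : σ ≤ 1)
    (he : 0 < e) (hgap : σ₁ < σ * (1 + e)) (hζ : ζ = (σ * (1 + e) - σ₁) / (1 + e))
    (hζσ : ζ ≤ σ ^ 2 / 2) (ha : 0 < a) {m : ℕ} (hm0 : 0 < m) (hm : 3 / a ^ f.rad ≤ 3 ^ m)
    (hsmall : 9 * ζ * (2 + 2 * m / σ) / σ ≤ 1 / 4) {K : ℝ≥0∞} (hK : K ≠ ⊤) :
    ∃ C : ℝ, 0 ≤ C ∧ ∀ q : unitInterval, (S.q₀ : ℝ) ≤ q → a ≤ q → (q : ℝ) < pc f.H →
      f.growth q σ ≤ K → ∀ X : ℝ, 1 ≤ X →
      (∀ x, ∑' y, f.tau q f.H x y ≤ ENNReal.ofReal X) →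
      ∃ t : ℝ, 1 < t ∧ t ≤ 2 ∧ ∀ (P : F2) (x : Γ × ι) (T : Finset (Γ × ι)),
        ∑ y ∈ T, f.tau q f.H x y * ENNReal.ofReal (t ^ (ht P (f.pr y) - ht P (f.pr x)))
          ≤ ENNReal.ofReal (C * X ^ (1 / 4 : ℝ)) := by
  classical
  obtain ⟨Cr, hCr, hreach⟩ := S.reach_bound hσ0 hσ1 he hgap hζ hζσ ha hm0 hm hK
  obtain ⟨Cl, hCl, hlev⟩ := S.level_le hσ0 hσ1 he hgap ha
  obtain ⟨Cy, hCy, hray⟩ := S.ray_le hσ0 hσ1 he hgap ha
  obtain ⟨Ct, hCt, htilt⟩ := f.tilt_sum ha
  rw [← hζ] at hlev hray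
  have hζ0 : 0 ≤ ζ := hζ ▸ div_nonneg (by linarith) (by linarith)
  set c : ℝ := ((Cl + Cy) * (Cr ^ (1 / σ) + 1)).toReal + 1 with hc
  have hc1 : 1 ≤ c := le_add_of_nonneg_left ENNReal.toReal_nonneg
  have hct : (Cl + Cy) * (Cr ^ (1 / σ) + 1) ≤ ENNReal.ofReal c := by
    rw [ENNReal.le_ofReal_iff_toReal_le (ENNReal.mul_ne_top (ENNReal.add_ne_top.2 ⟨hCl, hCy⟩)
      (ENNReal.add_ne_top.2 ⟨ENNReal.rpow_ne_top_of_nonneg (by positivity) hCr,
        ENNReal.one_ne_top⟩)) (by linarith)]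
    linarith
  set ct : ℝ := Ct.toReal * 2 ^ (f.depth + 1) * Fintype.card ι
  have hct0 : 0 ≤ ct := by positivity
  refine ⟨ct * c * (7 * c + 2 * f.L + 3) * (7 * c), by positivity,
    fun q hq haq hqc hg X hX hsusc => ?_⟩
  set η : ℝ := ζ * (2 + 2 * m / σ) / σ with hη
  have hη0 : 0 ≤ η := by positivity
  set W : ℝ := (X ^ 3) ^ η
  have hW : 1 ≤ W := Real.one_le_rpow (one_le_pow₀ hX) hη0
  set R : ℝ≥0∞ := ENNReal.ofReal (2 * c * W) / 2
  have hRW : R = ENNReal.ofReal (c * W) := by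
    simp only [R]
    rw [← ENNReal.ofReal_ofNat, ← ENNReal.ofReal_div_of_pos two_pos]
    congr 1; ring
  have hmain : ∀ x, (f.reach q σ x * ENNReal.ofReal ((X ^ 3) ^ ζ)) ^ (1 / σ) +
      ENNReal.ofReal X ^ 3 / ENNReal.ofReal (X ^ 3) ≤
        (Cr ^ (1 / σ) + 1) * ENNReal.ofReal W := by
    intro x
    rw [add_mul, one_mul]
    refine add_le_add ?_ ?_
    · calc (f.reach q σ x * ENNReal.ofReal ((X ^ 3) ^ ζ)) ^ (1 / σ)
          ≤ (Cr * ENNReal.ofReal ((X ^ 3) ^ (ζ * (1 + 2 * m / σ))) *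
              ENNReal.ofReal ((X ^ 3) ^ ζ)) ^ (1 / σ) :=
            ENNReal.rpow_le_rpow (mul_le_mul_left (hreach q hq haq hqc hg X hX hsusc x) _)
              (by positivity)
        _ = Cr ^ (1 / σ) * ENNReal.ofReal W := by
            rw [mul_assoc, ← ENNReal.ofReal_mul (by positivity),
              ENNReal.mul_rpow_of_nonneg _ _ (by positivity),
              ENNReal.ofReal_rpow_of_nonneg (by positivity) (by positivity)]
            congr 2
            rw [← Real.rpow_add (by positivity), ← Real.rpow_mul (by positivity)]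
            simp only [W]
            congr 1
            rw [hη]; ring
    · rw [← ENNReal.ofReal_pow (by linarith), ENNReal.div_self
        (by simpa using pow_pos (show (0 : ℝ) < X by linarith) 3) ENNReal.ofReal_ne_top]
      exact ENNReal.one_le_ofReal.2 hW
  have hUV : ∀ {D : ℝ≥0∞}, D ≤ Cl + Cy →
      ∀ x, D * ((f.reach q σ x * ENNReal.ofReal ((X ^ 3) ^ ζ)) ^ (1 / σ) +
        ENNReal.ofReal X ^ 3 / ENNReal.ofReal (X ^ 3)) ≤ ENNReal.ofReal (c * W) := by
    intro D hD x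
    refine (mul_le_mul' hD (hmain x)).trans ?_
    rw [← mul_assoc, ENNReal.ofReal_mul (by linarith)]
    exact mul_le_mul_left hct _
  have hU : ∀ (x : Γ × ι) (k : ℕ), ∑ v ∈ sphere (k + 1), f.Y q x (f.nodeAt x v k) ≤
      ENNReal.ofReal (c * W) := fun x k =>
    ((hlev q hq haq _ hsusc x k (X ^ 3) (one_le_pow₀ hX)).2).trans (hUV le_self_add x)
  have hR : ∀ (x : Γ × ι) (u : List Letter), FreeGroup.IsReduced u →
      ∑ i ∈ Finset.range u.length, f.Y q x (f.nodeAt x u i) ≤ ENNReal.ofReal (c * W) :=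
    fun x u hu => (hray q hq haq _ hsusc x u hu (X ^ 3) (one_le_pow₀ hX)).trans
      (hUV le_add_self x)
  have hcW : 1 ≤ c * W := one_le_mul_of_one_le_of_one_le hc1 hW
  obtain ⟨J, hJ1, hJ2⟩ : ∃ J : ℕ, 6 * (c * W) ≤ J ∧ (J : ℝ) ≤ 7 * (c * W) :=
    ⟨⌈6 * (c * W)⌉₊, Nat.le_ceil _, by
      have := Nat.ceil_lt_add_one (show 0 ≤ 6 * (c * W) by linarith)
      linarith⟩
  set N : ℕ := J + 2 * f.L + 1 with hN
  have hN0 : (0 : ℝ) < N := by positivity
  set t : ℝ := 1 + 1 / (N : ℝ) with ht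
  have ht1 : 1 < t := lt_add_of_pos_right 1 (by positivity)
  have ht2 : t ≤ 2 := by
    have : (1 : ℝ) ≤ N := by exact_mod_cast Nat.succ_pos _
    have : 1 / (N : ℝ) ≤ 1 := (div_le_one hN0).2 this
    linarith
  refine ⟨t, ht1, ht2, fun P x T => ?_⟩
  have htN : t ^ N ≤ 3 := by
    calc t ^ N ≤ Real.exp (1 / (N : ℝ)) ^ N := pow_le_pow_left₀ (by linarith)
          (by rw [ht, add_comm]; exact Real.add_one_le_exp _) _
      _ = Real.exp 1 := by rw [← Real.exp_nat_mul, mul_one_div_cancel hN0.ne']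
      _ ≤ 3 := Real.exp_one_lt_three.le
  have hV : ∀ (x : Γ × ι) (u : List Letter), FreeGroup.IsReduced u →
      ∑ i ∈ Finset.range u.length, ENNReal.ofReal t ^ i * f.Y q x (f.nodeAt x u i) ≤
        6 * ENNReal.ofReal (c * W) := fun x u hu => by
    refine f.ray_weight ENNReal.ofReal_ne_top ENNReal.ofReal_ne_top
      (ENNReal.one_le_ofReal.2 ht1.le) hR (J := J) ?_ ?_ ?_ x hu
    · rw [← Nat.cast_pos (α := ℝ)]; linarith
    · rw [← ENNReal.ofReal_ofNat, ← ENNReal.ofReal_mul (by norm_num), ← ENNReal.ofReal_natCast]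
      exact ENNReal.ofReal_le_ofReal hJ1
    · rw [← ENNReal.ofReal_pow (by linarith), ← ENNReal.ofReal_ofNat]
      exact ENNReal.ofReal_le_ofReal htN
  refine (htilt q haq t ht1 _ _ hU hV P x T).trans ?_
  have hinv : (1 - ENNReal.ofReal t⁻¹)⁻¹ = ENNReal.ofReal ((N : ℝ) + 1) := by
    rw [← ENNReal.ofReal_one, ← ENNReal.ofReal_sub _ (by positivity), ← ENNReal.ofReal_inv_of_pos]
    · congr 1
      rw [ht]
      field_simp
      ring
    · rw [sub_pos]; exact inv_lt_one_of_one_lt₀ ht1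
  rw [hinv, ← ENNReal.ofReal_toReal hCt, ← ENNReal.ofReal_natCast, ← ENNReal.ofReal_one,
    ← ENNReal.ofReal_ofNat, ← ENNReal.ofReal_mul (p := (6 : ℝ)) (by norm_num),
    ← ENNReal.ofReal_add zero_le_one (by positivity)]
  repeat rw [← ENNReal.ofReal_mul (by positivity)]
  refine ENNReal.ofReal_le_ofReal ?_
  have h1 : t ^ (f.depth + 1) ≤ 2 ^ (f.depth + 1) := pow_le_pow_left₀ (by linarith) ht2 _
  have h2 : (N : ℝ) + 1 ≤ (7 * c + 2 * f.L + 3) * W := by
    rw [hN]; push_cast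
    nlinarith [mul_nonneg (show (0 : ℝ) ≤ 2 * f.L + 3 by positivity) (sub_nonneg.2 hW)]
  have h3 : 1 + 6 * (c * W) ≤ 7 * c * W := by linarith
  have h4 : W * W * W ≤ X ^ (1 / 4 : ℝ) := by
    rw [show W * W * W = W ^ (3 : ℕ) by ring, ← Real.rpow_natCast W 3]
    simp only [W]
    rw [← Real.rpow_natCast X 3, ← Real.rpow_mul (by positivity), ← Real.rpow_mul (by positivity)]
    refine Real.rpow_le_rpow_of_exponent_le hX (le_of_eq_of_le ?_ hsmall)
    rw [hη]; push_cast; ring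
  calc Ct.toReal * t ^ (f.depth + 1) * (Fintype.card ι * (c * W) * ((N : ℝ) + 1)) *
        (1 + 6 * (c * W))
      ≤ Ct.toReal * 2 ^ (f.depth + 1) * (Fintype.card ι * (c * W) *
          ((7 * c + 2 * f.L + 3) * W)) * (7 * c * W) := by gcongr
    _ = ct * c * (7 * c + 2 * f.L + 3) * (7 * c) * (W * W * W) := by simp only [ct]; ring
    _ ≤ _ := by gcongr

/-- The main estimate holds for every frame with a positive critical point. -/
theorem Frame.tiltBound [Fintype ι] [Nonempty ι] (f : Frame Γ ι) (hpc : 0 < pc f.H) :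
    f.TiltBound := by
  classical
  have := f.countable
  set a : ℝ := pc f.H / 2 with hadef
  have ha : 0 < a := half_pos hpc
  obtain ⟨s, hs0, hs1, hgood, hbad⟩ := f.exists_exponent hpc
  obtain ⟨m, hm0, hm⟩ := exists_cost a f.rad
  set μ : ℝ := 2 + 2 * m / s with hμ
  have hμ2 : 2 ≤ μ := le_add_of_nonneg_right (by positivity)
  set ε : ℝ := min (s ^ 2 / 2) (s / (36 * μ)) / 4 with hε
  have hε0 : 0 < ε := by positivity
  have hε1 : 4 * ε ≤ s ^ 2 / 2 := by rw [hε]; linarith [min_le_left (s ^ 2 / 2) (s / (36 * μ))]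
  have hε2 : 4 * ε ≤ s / (36 * μ) := by
    rw [hε]; linarith [min_le_right (s ^ 2 / 2) (s / (36 * μ))]
  have hεs : 2 * ε < s := by nlinarith
  set σ : ℝ := min 1 (s + ε)
  have hσs : s ≤ σ := le_min hs1 (by linarith)
  have hσ0 : 0 < σ := lt_of_lt_of_le hs0 hσs
  have hσ1 : σ ≤ 1 := min_le_left _ _
  obtain ⟨S⟩ := f.exists_seed hpc (σ₁ := s - 2 * ε) (σ₂ := s - ε) (by linarith) (by linarith)
    (hbad _ (by linarith))
  have hgap : s - 2 * ε < σ * (1 + ε) := by nlinarith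
  obtain ⟨ζ, hζ⟩ : ∃ ζ, ζ = (σ * (1 + ε) - (s - 2 * ε)) / (1 + ε) := ⟨_, rfl⟩
  have hζ4 : ζ ≤ 4 * ε := by
    rw [hζ, div_le_iff₀ (by linarith)]
    nlinarith [min_le_right 1 (s + ε)]
  have hζσ : ζ ≤ σ ^ 2 / 2 := by
    have : s ^ 2 ≤ σ ^ 2 := pow_le_pow_left₀ hs0.le hσs 2
    linarith
  have hsmall : 9 * ζ * (2 + 2 * m / σ) / σ ≤ 1 / 4 := by
    have hζ0 : 0 ≤ ζ := hζ ▸ div_nonneg (by linarith) (by linarith)
    calc 9 * ζ * (2 + 2 * m / σ) / σ ≤ 9 * ζ * μ / s := by rw [hμ]; gcongr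
      _ ≤ 9 * (s / (36 * μ)) * μ / s := by gcongr; linarith
      _ = 1 / 4 := by field_simp; ring
  obtain ⟨K, hK, hgrow⟩ := f.growth_le ha
  obtain ⟨C₀, hC₀, htilt⟩ := S.tilt_le hσ0 hσ1 hε0 hgap hζ hζσ ha hm0 hm hsmall hK
  have hG : ∀ q : unitInterval, a ≤ q → (q : ℝ) < pc f.H → f.growth q σ ≤ K :=
    fun q h1 h2 => hgrow q σ h1 hσ0.le hσ1 (hgood ε hε0 q h1 h2)
  have hcore : ∀ q : unitInterval, (S.q₀ : ℝ) ≤ q → (q : ℝ) < pc f.H →
      ∃ X₀ t : ℝ, 1 ≤ X₀ ∧ 1 < t ∧ t ≤ 2 ∧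
        (∀ X : ℝ, 1 ≤ X → f.SuscLe q X → X₀ ≤ X) ∧
        ∀ (P : F2) (x : Γ × ι) (T : Finset (Γ × ι)),
          ∑ y ∈ T, f.tau q f.H x y * ENNReal.ofReal (t ^ (ht P (f.pr y) - ht P (f.pr x)))
            ≤ ENNReal.ofReal (C₀ * X₀ ^ (1 / 4 : ℝ)) := by
    intro q hq hqc
    obtain ⟨X', hX', hsusc'⟩ := f.susc_finite hqc
    set χ : ℝ≥0∞ := max 1 (⨆ x, ∑' y, f.tau q f.H x y)
    have hχ : χ ≠ ⊤ := by
      refine ne_top_of_le_ne_top (ENNReal.add_ne_top.2 ⟨ENNReal.one_ne_top, hX'⟩)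
        (max_le le_self_add ((iSup_le hsusc').trans le_add_self))
    have h1 : 1 ≤ χ.toReal := by
      rw [← ENNReal.toReal_one]
      exact ENNReal.toReal_mono hχ (le_max_left _ _)
    have hsusc : ∀ x, ∑' y, f.tau q f.H x y ≤ ENNReal.ofReal χ.toReal := fun x => by
      rw [ENNReal.ofReal_toReal hχ]
      exact (le_iSup (fun x => ∑' y, f.tau q f.H x y) x).trans (le_max_right _ _)
    have haq : a ≤ q := S.q₀_ge.trans hq
    obtain ⟨t, ht1, ht2, hb⟩ := htilt q hq haq hqc (hG q haq hqc) χ.toReal h1 hsusc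
    refine ⟨χ.toReal, t, h1, ht1, ht2, fun X hX hle => ?_, hb⟩
    refine ENNReal.toReal_le_of_le_ofReal (by linarith)
      (max_le (ENNReal.one_le_ofReal.2 hX) (iSup_le fun x => ?_))
    rw [ENNReal.tsum_eq_iSup_sum]
    refine iSup_le fun T => le_trans (le_of_eq ?_) (ENNReal.ofReal_le_ofReal (hle x T))
    rw [ENNReal.ofReal_sum_of_nonneg fun _ _ => measureReal_nonneg]
    exact Finset.sum_congr rfl fun y _ => (ENNReal.ofReal_toReal (measure_ne_top _ _)).symm
  have hreal : ∀ (q : unitInterval) (t M : ℝ), 1 < t → 0 ≤ M →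
      (∀ (P : F2) (x : Γ × ι) (T : Finset (Γ × ι)),
        ∑ y ∈ T, f.tau q f.H x y * ENNReal.ofReal (t ^ (ht P (f.pr y) - ht P (f.pr x)))
          ≤ ENNReal.ofReal M) → f.TiltLe q t M := by
    intro q t M ht hM h P x T
    have ht0 : 0 < t := by linarith
    rw [← ENNReal.ofReal_le_ofReal_iff hM]
    refine le_trans (le_of_eq ?_) (h P x T)
    rw [ENNReal.ofReal_sum_of_nonneg fun y _ => mul_nonneg measureReal_nonneg (by positivity)]
    refine Finset.sum_congr rfl fun y _ => ?_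
    rw [ENNReal.ofReal_mul measureReal_nonneg, measureReal_def,
      ENNReal.ofReal_toReal (measure_ne_top _ _)]
    rfl
  obtain ⟨X₁, t₁, hX₁, ht₁, ht₁', -, hb₁⟩ := hcore S.q₀ le_rfl S.q₀_lt
  set M₁ : ℝ := C₀ * X₁ ^ (1 / 4 : ℝ)
  have hM₁ : 0 ≤ M₁ := mul_nonneg hC₀ (Real.rpow_nonneg (by linarith) _)
  refine ⟨C₀ + M₁, by linarith, fun q hq hqc => ?_⟩
  rcases le_or_gt (S.q₀ : ℝ) q with h | h
  · obtain ⟨X₀, t, hX₀, ht, ht', hmin, hb⟩ := hcore q h hqc
    refine ⟨t, ht, ht', fun X hX hle => hreal q t _ ht (by positivity) fun P x T =>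
      (hb P x T).trans (ENNReal.ofReal_le_ofReal ?_)⟩
    exact mul_le_mul (le_add_of_nonneg_right hM₁)
      (Real.rpow_le_rpow (by linarith) (hmin X hX hle) (by norm_num))
      (Real.rpow_nonneg (by linarith) _) (by linarith)
  · refine ⟨t₁, ht₁, ht₁', fun X hX _ => hreal q t₁ _ ht₁ (by positivity) fun P x T =>
      le_trans ((Finset.sum_le_sum fun y _ => mul_le_mul_left (f.tau_le_tau h.le f.H x y) _).trans
        (hb₁ P x T)) (ENNReal.ofReal_le_ofReal ?_)⟩
    exact (le_add_of_nonneg_left hC₀).trans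
      (le_mul_of_one_le_right (by linarith) (Real.one_le_rpow hX (by norm_num)))

end Vale.Agent.P165.Large
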